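import Vale.Agent.P119.KE.LOne

/-! Loss terms and damping factors. -/

open MeasureTheory Filter Topology Set ProbabilityTheory
open scoped ENNReal NNReal

noncomputable section

namespace Vale.Agent.P119.KE

/-- `exp(-a)` for `a ∈ [0, ∞]`. -/
def en (a : ℝ≥0∞) : ℝ≥0∞ := if a = ∞ then 0 else ENNReal.ofReal (Real.exp (-a.toReal))

theorem en_zero : en 0 = 1 := by simp [en]

theorem en_top : en ∞ = 0 := by simp [en]

theorem en_of_ne_top {a : ℝ≥0∞} (h : a ≠ ∞) : en a = ENNReal.ofReal (Real.exp (-a.toReal)) := by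
  simp [en, h]

theorem en_ofReal {a : ℝ} (h : 0 ≤ a) : en (ENNReal.ofReal a) = ENNReal.ofReal (Real.exp (-a)) := by
  rw [en_of_ne_top ENNReal.ofReal_ne_top, ENNReal.toReal_ofReal h]

theorem en_le_one (a : ℝ≥0∞) : en a ≤ 1 := by
  unfold en
  split_ifs
  · exact zero_le
  · rw [ENNReal.ofReal_le_one]
    exact Real.exp_le_one_iff.2 (neg_nonpos.2 ENNReal.toReal_nonneg)

theorem en_anti {a b : ℝ≥0∞} (h : a ≤ b) : en b ≤ en a := by
  by_cases hb : b = ∞
  · rw [hb, en_top]; exact zero_le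
  · have ha : a ≠ ∞ := ne_top_of_le_ne_top hb h
    rw [en_of_ne_top ha, en_of_ne_top hb]
    apply ENNReal.ofReal_le_ofReal
    apply Real.exp_le_exp.2
    exact neg_le_neg (ENNReal.toReal_mono hb h)

theorem en_add (a b : ℝ≥0∞) : en (a + b) = en a * en b := by
  by_cases ha : a = ∞
  · simp [ha, en_top]
  by_cases hb : b = ∞
  · simp [hb, en_top]
  rw [en_of_ne_top ha, en_of_ne_top hb, en_of_ne_top (ENNReal.add_ne_top.2 ⟨ha, hb⟩),
    ← ENNReal.ofReal_mul (Real.exp_pos _).le, ENNReal.toReal_add ha hb, neg_add, Real.exp_add]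

/-- Lipschitz bound. -/
theorem en_le_en_add {a b c : ℝ≥0∞} (h : b ≤ a + c) : en a ≤ en b + c := by
  by_cases hc : c = ∞
  · simp [hc]
  by_cases ha : a = ∞
  · rw [ha, en_top]; exact zero_le
  have hb : b ≠ ∞ := ne_top_of_le_ne_top (ENNReal.add_ne_top.2 ⟨ha, hc⟩) h
  rw [en_of_ne_top ha, en_of_ne_top hb]
  conv_rhs => rw [← ENNReal.ofReal_toReal hc]
  rw [← ENNReal.ofReal_add (Real.exp_pos _).le ENNReal.toReal_nonneg]
  apply ENNReal.ofReal_le_ofReal
  have h1 : b.toReal ≤ a.toReal + c.toReal := by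
    rw [← ENNReal.toReal_add ha hc]
    exact ENNReal.toReal_mono (ENNReal.add_ne_top.2 ⟨ha, hc⟩) h
  have ha0 : 0 ≤ a.toReal := ENNReal.toReal_nonneg
  have hc0 : 0 ≤ c.toReal := ENNReal.toReal_nonneg
  set α := a.toReal
  set β := b.toReal
  set χ := c.toReal
  -- e^{-α} ≤ e^{-β} + χ
  have h2 : Real.exp (-(α + χ)) ≤ Real.exp (-β) := Real.exp_le_exp.2 (by linarith)
  have h3 : Real.exp (-α) ≤ 1 := Real.exp_le_one_iff.2 (by linarith)
  have h4 : 1 - χ ≤ Real.exp (-χ) := by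
    have := Real.add_one_le_exp (-χ)
    linarith
  have h5 : Real.exp (-(α + χ)) = Real.exp (-α) * Real.exp (-χ) := by
    rw [← Real.exp_add]; ring_nf
  have h6 : Real.exp (-α) * (1 - χ) ≤ Real.exp (-α) * Real.exp (-χ) :=
    mul_le_mul_of_nonneg_left h4 (Real.exp_pos _).le
  nlinarith [mul_nonneg hc0 (sub_nonneg.2 h3)]

@[fun_prop]
theorem measurable_en : Measurable en := by
  unfold en
  refine Measurable.ite (measurableSet_singleton _) measurable_const ?_
  fun_prop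

/-- Collision data: a gain kernel and a loss kernel. -/
structure Coll extends Gain where
  k : E3 → E3 → ℝ≥0∞
  meas_k : Measurable fun p : E3 × E3 => k p.1 p.2
  loss_gauss : ∀ b, 0 < b → ∀ v, ∫⁻ w, k v w * gs 1 b w ≤ ENNReal.ofReal (R b * (1 + ‖v‖))

variable (G : Coll)

/-- The loss frequency `ν[h](v)`. -/
def Coll.nu (h : E3 → ℝ≥0∞) (v : E3) : ℝ≥0∞ := ∫⁻ w, G.k v w * h w

theorem Coll.measurable_k {α : Type*} [MeasurableSpace α] {a b : α → E3} (ha : Measurable a)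
    (hb : Measurable b) : Measurable fun q => G.k (a q) (b q) :=
  Measurable.comp (g := fun p : E3 × E3 => G.k p.1 p.2) G.meas_k (ha.prodMk hb)

theorem Coll.measurable_nu {α : Type*} [MeasurableSpace α] {h : α × E3 → ℝ≥0∞} {w : α → E3}
    (mh : Measurable h) (mw : Measurable w) : Measurable fun a => G.nu (fun u => h (a, u)) (w a) := by
  have h1 : Measurable fun q : α × E3 => G.k (w q.1) q.2 * h q :=
    (G.measurable_k (by fun_prop) measurable_snd).mul mh
  exact Measurable.lintegral_prod_right' (ν := (volume : Measure E3)) h1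

theorem Coll.nu_mono {h h' : E3 → ℝ≥0∞} (hh : ∀ w, h w ≤ h' w) (v : E3) :
    G.nu h v ≤ G.nu h' v :=
  lintegral_mono fun w => mul_le_mul_right (hh w) _

theorem Coll.nu_add {h h' : E3 → ℝ≥0∞} (mh : Measurable h) (v : E3) :
    G.nu (fun w => h w + h' w) v = G.nu h v + G.nu h' v := by
  unfold Coll.nu
  simp_rw [mul_add]
  exact lintegral_add_left ((G.measurable_k measurable_const measurable_id).mul mh) _

theorem Coll.nu_gs {a b : ℝ} (ha : 0 ≤ a) (hb : 0 < b) (v : E3) :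
    G.nu (gs a b) v ≤ ENNReal.ofReal (a * (G.R b * (1 + ‖v‖))) := by
  unfold Coll.nu
  have h1 : ∀ w, G.k v w * gs a b w = ENNReal.ofReal a * (G.k v w * gs 1 b w) := by
    intro w
    unfold gs
    rw [one_mul, ENNReal.ofReal_mul ha]
    ring
  simp_rw [h1]
  have m : Measurable fun w => G.k v w * gs 1 b w :=
    (G.measurable_k measurable_const measurable_id).mul (measurable_gs 1 b)
  rw [lintegral_const_mul _ m, ENNReal.ofReal_mul ha]
  exact mul_le_mul_right (G.loss_gauss b hb v) _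

/-- `∫_s^t ν[h](τ, x - (t - τ) v, v) dτ`. -/
def Coll.dampArg (h : ℝ → E3 → E3 → ℝ≥0∞) (s t : ℝ) (x v : E3) : ℝ≥0∞ :=
  ∫⁻ τ in Ioc s t, G.nu (h τ (x - (t - τ) • v)) v

/-- The damping factor of a line. -/
def Coll.damp (h : ℝ → E3 → E3 → ℝ≥0∞) (s t : ℝ) (x v : E3) : ℝ≥0∞ := en (G.dampArg h s t x v)

theorem Coll.measurable_dampArg {h : ℝ → E3 → E3 → ℝ≥0∞} (mh : JM h) :
    Measurable fun p : ℝ × ℝ × E3 × E3 => G.dampArg h p.1 p.2.1 p.2.2.1 p.2.2.2 := by
  have h1 : Measurable fun q : (ℝ × ℝ × E3 × E3) × ℝ =>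
      (Ioc q.1.1 q.1.2.1).indicator (fun τ =>
        G.nu (h τ (q.1.2.2.1 - (q.1.2.1 - τ) • q.1.2.2.2)) q.1.2.2.2) q.2 := by
    have h2 : (fun q : (ℝ × ℝ × E3 × E3) × ℝ =>
      (Ioc q.1.1 q.1.2.1).indicator (fun τ =>
        G.nu (h τ (q.1.2.2.1 - (q.1.2.1 - τ) • q.1.2.2.2)) q.1.2.2.2) q.2) =
        {q : (ℝ × ℝ × E3 × E3) × ℝ | q.1.1 < q.2 ∧ q.2 ≤ q.1.2.1}.indicator
          (fun q => G.nu (h q.2 (q.1.2.2.1 - (q.1.2.1 - q.2) • q.1.2.2.2)) q.1.2.2.2) := by
      ext q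
      by_cases hq : q.1.1 < q.2 ∧ q.2 ≤ q.1.2.1
      · rw [indicator_of_mem (show q.2 ∈ Ioc q.1.1 q.1.2.1 from hq),
          indicator_of_mem (by exact hq)]
      · rw [indicator_of_notMem (show q.2 ∉ Ioc q.1.1 q.1.2.1 from hq),
          indicator_of_notMem (by exact hq)]
    rw [h2]
    refine Measurable.indicator ?_ ?_
    · exact G.measurable_nu (α := (ℝ × ℝ × E3 × E3) × ℝ)
        (h := fun q => h q.1.2 (q.1.1.2.2.1 - (q.1.1.2.1 - q.1.2) • q.1.1.2.2.2) q.2)
        (w := fun q => q.1.2.2.2) (mh.comp (by fun_prop) (by fun_prop) (by fun_prop))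
        (by fun_prop)
    · exact (measurableSet_lt (by fun_prop) measurable_snd).inter
        (measurableSet_le measurable_snd (by fun_prop))
  have h3 := Measurable.lintegral_prod_right' (ν := (volume : Measure ℝ)) h1
  unfold Coll.dampArg
  simp_rw [lintegral_indicator measurableSet_Ioc] at h3
  exact h3

/-- The mild data with initial datum `f₀` and damping by `h`. -/
def Coll.data (f₀ : E3 → E3 → ℝ≥0∞) (m₀ : Measurable fun p : E3 × E3 => f₀ p.1 p.2)
    (h : ℝ → E3 → E3 → ℝ≥0∞) (mh : JM h) : MildData where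
  g₀ t x v := f₀ (x - t • v) v * G.damp h 0 t x v
  S := G.damp h
  mg := by
    refine Measurable.mul ?_ ?_
    · exact Measurable.comp (g := fun p : E3 × E3 => f₀ p.1 p.2) m₀
        (f := fun p : ℝ × E3 × E3 => (p.2.1 - p.1 • p.2.2, p.2.2)) (by fun_prop)
    · exact measurable_en.comp ((G.measurable_dampArg mh).comp
        (f := fun p : ℝ × E3 × E3 => ((0 : ℝ), p.1, p.2.1, p.2.2)) (by fun_prop))
  mS := measurable_en.comp (G.measurable_dampArg mh)
  S_le _ _ _ _ := en_le_one _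

/-- `f` is a mild solution of the Boltzmann equation on `[0, T]` with initial datum `f₀`. -/
def Coll.Mild (f₀ : E3 → E3 → ℝ≥0∞) (m₀ : Measurable fun p : E3 × E3 => f₀ p.1 p.2) (T : ℝ)
    (f : ℝ → E3 → E3 → ℝ≥0∞) : Prop :=
  ∃ mf : JM f, (G.data f₀ m₀ f mf).IsSol G.toGain T f

end Vale.Agent.P119.KE
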