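import Vale.Agent.P119.KE.Shapes
import Vale.Agent.P119.ML.CapNum

/-!
# P119: kinetic bounds by depth (`helper185`)

For the kinetic densities `K.kd L τ t l` of the shapes (M-world truncated at depth `L`), with
constants which do not depend on `L`:

* `xk_le`: the trees of depth exactly `j`: at most `K.dc j e^{-b|v|²}`;
* `node_rate_le`: the rate of the nodes of depth exactly `d`: at most `K.nn d (1+|v|) e^{-b|v|²}`;
* `gk_le`: the trees of depth `j` without the survival of the last leg: `K.gc j e^{-(b/2)|v|²}`;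
* `partner_rate_le`, `partner_rate_gk_le`: partner rates, at most `K.rr j (1+|v|)`;
* `dc`, `nn`, `gc`, `rr` are superexponentially small.
-/

open MeasureTheory Filter Topology Set ProbabilityTheory
open scoped ENNReal NNReal

noncomputable section

namespace Vale.Agent.P119.KE

open KU M KT

/-! ### Superexponentially small sequences -/

section superExp

variable {a b : ℕ → ℝ}

theorem SuperExp.const_mul (h : SuperExp a) (c : ℝ) : SuperExp fun n => c * a n := by
  intro A hA
  have h1 := (h A hA).const_mul c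
  rw [mul_zero] at h1
  exact h1.congr fun n => by ring

theorem SuperExp.add (ha : SuperExp a) (hb : SuperExp b) : SuperExp fun n => a n + b n := by
  intro A hA
  have h1 := (ha A hA).add (hb A hA)
  rw [add_zero] at h1
  exact h1.congr fun n => by ring

theorem SuperExp.mono (hb : SuperExp b) (h0 : ∀ n, 0 ≤ a n) (hab : ∀ n, a n ≤ b n) :
    SuperExp a := by
  intro A hA
  exact squeeze_zero (fun n => mul_nonneg (pow_nonneg hA n) (h0 n))
    (fun n => mul_le_mul_of_nonneg_left (hab n) (pow_nonneg hA n)) (hb A hA)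

theorem SuperExp.of_succ (h : SuperExp fun n => a (n + 1)) : SuperExp a := by
  intro A hA
  rw [← tendsto_add_atTop_iff_nat 1]
  have h1 := (h A hA).const_mul A
  rw [mul_zero] at h1
  exact h1.congr fun n => by rw [pow_succ]; ring

theorem SuperExp.poly (h : SuperExp a) (h0 : ∀ n, 0 ≤ a n) :
    SuperExp fun n => (n + 1 : ℝ) * a n := by
  intro A hA
  have h1 := h (2 * A) (by positivity)
  refine squeeze_zero (fun n => ?_) (fun n => ?_) h1
  · have := h0 n; positivity
  · have h2 : (n + 1 : ℝ) ≤ 2 ^ n := by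
      have : n + 1 ≤ 2 ^ n := Nat.lt_two_pow_self
      exact_mod_cast this
    rw [mul_pow]
    have h3 : 0 ≤ A ^ n * a n := mul_nonneg (pow_nonneg hA n) (h0 n)
    calc A ^ n * ((n + 1) * a n) = (n + 1) * (A ^ n * a n) := by ring
      _ ≤ 2 ^ n * (A ^ n * a n) := by gcongr
      _ = _ := by ring

end superExp

variable {Φ : E3 → ℝ} {hΦ : IsPotential Φ} {f₀ : Ph → ℝ}
  {m₀ : Measurable fun p : E3 × E3 => K1.f0hat f₀ p.1 p.2} {T : ℝ} {f : ℝ → Ph → ℝ}
  (K : KinFamily hΦ f₀ m₀ T f)

/-! ### The constants -/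

/-- Size of the density of depth exactly `j`. -/
def KinFamily.dc (j : ℕ) : ℝ := if j = 0 then K.M else K.e j

theorem KinFamily.dc_nonneg (j : ℕ) : 0 ≤ K.dc j := by
  unfold KinFamily.dc
  split_ifs
  · exact K.M0
  · exact K.e0 j

theorem KinFamily.dc_le (j : ℕ) : K.dc j ≤ K.M + K.e 0 := by
  unfold KinFamily.dc
  have h1 := K.M0
  have h2 := K.e0 0
  split_ifs
  · linarith
  · have := K.anti (Nat.zero_le j)
    linarith

theorem KinFamily.dc_superExp : SuperExp K.dc := by
  refine SuperExp.of_succ ?_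
  have h1 : SuperExp fun n => K.e n := K.sup
  refine h1.mono (fun n => K.dc_nonneg _) fun n => ?_
  unfold KinFamily.dc
  rw [if_neg (by omega)]
  exact K.anti (Nat.le_succ n)

/-- Size of the node rate of depth exactly `d`. -/
def KinFamily.nn (d : ℕ) : ℝ :=
  (K1.gainOf hΦ).R K.b * ∑ p ∈ Cap.prs d, K.dc p.1 * K.dc p.2

theorem KinFamily.nn_nonneg (d : ℕ) : 0 ≤ K.nn d :=
  mul_nonneg ((K1.gainOf hΦ).R_nonneg _)
    (Finset.sum_nonneg fun _ _ => mul_nonneg (K.dc_nonneg _) (K.dc_nonneg _))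

theorem card_prs_le (d : ℕ) : ((Cap.prs d).card : ℝ) ≤ (d : ℝ) * d := by
  have h1 : (Cap.prs d).card ≤ d * d := by
    refine (Finset.card_filter_le _ _).trans ?_
    rw [Finset.card_product, Finset.card_range]
  exact_mod_cast h1

theorem KinFamily.nn_superExp : SuperExp K.nn := by
  refine SuperExp.of_succ ?_
  have h1 := ((K.dc_superExp.poly K.dc_nonneg).poly fun n => by
    have := K.dc_nonneg n
    positivity).const_mul ((K1.gainOf hΦ).R K.b * (K.M + K.e 0))
  refine h1.mono (fun n => K.nn_nonneg _) fun n => ?_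
  have hR := (K1.gainOf hΦ).R_nonneg K.b
  have hM := K.M0
  have he := K.e0 0
  have h2 : ∀ p ∈ Cap.prs (n + 1), K.dc p.1 * K.dc p.2 ≤ (K.M + K.e 0) * K.dc n := by
    intro p hp
    have hm : max p.1 p.2 = n := by
      have := Cap.mem_prs.1 hp
      omega
    have k1 := K.dc_nonneg p.1
    have k2 := K.dc_nonneg p.2
    have k3 := K.dc_le p.1
    have k4 := K.dc_le p.2
    rcases le_total p.2 p.1 with h | h
    · have h3 : p.1 = n := by rw [max_eq_left h] at hm; exact hm
      rw [h3, mul_comm]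
      exact mul_le_mul_of_nonneg_right k4 (K.dc_nonneg n)
    · have h3 : p.2 = n := by rw [max_eq_right h] at hm; exact hm
      rw [h3]
      exact mul_le_mul_of_nonneg_right k3 (K.dc_nonneg n)
  have h3 : ∑ p ∈ Cap.prs (n + 1), K.dc p.1 * K.dc p.2 ≤
      ((n + 1 : ℝ) * (n + 1)) * ((K.M + K.e 0) * K.dc n) := by
    refine (Finset.sum_le_card_nsmul _ _ _ h2).trans ?_
    rw [nsmul_eq_mul]
    have h4 := card_prs_le (n + 1)
    push_cast at h4
    have := K.dc_nonneg n
    gcongr
  unfold KinFamily.nn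
  calc (K1.gainOf hΦ).R K.b * ∑ p ∈ Cap.prs (n + 1), K.dc p.1 * K.dc p.2
      ≤ (K1.gainOf hΦ).R K.b * (((n + 1 : ℝ) * (n + 1)) * ((K.M + K.e 0) * K.dc n)) := by gcongr
    _ = _ := by ring

/-- Size of the density of depth exactly `j` without the survival of the last leg. -/
def KinFamily.gc (j : ℕ) : ℝ :=
  if j = 0 then K.M else T * K.nn j * (1 + 1 / Real.sqrt (K.b / 2))

theorem KinFamily.gc_nonneg (hT : 0 ≤ T) (j : ℕ) : 0 ≤ K.gc j := by
  unfold KinFamily.gc
  have := K.nn_nonneg j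
  split_ifs
  · exact K.M0
  · positivity

theorem KinFamily.gc_superExp (hT : 0 ≤ T) : SuperExp K.gc := by
  refine SuperExp.of_succ ?_
  have h1 : SuperExp fun n => K.nn (n + 1) := by
    intro A hA
    have h2 := K.nn_superExp (A + 1) (by positivity)
    rw [← tendsto_add_atTop_iff_nat 1] at h2
    refine squeeze_zero (fun n => mul_nonneg (pow_nonneg hA n) (K.nn_nonneg _)) (fun n => ?_) h2
    refine mul_le_mul_of_nonneg_right ?_ (K.nn_nonneg _)
    calc A ^ n ≤ (A + 1) ^ n := pow_le_pow_left₀ hA (by linarith) n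
      _ ≤ (A + 1) ^ (n + 1) := pow_le_pow_right₀ (by linarith) (Nat.le_succ n)
  refine (h1.const_mul (T * (1 + 1 / Real.sqrt (K.b / 2)))).mono
    (fun n => K.gc_nonneg hT _) fun n => ?_
  unfold KinFamily.gc
  rw [if_neg (by omega)]
  exact le_of_eq (by ring)

/-- Size of the partner rates. -/
def KinFamily.rr (j : ℕ) : ℝ := (K1.collOf hΦ).R (K.b / 2) * (K.dc j + K.gc j)

theorem KinFamily.rr_nonneg (hT : 0 ≤ T) (j : ℕ) : 0 ≤ K.rr j :=
  mul_nonneg ((K1.collOf hΦ).R_nonneg _) (add_nonneg (K.dc_nonneg j) (K.gc_nonneg hT j))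

theorem KinFamily.rr_superExp (hT : 0 ≤ T) : SuperExp K.rr :=
  (K.dc_superExp.add (K.gc_superExp hT)).const_mul _

/-! ### The densities of depth exactly `j` -/

open Classical in
/-- The density of the trees of depth exactly `j`. -/
def KinFamily.xk (L j : ℕ) (t : ℝ) (l : Ph) : ℝ≥0∞ :=
  ∑ τ ∈ (shapes L).filter (fun τ => τ.depth = j), K.kd L τ t l

theorem KinFamily.xk_le {L : ℕ} (hL : K.L₀ ≤ L + 1) {j : ℕ} (hj : j ≤ L) {t : ℝ}
    (ht : t ∈ Icc 0 T) (l : Ph) : K.xk L j t l ≤ gs (K.dc j) K.b l.2 := by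
  classical
  unfold KinFamily.xk KinFamily.dc
  by_cases hj0 : j = 0
  · subst hj0
    rw [if_pos rfl]
    refine le_trans (Finset.sum_le_sum_of_subset ?_) (K.sum_kd_le hL 0 ht l)
    intro τ hτ
    rw [Finset.mem_filter] at hτ
    rw [mem_shapes]
    exact hτ.2.le
  · rw [if_neg hj0]
    obtain ⟨i, rfl⟩ : ∃ i, j = i + 1 := ⟨j - 1, by omega⟩
    have h1 := K.sum_kd_tail hL (d := i) (by omega) ht l
    have h2 : ∑ τ ∈ (shapes L).filter (fun τ => τ.depth = i + 1), K.kd L τ t l +
        ∑ τ ∈ shapes i, K.kd L τ t l ≤ ∑ τ ∈ shapes L, K.kd L τ t l := by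
      have hd : Disjoint ((shapes L).filter (fun τ => τ.depth = i + 1)) (shapes i) := by
        rw [Finset.disjoint_left]
        intro τ h3 h4
        rw [Finset.mem_filter] at h3
        rw [mem_shapes] at h4
        omega
      rw [← Finset.sum_union hd]
      refine Finset.sum_le_sum_of_subset ?_
      intro τ hτ
      rcases Finset.mem_union.1 hτ with h3 | h3
      · exact (Finset.mem_filter.1 h3).1
      · rw [mem_shapes] at h3 ⊢
        omega
    have h3 : ∑ τ ∈ shapes i, K.kd L τ t l ≠ ∞ :=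
      ((K.sum_kd_le hL i ht l).trans_lt (gs_lt_top _ _ _)).ne
    have h4 := h2.trans h1
    rw [add_comm (∑ τ ∈ shapes i, K.kd L τ t l)] at h4
    exact (ENNReal.add_le_add_iff_right h3).1 h4

theorem KinFamily.measurable_kd (L : ℕ) (τ : Shape) :
    Measurable fun x : ℝ × Ph => K.kd L τ x.1 x.2 :=
  KE.measurable_kd hΦ (measurable_dlg _ (K.u (L + 1)).2) m₀ τ

theorem KinFamily.measurable_kd_lineAt (L : ℕ) (τ : Shape) (s : ℝ) (x : E3) :
    Measurable fun w => K.kd L τ s (lineAt s x w) :=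
  KE.measurable_kd_lineAt hΦ (measurable_dlg _ (K.u (L + 1)).2) m₀ τ s x

theorem KinFamily.measurable_xk (L j : ℕ) : Measurable fun x : ℝ × Ph => K.xk L j x.1 x.2 := by
  classical
  unfold KinFamily.xk
  exact Finset.measurable_fun_sum _ fun τ _ => K.measurable_kd L τ

/-! ### Node rates -/

/-- The rate of the nodes with subtrees of shapes `a`, `b` at the time `s` on the line `l`. -/
def KinFamily.nr (L : ℕ) (a b : Shape) (s : ℝ) (l : Ph) : ℝ≥0∞ :=
  (K1.gainOf hΦ).Q (fun w => K.kd L a s (lineAt s (l.1 + s • l.2) w))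
    (fun w => K.kd L b s (lineAt s (l.1 + s • l.2) w)) l.2

theorem KinFamily.kd_node (L : ℕ) (a b : Shape) (t : ℝ) (l : Ph) :
    K.kd L (.node a b) t l = ∫⁻ s in Ioc 0 t, K.leg L s t l * K.nr L a b s l :=
  KE.kd_node hΦ (measurable_dlg _ (K.u (L + 1)).2) m₀ a b t l

open Classical in
theorem KinFamily.sum_nr_eq (L d : ℕ) (s : ℝ) (l : Ph) :
    ∑ a ∈ shapes L, ∑ b ∈ shapes L,
      (if max a.depth b.depth + 1 = d then K.nr L a b s l else 0) =
    ∑ p ∈ Cap.prs d, (K1.gainOf hΦ).Q (fun w => K.xk L p.1 s (lineAt s (l.1 + s • l.2) w))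
      (fun w => K.xk L p.2 s (lineAt s (l.1 + s • l.2) w)) l.2 := by
  have h1 : ∀ a b : Shape, (if max a.depth b.depth + 1 = d then K.nr L a b s l else 0) =
      ∑ p ∈ Cap.prs d, (if a.depth = p.1 then (if b.depth = p.2 then K.nr L a b s l else 0)
        else 0) := by
    intro a b
    by_cases h : max a.depth b.depth + 1 = d
    · rw [if_pos h, Finset.sum_eq_single_of_mem (a.depth, b.depth) (Cap.mem_prs.2 h)]
      · rw [if_pos rfl, if_pos rfl]
      · intro p _ hne
        by_cases h2 : a.depth = p.1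
        · by_cases h3 : b.depth = p.2
          · exact absurd (Prod.ext h2.symm h3.symm) hne
          · rw [if_pos h2, if_neg h3]
        · rw [if_neg h2]
    · rw [if_neg h]
      refine (Finset.sum_eq_zero fun p hp => ?_).symm
      by_cases h2 : a.depth = p.1
      · by_cases h3 : b.depth = p.2
        · refine absurd ?_ h
          rw [h2, h3]
          exact Cap.mem_prs.1 hp
        · rw [if_pos h2, if_neg h3]
      · rw [if_neg h2]
  simp_rw [h1]
  have h2 : ∀ p : ℕ × ℕ, (K1.gainOf hΦ).Q (fun w => K.xk L p.1 s (lineAt s (l.1 + s • l.2) w))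
      (fun w => K.xk L p.2 s (lineAt s (l.1 + s • l.2) w)) l.2 =
      ∑ a ∈ shapes L, ∑ b ∈ shapes L,
        (if a.depth = p.1 then (if b.depth = p.2 then K.nr L a b s l else 0) else 0) := by
    intro p
    unfold KinFamily.xk
    rw [Gain.Q_sum _ (fun i => K.measurable_kd_lineAt L i s (l.1 + s • l.2))
      (fun j => K.measurable_kd_lineAt L j s (l.1 + s • l.2)), Finset.sum_filter]
    refine Finset.sum_congr rfl fun a _ => ?_
    by_cases ha : a.depth = p.1
    · simp only [if_pos ha]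
      rw [Finset.sum_filter]
      rfl
    · simp only [if_neg ha]
      rw [Finset.sum_const_zero]
  simp_rw [h2]
  have h3 : ∀ a, ∑ b ∈ shapes L, ∑ p ∈ Cap.prs d,
      (if a.depth = p.1 then (if b.depth = p.2 then K.nr L a b s l else 0) else 0) =
      ∑ p ∈ Cap.prs d, ∑ b ∈ shapes L,
      (if a.depth = p.1 then (if b.depth = p.2 then K.nr L a b s l else 0) else 0) := fun a =>
    Finset.sum_comm
  simp_rw [h3]
  exact Finset.sum_comm

open Classical in
/-- **The node rate of depth exactly `d`.** -/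
theorem KinFamily.node_rate_le {L : ℕ} (hL : K.L₀ ≤ L + 1) {d : ℕ} (hd : d ≤ L + 1) {s : ℝ}
    (hs : s ∈ Icc 0 T) (l : Ph) :
    ∑ a ∈ shapes L, ∑ b ∈ shapes L,
      (if max a.depth b.depth + 1 = d then K.nr L a b s l else 0) ≤
    ENNReal.ofReal (K.nn d * ((1 + ‖l.2‖) * Real.exp (-K.b * ‖l.2‖ ^ 2))) := by
  rw [K.sum_nr_eq]
  have hR := (K1.gainOf hΦ).R_nonneg K.b
  have h1 : ∀ p ∈ Cap.prs d,
      (K1.gainOf hΦ).Q (fun w => K.xk L p.1 s (lineAt s (l.1 + s • l.2) w))
      (fun w => K.xk L p.2 s (lineAt s (l.1 + s • l.2) w)) l.2 ≤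
      ENNReal.ofReal (K.dc p.1 * K.dc p.2 * (K1.gainOf hΦ).R K.b * (1 + ‖l.2‖) *
        Real.exp (-K.b * ‖l.2‖ ^ 2)) := by
    intro p hp
    have hm := Cap.mem_prs.1 hp
    have h2 : p.1 ≤ L := by have := le_max_left p.1 p.2; omega
    have h3 : p.2 ≤ L := by have := le_max_right p.1 p.2; omega
    refine le_trans (Gain.Q_mono (G := K1.gainOf hΦ) (fun w => ?_) (fun w => ?_) l.2)
      (Gain.Q_gs (G := K1.gainOf hΦ) (K.dc_nonneg p.1) (K.dc_nonneg p.2) K.b0 l.2)
    · exact K.xk_le hL h2 hs _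
    · exact K.xk_le hL h3 hs _
  refine (Finset.sum_le_sum h1).trans ?_
  rw [← ENNReal.ofReal_sum_of_nonneg fun p _ => by
    have := K.dc_nonneg p.1
    have := K.dc_nonneg p.2
    positivity]
  refine ENNReal.ofReal_le_ofReal (le_of_eq ?_)
  unfold KinFamily.nn
  rw [Finset.mul_sum, Finset.sum_mul]
  exact Finset.sum_congr rfl fun p _ => by ring

/-! ### Without the survival of the last leg -/

/-- The density of the shape `τ` without the survival of the last leg. -/
def KinFamily.gk (L : ℕ) : Shape → ℝ → Ph → ℝ≥0∞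
  | .leaf, _, l => K1.f0hat f₀ l.1 l.2
  | .node a b, t, l => ∫⁻ s in Ioc 0 t, K.nr L a b s l

theorem KinFamily.leg_le_one (L : ℕ) (s t : ℝ) (l : Ph) : K.leg L s t l ≤ 1 :=
  en_le_one _

theorem KinFamily.kd_le_gk (L : ℕ) (τ : Shape) (t : ℝ) (l : Ph) :
    K.kd L τ t l ≤ K.gk L τ t l := by
  cases τ with
  | leaf =>
    have h1 : K.kd L .leaf t l = K1.f0hat f₀ l.1 l.2 * K.leg L 0 t l := kd_leaf t l
    rw [h1]
    exact mul_le_of_le_one_right zero_le (K.leg_le_one L 0 t l)
  | node a b =>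
    rw [K.kd_node]
    exact lintegral_mono fun s => mul_le_of_le_one_left zero_le (K.leg_le_one L s t l)

open Classical in
/-- **The trees of depth exactly `j`, without the survival of the last leg.** -/
theorem KinFamily.gk_le (hT : 0 ≤ T) {L : ℕ} (hL : K.L₀ ≤ L + 1) {j : ℕ} (hj : j ≤ L) {t : ℝ}
    (ht : t ∈ Icc 0 T) (l : Ph) :
    ∑ τ ∈ (shapes L).filter (fun τ => τ.depth = j), K.gk L τ t l ≤
      gs (K.gc j) (K.b / 2) l.2 := by
  have hb := K.b0
  by_cases hj0 : j = 0
  · subst hj0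
    have h1 : (shapes L).filter (fun τ => τ.depth = 0) = {Shape.leaf} := by
      ext τ
      rw [Finset.mem_filter, Finset.mem_singleton, mem_shapes]
      constructor
      · rintro ⟨-, h⟩
        cases τ with
        | leaf => rfl
        | node a b => exact absurd h (Nat.succ_ne_zero _)
      · rintro rfl
        exact ⟨Nat.zero_le _, rfl⟩
    rw [h1, Finset.sum_singleton]
    unfold KinFamily.gc
    rw [if_pos rfl]
    exact (K.f0_le l.1 l.2).trans (gs_mono K.M0 le_rfl (by linarith) l.2)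
  · obtain ⟨i, rfl⟩ : ∃ i, j = i + 1 := ⟨j - 1, by omega⟩
    have hmeas : ∀ a b : Shape, Measurable fun s => K.nr L a b s l := by
      intro a b
      have h2 : Measurable fun p : ℝ × (E3 × E3) =>
          K.kd L a p.1 (lineAt p.1 (l.1 + p.1 • l.2) p.2.1) *
            K.kd L b p.1 (lineAt p.1 (l.1 + p.1 • l.2) p.2.2) := by
        have e1 : Measurable fun p : ℝ × (E3 × E3) =>
            ((p.1, lineAt p.1 (l.1 + p.1 • l.2) p.2.1) : ℝ × Ph) := by
          unfold lineAt; fun_prop
        have e2 : Measurable fun p : ℝ × (E3 × E3) =>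
            ((p.1, lineAt p.1 (l.1 + p.1 • l.2) p.2.2) : ℝ × Ph) := by
          unfold lineAt; fun_prop
        exact ((K.measurable_kd L a).comp e1).mul ((K.measurable_kd L b).comp e2)
      exact Measurable.lintegral_prod_right' (ν := (K1.gainOf hΦ).K l.2) h2
    -- the sum over the nodes
    have h1 : ∑ τ ∈ (shapes L).filter (fun τ => τ.depth = i + 1), K.gk L τ t l ≤
        ∫⁻ s in Ioc 0 t, ∑ a ∈ shapes L, ∑ b ∈ shapes L,
          (if max a.depth b.depth + 1 = i + 1 then K.nr L a b s l else 0) := by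
      rw [Finset.sum_filter]
      obtain ⟨M, rfl⟩ : ∃ M, L = M + 1 := ⟨L - 1, by omega⟩
      rw [sum_shapes_succ]
      have e0 : (if Shape.leaf.depth = i + 1 then K.gk (M + 1) .leaf t l else 0) = 0 :=
        if_neg (by change ¬(0 = i + 1); omega)
      rw [e0, zero_add]
      have e1 : ∀ a b : Shape, (if (Shape.node a b).depth = i + 1 then K.gk (M + 1) (.node a b) t l
          else 0) = ∫⁻ s in Ioc 0 t, (if max a.depth b.depth + 1 = i + 1
            then K.nr (M + 1) a b s l else 0) := by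
        intro a b
        by_cases h : max a.depth b.depth + 1 = i + 1
        · rw [if_pos (show (Shape.node a b).depth = i + 1 from h)]
          simp only [if_pos h]
          rfl
        · rw [if_neg (show ¬(Shape.node a b).depth = i + 1 from h)]
          simp only [if_neg h, lintegral_zero]
      simp_rw [e1]
      have hm : ∀ a b : Shape, Measurable fun s => (if max a.depth b.depth + 1 = i + 1
            then K.nr (M + 1) a b s l else 0) := by
        intro a b
        by_cases h : max a.depth b.depth + 1 = i + 1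
        · simp only [if_pos h]; exact hmeas a b
        · simp only [if_neg h]; exact measurable_const
      have e2 : ∀ a : Shape, ∑ b ∈ shapes M, ∫⁻ s in Ioc 0 t, (if max a.depth b.depth + 1 = i + 1
            then K.nr (M + 1) a b s l else 0) = ∫⁻ s in Ioc 0 t, ∑ b ∈ shapes M,
            (if max a.depth b.depth + 1 = i + 1 then K.nr (M + 1) a b s l else 0) := fun a =>
        (lintegral_finsetSum _ fun b _ => hm a b).symm
      simp_rw [e2]
      rw [← lintegral_finsetSum _ fun a _ => Finset.measurable_fun_sum _ fun b _ => hm a b]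
      refine lintegral_mono fun s => ?_
      have hsub : shapes M ⊆ shapes (M + 1) := fun τ hτ => by
        rw [mem_shapes] at hτ ⊢
        omega
      exact (Finset.sum_le_sum fun a _ => Finset.sum_le_sum_of_subset hsub).trans
        (Finset.sum_le_sum_of_subset hsub)
    refine h1.trans ?_
    have h2 : ∫⁻ s in Ioc 0 t, ∑ a ∈ shapes L, ∑ b ∈ shapes L,
          (if max a.depth b.depth + 1 = i + 1 then K.nr L a b s l else 0) ≤
        ∫⁻ _ in Ioc 0 t, ENNReal.ofReal (K.nn (i + 1) *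
          ((1 + ‖l.2‖) * Real.exp (-K.b * ‖l.2‖ ^ 2))) := by
      refine setLIntegral_mono' measurableSet_Ioc fun s hs => ?_
      exact K.node_rate_le hL (by omega) ⟨hs.1.le, hs.2.trans ht.2⟩ l
    refine h2.trans ?_
    rw [setLIntegral_const, Real.volume_Ioc, sub_zero, mul_comm, ← ENNReal.ofReal_mul ht.1]
    unfold gs KinFamily.gc
    rw [if_neg (by omega)]
    apply ENNReal.ofReal_le_ofReal
    have hn := K.nn_nonneg (i + 1)
    have h3 := mul_exp_neg_sq_le (δ := K.b / 2) (by positivity) (norm_nonneg l.2)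
    have h4 : Real.exp (-K.b * ‖l.2‖ ^ 2) =
        Real.exp (-(K.b / 2) * ‖l.2‖ ^ 2) * Real.exp (-(K.b / 2) * ‖l.2‖ ^ 2) := by
      rw [← Real.exp_add]; ring_nf
    rw [h4]
    calc t * (K.nn (i + 1) * ((1 + ‖l.2‖) * (Real.exp (-(K.b / 2) * ‖l.2‖ ^ 2) *
          Real.exp (-(K.b / 2) * ‖l.2‖ ^ 2))))
        = t * K.nn (i + 1) * ((1 + ‖l.2‖) * Real.exp (-(K.b / 2) * ‖l.2‖ ^ 2)) *
          Real.exp (-(K.b / 2) * ‖l.2‖ ^ 2) := by ring
      _ ≤ T * K.nn (i + 1) * (1 + 1 / Real.sqrt (K.b / 2)) *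
          Real.exp (-(K.b / 2) * ‖l.2‖ ^ 2) := by
          have := ht.2
          have := ht.1
          gcongr

/-! ### Partner rates -/

theorem KinFamily.nu_le {c : ℝ} (hc : 0 ≤ c) {b : ℝ} (hb : K.b / 2 ≤ b) {h : E3 → ℝ≥0∞}
    (hh : ∀ w, h w ≤ gs c b w) (v : E3) : (K1.collOf hΦ).nu h v ≤
      ENNReal.ofReal (c * ((K1.collOf hΦ).R (K.b / 2) * (1 + ‖v‖))) := by
  have hb0 := K.b0
  refine le_trans ?_ ((K1.collOf hΦ).nu_gs hc (by positivity) v)
  unfold Coll.nu
  exact lintegral_mono fun w => mul_le_mul_right ((hh w).trans (gs_mono hc le_rfl hb w)) _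

/-- **The partner rate**, partners of depth exactly `j`, alive. -/
theorem KinFamily.partner_rate_le (hT : 0 ≤ T) {L : ℕ} (hL : K.L₀ ≤ L + 1) {j : ℕ} (hj : j ≤ L)
    {s : ℝ} (hs : s ∈ Icc 0 T) (x v : E3) :
    (K1.collOf hΦ).nu (fun w => K.xk L j s (lineAt s x w)) v ≤
      ENNReal.ofReal (K.rr j * (1 + ‖v‖)) := by
  have hb0 := K.b0
  refine (K.nu_le (K.dc_nonneg j) (b := K.b) (by linarith)
    (fun w => K.xk_le hL hj hs (lineAt s x w)) v).trans (ENNReal.ofReal_le_ofReal ?_)
  have h1 := (K1.collOf hΦ).R_nonneg (K.b / 2)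
  have h2 := K.gc_nonneg hT j
  unfold KinFamily.rr
  have h3 : 0 ≤ (K1.collOf hΦ).R (K.b / 2) * (1 + ‖v‖) * K.gc j := by positivity
  nlinarith

open Classical in
/-- **The partner rate**, partners of depth exactly `j`, without the survival of the last leg. -/
theorem KinFamily.partner_rate_gk_le (hT : 0 ≤ T) {L : ℕ} (hL : K.L₀ ≤ L + 1) {j : ℕ}
    (hj : j ≤ L) {s : ℝ} (hs : s ∈ Icc 0 T) (x v : E3) :
    (K1.collOf hΦ).nu (fun w => ∑ τ ∈ (shapes L).filter (fun τ => τ.depth = j),
      K.gk L τ s (lineAt s x w)) v ≤ ENNReal.ofReal (K.rr j * (1 + ‖v‖)) := by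
  refine (K.nu_le (K.gc_nonneg hT j) (b := K.b / 2) le_rfl
    (fun w => K.gk_le hT hL hj hs (lineAt s x w)) v).trans (ENNReal.ofReal_le_ofReal ?_)
  have h1 := (K1.collOf hΦ).R_nonneg (K.b / 2)
  have h2 := K.dc_nonneg j
  unfold KinFamily.rr
  have h3 : 0 ≤ (K1.collOf hΦ).R (K.b / 2) * (1 + ‖v‖) * K.dc j := by positivity
  nlinarith

end Vale.Agent.P119.KE
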