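import Vale.Agent.P119.KE.Tails
import Vale.Agent.P119.K1.Inst

/-! The kinetic statement for the data and the solutions of the problem. -/

open MeasureTheory Filter Topology Set ProbabilityTheory
open scoped ENNReal NNReal RealInnerProductSpace

noncomputable section

namespace Vale.Agent.P119.KE

theorem exists_latPt (x : E3) : ∃ k : Fin 3 → ℤ, ‖x - latPt k‖ ≤ 1 := by
  refine ⟨fun i => round (x i), ?_⟩
  rw [EuclideanSpace.norm_eq, Real.sqrt_le_iff]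
  refine ⟨zero_le_one, ?_⟩
  rw [one_pow]
  have : ∀ i, ‖(x - latPt fun i => round (x i)) i‖ ^ 2 ≤ (1 / 4 : ℝ) := by
    intro i
    have h1 : |x i - round (x i)| ≤ 1 / 2 := abs_sub_round (x i)
    have h2 : (x - latPt fun i => round (x i)) i = x i - (round (x i) : ℝ) := by
      simp [latPt]
    rw [h2, Real.norm_eq_abs]
    have h3 := abs_nonneg (x i - round (x i))
    nlinarith
  calc ∑ i, ‖(x - latPt fun i => round (x i)) i‖ ^ 2 ≤ ∑ _i : Fin 3, (1 / 4 : ℝ) :=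
        Finset.sum_le_sum fun i _ => this i
    _ ≤ 1 := by
        rw [Finset.sum_const, Finset.card_univ, Fintype.card_fin]
        norm_num

/-- Integrability in `x`, uniformly in `v`, from the norm of the problem. -/
theorem lintegral_le_gnorm {g : ℝ} {f₀ : Ph → ℝ} (h : gnorm g f₀ < ∞) (v : E3) :
    ∫⁻ x, K1.f0hat f₀ x v ≤
      gs ((volume (Metric.closedBall (0 : E3) 1)).toReal * (gnorm g f₀).toReal) g v := by
  have hb : volume (Metric.closedBall (0 : E3) 1) ≠ ∞ := measure_closedBall_lt_top.ne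
  obtain ⟨s, hs⟩ : ∃ s : (Fin 3 → ℤ) → ℝ≥0∞, ∀ k, s k = ⨆ z : Ph, ⨆ _ : ‖z.1 - latPt k‖ ≤ 1,
    ENNReal.ofReal (Real.exp (g * ‖z.2‖ ^ 2) * ‖f₀ z‖) := ⟨_, fun _ => rfl⟩
  have hg : gnorm g f₀ = ∑' k, s k := by
    unfold gnorm
    exact tsum_congr fun k => (hs k).symm
  have h1 : ∀ x k, ‖x - latPt k‖ ≤ 1 → K1.f0hat f₀ x v ≤
      s k * ENNReal.ofReal (Real.exp (-g * ‖v‖ ^ 2)) := by
    intro x k hk
    have h2 : ENNReal.ofReal (Real.exp (g * ‖v‖ ^ 2) * ‖f₀ (x, v)‖) ≤ s k := by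
      rw [hs]
      exact le_iSup₂_of_le (f := fun (z : Ph) (_ : ‖z.1 - latPt k‖ ≤ 1) =>
        ENNReal.ofReal (Real.exp (g * ‖z.2‖ ^ 2) * ‖f₀ z‖)) (x, v) hk le_rfl
    calc K1.f0hat f₀ x v ≤ ENNReal.ofReal ‖f₀ (x, v)‖ :=
          ENNReal.ofReal_le_ofReal (Real.le_norm_self _)
      _ = ENNReal.ofReal (Real.exp (g * ‖v‖ ^ 2) * ‖f₀ (x, v)‖) *
          ENNReal.ofReal (Real.exp (-g * ‖v‖ ^ 2)) := by
          rw [← ENNReal.ofReal_mul (by positivity)]
          congr 1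
          have : Real.exp (g * ‖v‖ ^ 2) * Real.exp (-g * ‖v‖ ^ 2) = 1 := by
            rw [← Real.exp_add]; ring_nf; exact Real.exp_zero
          calc ‖f₀ (x, v)‖ = ‖f₀ (x, v)‖ * (Real.exp (g * ‖v‖ ^ 2) *
                Real.exp (-g * ‖v‖ ^ 2)) := by rw [this, mul_one]
            _ = _ := by ring
      _ ≤ _ := by gcongr
  calc ∫⁻ x, K1.f0hat f₀ x v
      ≤ ∫⁻ x, ∑' k, (Metric.closedBall (latPt k) 1).indicator
          (fun _ => s k * ENNReal.ofReal (Real.exp (-g * ‖v‖ ^ 2))) x := by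
        refine lintegral_mono fun x => ?_
        obtain ⟨k, hk⟩ := exists_latPt x
        refine (h1 x k hk).trans ?_
        refine le_trans ?_ (ENNReal.le_tsum k)
        rw [indicator_of_mem (by rw [Metric.mem_closedBall, dist_eq_norm]; exact hk)]
    _ = ∑' k, ∫⁻ x, (Metric.closedBall (latPt k) 1).indicator
          (fun _ => s k * ENNReal.ofReal (Real.exp (-g * ‖v‖ ^ 2))) x :=
        lintegral_tsum fun k =>
          (measurable_const.indicator Metric.isClosed_closedBall.measurableSet).aemeasurable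
    _ = ∑' k, s k * (ENNReal.ofReal (Real.exp (-g * ‖v‖ ^ 2)) *
          volume (Metric.closedBall (0 : E3) 1)) := by
        refine tsum_congr fun k => ?_
        rw [lintegral_indicator Metric.isClosed_closedBall.measurableSet, setLIntegral_const,
          mul_assoc]
        congr 2
        exact Measure.addHaar_closedBall_center _ _ _
    _ = (∑' k, s k) * (ENNReal.ofReal (Real.exp (-g * ‖v‖ ^ 2)) *
          volume (Metric.closedBall (0 : E3) 1)) := ENNReal.tsum_mul_right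
    _ = _ := by
        rw [← hg]
        unfold gs
        rw [ENNReal.ofReal_mul (by positivity), ENNReal.ofReal_mul ENNReal.toReal_nonneg,
          ENNReal.ofReal_toReal hb, ENNReal.ofReal_toReal h.ne]
        ring

/-- **The kinetic block**: density `u` of the gas truncated at depth `L`, for the data and the
solutions of the problem. -/
theorem kinetic_main {Φ : E3 → ℝ} {β T : ℝ} {f₀ : Ph → ℝ} {f : ℝ → Ph → ℝ}
    (hΦ : IsPotential Φ) (hβ : 0 < β) (hT : 0 < T) (hd : IsDatum β f₀)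
    (h : RegSol Φ β f₀ T f) :
    ∃ (M b : ℝ) (e : ℕ → ℝ), 0 ≤ M ∧ 0 < b ∧ (∀ n, 0 ≤ e n) ∧ Antitone e ∧ SuperExp e ∧
      (∀ s x v, K1.fhat T f s x v ≤ gs M b v) ∧
      (∀ x v, K1.f0hat f₀ x v ≤ gs M b v) ∧
      (∀ v, ∫⁻ x, K1.f0hat f₀ x v ≤ gs M b v) ∧
      ∀ᶠ L in atTop, ∃ u : Dn,
        (∀ s ∈ Icc 0 T, ∀ x v, (K1.collOf hΦ).Psi (K1.f0hat f₀) (K1.measurable_f0hat hT h) L
          u.1 u.2 s x v = u.1 s x v) ∧
        (∀ d, ∀ s ∈ Icc 0 T, ∀ x v, (K1.collOf hΦ).Psi (K1.f0hat f₀) (K1.measurable_f0hat hT h) d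
          u.1 u.2 s x v ≤ gs M b v) ∧
        (∀ d, ∀ s ∈ Icc 0 T, ∀ v, xint ((K1.collOf hΦ).Psi (K1.f0hat f₀)
          (K1.measurable_f0hat hT h) d u.1 u.2) s v ≤ gs M b v) ∧
        (∀ s ∈ Icc 0 T, ∀ x v, K1.fhat T f s x v ≤ u.1 s x v + gs (e L) b v ∧
          u.1 s x v ≤ K1.fhat T f s x v + gs (e L) b v) ∧
        (∀ s ∈ Icc 0 T, ∀ v, xint (pd (K1.fhat T f) u.1) s v ≤ gs (e L) b v ∧
          xint (pd u.1 (K1.fhat T f)) s v ≤ gs (e L) b v) ∧
        (∀ d ≤ L, ∀ s ∈ Icc 0 T, ∀ x v, u.1 s x v ≤ (K1.collOf hΦ).Psi (K1.f0hat f₀)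
          (K1.measurable_f0hat hT h) d u.1 u.2 s x v + gs (e d) b v) ∧
        (∀ d ≤ L, ∀ s ∈ Icc 0 T, ∀ v, xint (pd u.1 ((K1.collOf hΦ).Psi (K1.f0hat f₀)
          (K1.measurable_f0hat hT h) d u.1 u.2)) s v ≤ gs (e d) b v) := by
  obtain ⟨C, hC, hfC⟩ := K1.exists_fhat_le h
  obtain ⟨C₀, hC₀⟩ : ∃ C₀, C₀ = (volume (Metric.closedBall (0 : E3) 1)).toReal *
    (gnorm (2 * β) f₀).toReal := ⟨_, rfl⟩
  have hC₀0 : 0 ≤ C₀ := hC₀ ▸ mul_nonneg ENNReal.toReal_nonneg ENNReal.toReal_nonneg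
  have hm : ∀ v, ∫⁻ x, K1.f0hat f₀ x v ≤ gs C₀ (2 * β) v := fun v => by
    rw [hC₀]
    exact lintegral_le_gnorm hd.norm_lt v
  have hf0 : ∀ x v, K1.f0hat f₀ x v ≤ gs C (2 * β) v := by
    intro x v
    have h1 := hfC 0 x v
    rw [K1.fhat_of_mem ⟨le_rfl, hT.le⟩, h.init] at h1
    exact h1
  obtain ⟨M, b, e, hM, hb, he, hea, hes, hL⟩ := depth_tails (G := K1.collOf hΦ) hT.le
    (show (0 : ℝ) < 2 * β by positivity) hC hC₀0 (K1.mild_of_regular hΦ hβ hT h)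
    (fun t _ x v => hfC t x v) hf0 hm
  -- take common constants
  obtain ⟨M', hM'⟩ : ∃ M', M' = max M (max C C₀) := ⟨_, rfl⟩
  obtain ⟨b', hb'⟩ : ∃ b', b' = min b (2 * β) := ⟨_, rfl⟩
  have hMM : M ≤ M' := hM' ▸ le_max_left _ _
  have hCM : C ≤ M' := hM' ▸ (le_max_left _ _).trans (le_max_right _ _)
  have hC₀M : C₀ ≤ M' := hM' ▸ (le_max_right _ _).trans (le_max_right _ _)
  have hbb : b' ≤ b := hb' ▸ min_le_left _ _
  have hbβ : b' ≤ 2 * β := hb' ▸ min_le_right _ _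
  refine ⟨M', b', e, hM.trans hMM, by rw [hb']; positivity, he, hea, hes,
    fun s x v => (hfC s x v).trans (gs_mono hC hCM hbβ v),
    fun x v => (hf0 x v).trans (gs_mono hC hCM hbβ v),
    fun v => (hm v).trans (gs_mono hC₀0 hC₀M hbβ v), ?_⟩
  filter_upwards [hL] with L hu
  obtain ⟨u, h1, h2, h3, h4, h5, h6, h7⟩ := hu
  have eM : ∀ v, gs M b v ≤ gs M' b' v := fun v => gs_mono hM hMM hbb v
  have ee : ∀ n v, gs (e n) b v ≤ gs (e n) b' v := fun n v => gs_mono (he n) le_rfl hbb v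
  exact ⟨u, h1, fun d s hs x v => (h2 d s hs x v).trans (eM v),
    fun d s hs v => (h3 d s hs v).trans (eM v),
    fun s hs x v => ⟨(h4 s hs x v).1.trans (add_le_add le_rfl (ee L v)),
      (h4 s hs x v).2.trans (add_le_add le_rfl (ee L v))⟩,
    fun s hs v => ⟨(h5 s hs v).1.trans (ee L v), (h5 s hs v).2.trans (ee L v)⟩,
    fun d hd s hs x v => (h6 d hd s hs x v).trans (add_le_add le_rfl (ee d v)),
    fun d hd s hs v => (h7 d hd s hs v).trans (ee d v)⟩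

end Vale.Agent.P119.KE
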