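import Vale.Agent.P119.KE.Tails

/-! Weighted collision rates between a density with small mass and a bounded density. -/

open MeasureTheory Filter Topology Set ProbabilityTheory
open scoped ENNReal NNReal

noncomputable section

namespace Vale.Agent.P119.KE

theorem lintegral_gs {a b : ℝ} (ha : 0 ≤ a) (hb : 0 < b) :
    ∫⁻ v, gs a b v = ENNReal.ofReal (a * (Real.pi / b) ^ (3 / 2 : ℝ)) := by
  unfold gs
  have h1 : Integrable fun v : E3 => a * Real.exp (-b * ‖v‖ ^ 2) := by
    have h2 := (GaussianFourier.integrable_cexp_neg_mul_sq_norm_add_of_euclideanSpace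
      (ι := Fin 3) (b := (b : ℂ)) (by simpa using hb) 0 0).norm
    simp only [Complex.norm_exp] at h2
    refine (h2.congr (ae_of_all _ fun v => ?_)).const_mul a
    simp [← Complex.ofReal_pow]
  rw [← ofReal_integral_eq_lintegral_ofReal h1
    (ae_of_all _ fun v => by positivity), integral_const_mul]
  congr 2
  have := GaussianFourier.integral_rexp_neg_mul_sq_norm (V := E3) hb
  rw [this]
  norm_num

variable {G : Coll}

/-- Weighted collision rate: the first density has `x`-integrals bounded by `gs e b`, the second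
one is bounded by `gs M b`. -/
theorem Coll.pair_rate (G : Coll) {b : ℝ} (hb : 0 < b) : ∃ K : ℝ, 0 ≤ K ∧
    ∀ (e M : ℝ), 0 ≤ e → 0 ≤ M → ∀ (d h : E3 → E3 → ℝ≥0∞), Measurable (fun p : E3 × E3 => d p.1 p.2) →
      (∀ v, ∫⁻ x, d x v ≤ gs e b v) → (∀ x v, h x v ≤ gs M b v) →
      ∫⁻ v, ∫⁻ x, d x v * ∫⁻ w, ENNReal.ofReal (Real.exp (b / 2 * (‖v‖ ^ 2 + ‖w‖ ^ 2))) *
        (G.k v w * h x w) ≤ ENNReal.ofReal (K * M * e) := by
  obtain ⟨K, hK⟩ : ∃ K, K = G.R (b / 2) * ((1 + 1 / Real.sqrt (b / 4)) *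
    (Real.pi / (b / 4)) ^ (3 / 2 : ℝ)) := ⟨_, rfl⟩
  have hR := G.R_nonneg (b / 2)
  refine ⟨K, by rw [hK]; positivity, ?_⟩
  intro e M he hM d h md hd hh
  have h1 : ∀ x v, ∫⁻ w, ENNReal.ofReal (Real.exp (b / 2 * (‖v‖ ^ 2 + ‖w‖ ^ 2))) *
      (G.k v w * h x w) ≤ ENNReal.ofReal (Real.exp (b / 2 * ‖v‖ ^ 2) *
        (M * (G.R (b / 2) * (1 + ‖v‖)))) := by
    intro x v
    calc ∫⁻ w, ENNReal.ofReal (Real.exp (b / 2 * (‖v‖ ^ 2 + ‖w‖ ^ 2))) * (G.k v w * h x w)
        ≤ ∫⁻ w, ENNReal.ofReal (Real.exp (b / 2 * ‖v‖ ^ 2)) *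
            (G.k v w * gs M (b / 2) w) := by
          refine lintegral_mono fun w => ?_
          have e1 : ENNReal.ofReal (Real.exp (b / 2 * (‖v‖ ^ 2 + ‖w‖ ^ 2))) =
              ENNReal.ofReal (Real.exp (b / 2 * ‖v‖ ^ 2)) *
                ENNReal.ofReal (Real.exp (b / 2 * ‖w‖ ^ 2)) := by
            rw [← ENNReal.ofReal_mul (by positivity), ← Real.exp_add]
            ring_nf
          have e2 : ENNReal.ofReal (Real.exp (b / 2 * ‖w‖ ^ 2)) * gs M b w = gs M (b / 2) w := by
            unfold gs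
            rw [← ENNReal.ofReal_mul (by positivity)]
            congr 1
            rw [mul_left_comm, ← Real.exp_add]
            ring_nf
          rw [e1, mul_assoc]
          refine mul_le_mul_right ?_ _
          calc ENNReal.ofReal (Real.exp (b / 2 * ‖w‖ ^ 2)) * (G.k v w * h x w)
              = G.k v w * (ENNReal.ofReal (Real.exp (b / 2 * ‖w‖ ^ 2)) * h x w) := by ring
            _ ≤ G.k v w * (ENNReal.ofReal (Real.exp (b / 2 * ‖w‖ ^ 2)) * gs M b w) := by
                gcongr
                exact hh x w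
            _ = _ := by rw [e2]
      _ = ENNReal.ofReal (Real.exp (b / 2 * ‖v‖ ^ 2)) * G.nu (gs M (b / 2)) v := by
          rw [lintegral_const_mul' _ _ ENNReal.ofReal_ne_top]
          rfl
      _ ≤ _ := by
          rw [ENNReal.ofReal_mul (by positivity)]
          gcongr
          exact G.nu_gs hM (by positivity) v
  calc ∫⁻ v, ∫⁻ x, d x v * ∫⁻ w, ENNReal.ofReal (Real.exp (b / 2 * (‖v‖ ^ 2 + ‖w‖ ^ 2))) *
        (G.k v w * h x w)
      ≤ ∫⁻ v, ∫⁻ x, d x v * ENNReal.ofReal (Real.exp (b / 2 * ‖v‖ ^ 2) *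
        (M * (G.R (b / 2) * (1 + ‖v‖)))) :=
        lintegral_mono fun v => lintegral_mono fun x => mul_le_mul_right (h1 x v) _
    _ = ∫⁻ v, (∫⁻ x, d x v) * ENNReal.ofReal (Real.exp (b / 2 * ‖v‖ ^ 2) *
        (M * (G.R (b / 2) * (1 + ‖v‖)))) := by
        refine lintegral_congr fun v => ?_
        rw [lintegral_mul_const' _ _ ENNReal.ofReal_ne_top]
    _ ≤ ∫⁻ v, ENNReal.ofReal (M * G.R (b / 2)) * gs (e * (1 + 1 / Real.sqrt (b / 4)))
          (b / 2 - b / 4) v := by
        refine lintegral_mono fun v => ?_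
        calc (∫⁻ x, d x v) * ENNReal.ofReal (Real.exp (b / 2 * ‖v‖ ^ 2) *
              (M * (G.R (b / 2) * (1 + ‖v‖))))
            ≤ gs e b v * ENNReal.ofReal (Real.exp (b / 2 * ‖v‖ ^ 2) *
              (M * (G.R (b / 2) * (1 + ‖v‖)))) := mul_le_mul_left (hd v) _
          _ = ENNReal.ofReal (M * G.R (b / 2)) * (ENNReal.ofReal (1 + ‖v‖) * gs e (b / 2) v) := by
              unfold gs
              rw [← ENNReal.ofReal_mul (by positivity), ← ENNReal.ofReal_mul (by positivity),
                ← ENNReal.ofReal_mul (by positivity)]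
              congr 1
              have : Real.exp (-b * ‖v‖ ^ 2) * Real.exp (b / 2 * ‖v‖ ^ 2) =
                  Real.exp (-(b / 2) * ‖v‖ ^ 2) := by
                rw [← Real.exp_add]; ring_nf
              rw [← this]
              ring
          _ ≤ _ := by
              gcongr
              exact one_add_mul_gs he (by positivity) v
    _ = ENNReal.ofReal (K * M * e) := by
        rw [lintegral_const_mul' _ _ ENNReal.ofReal_ne_top]
        have e1 : b / 2 - b / 4 = b / 4 := by ring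
        rw [e1, lintegral_gs (by positivity) (by positivity), ← ENNReal.ofReal_mul (by positivity),
          hK]
        congr 1
        ring

end Vale.Agent.P119.KE
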