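import Vale.Agent.P119.KE.EndAna

/-! The kinetic level as one object: the densities `u L` of the gases truncated by depth. -/

open MeasureTheory Filter Topology Set ProbabilityTheory
open scoped ENNReal NNReal

noncomputable section

namespace Vale.Agent.P119.KE

/-- The kinetic level. `u L` is the density of the gas truncated at depth `L`, for `L ≥ L₀`;
`M`, `b` are uniform in `L` and in the depth, `e` is superexponentially small. -/
structure KinFamily {Φ : E3 → ℝ} (hΦ : IsPotential Φ) (f₀ : Ph → ℝ)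
    (m₀ : Measurable fun p : E3 × E3 => K1.f0hat f₀ p.1 p.2) (T : ℝ) (f : ℝ → Ph → ℝ) where
  M : ℝ
  b : ℝ
  e : ℕ → ℝ
  L₀ : ℕ
  u : ℕ → Dn
  M0 : 0 ≤ M
  b0 : 0 < b
  e0 : ∀ n, 0 ≤ e n
  anti : Antitone e
  sup : SuperExp e
  f_le : ∀ s x v, K1.fhat T f s x v ≤ gs M b v
  f0_le : ∀ x v, K1.f0hat f₀ x v ≤ gs M b v
  f0_mass : ∀ v, ∫⁻ x, K1.f0hat f₀ x v ≤ gs M b v
  fix : ∀ L, L₀ ≤ L → ∀ s ∈ Icc 0 T, ∀ x v,
    (K1.collOf hΦ).Psi (K1.f0hat f₀) m₀ L (u L).1 (u L).2 s x v = (u L).1 s x v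
  psi_le : ∀ L, L₀ ≤ L → ∀ d, ∀ s ∈ Icc 0 T, ∀ x v,
    (K1.collOf hΦ).Psi (K1.f0hat f₀) m₀ d (u L).1 (u L).2 s x v ≤ gs M b v
  psi_mass : ∀ L, L₀ ≤ L → ∀ d, ∀ s ∈ Icc 0 T, ∀ v,
    xint ((K1.collOf hΦ).Psi (K1.f0hat f₀) m₀ d (u L).1 (u L).2) s v ≤ gs M b v
  f_close : ∀ L, L₀ ≤ L → ∀ s ∈ Icc 0 T, ∀ x v,
    K1.fhat T f s x v ≤ (u L).1 s x v + gs (e L) b v
  u_close : ∀ L, L₀ ≤ L → ∀ s ∈ Icc 0 T, ∀ x v,
    (u L).1 s x v ≤ K1.fhat T f s x v + gs (e L) b v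
  f_mass : ∀ L, L₀ ≤ L → ∀ s ∈ Icc 0 T, ∀ v, xint (pd (K1.fhat T f) (u L).1) s v ≤ gs (e L) b v
  u_mass' : ∀ L, L₀ ≤ L → ∀ s ∈ Icc 0 T, ∀ v, xint (pd (u L).1 (K1.fhat T f)) s v ≤ gs (e L) b v
  tail : ∀ L, L₀ ≤ L → ∀ d ≤ L, ∀ s ∈ Icc 0 T, ∀ x v, (u L).1 s x v ≤
    (K1.collOf hΦ).Psi (K1.f0hat f₀) m₀ d (u L).1 (u L).2 s x v + gs (e d) b v
  tail_mass : ∀ L, L₀ ≤ L → ∀ d ≤ L, ∀ s ∈ Icc 0 T, ∀ v,
    xint (pd (u L).1 ((K1.collOf hΦ).Psi (K1.f0hat f₀) m₀ d (u L).1 (u L).2)) s v ≤ gs (e d) b v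

theorem exists_family {Φ : E3 → ℝ} {β T : ℝ} {f₀ : Ph → ℝ} {f : ℝ → Ph → ℝ}
    (hΦ : IsPotential Φ) (hβ : 0 < β) (hT : 0 < T) (hd : IsDatum β f₀)
    (h : RegSol Φ β f₀ T f) :
    Nonempty (KinFamily hΦ f₀ (K1.measurable_f0hat hT h) T f) := by
  obtain ⟨M, b, e, hM, hb, he, hea, hes, h1, h2, h3, hL⟩ := kinetic_main hΦ hβ hT hd h
  obtain ⟨L₀, hL₀⟩ := eventually_atTop.1 hL
  have : Nonempty Dn := ⟨⟨fun _ _ _ => 0, measurable_const⟩⟩
  choose! u hu using hL₀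
  exact ⟨{
    M := M
    b := b
    e := e
    L₀ := L₀
    u := u
    M0 := hM
    b0 := hb
    e0 := he
    anti := hea
    sup := hes
    f_le := h1
    f0_le := h2
    f0_mass := h3
    fix := fun L hL => (hu L hL).1
    psi_le := fun L hL => (hu L hL).2.1
    psi_mass := fun L hL => (hu L hL).2.2.1
    f_close := fun L hL s hs x v => ((hu L hL).2.2.2.1 s hs x v).1
    u_close := fun L hL s hs x v => ((hu L hL).2.2.2.1 s hs x v).2
    f_mass := fun L hL s hs v => ((hu L hL).2.2.2.2.1 s hs v).1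
    u_mass' := fun L hL s hs v => ((hu L hL).2.2.2.2.1 s hs v).2
    tail := fun L hL => (hu L hL).2.2.2.2.2.1
    tail_mass := fun L hL => (hu L hL).2.2.2.2.2.2 }⟩

variable {Φ : E3 → ℝ} {hΦ : IsPotential Φ} {f₀ : Ph → ℝ}
  {m₀ : Measurable fun p : E3 × E3 => K1.f0hat f₀ p.1 p.2} {T : ℝ} {f : ℝ → Ph → ℝ}
  (K : KinFamily hΦ f₀ m₀ T f)

theorem KinFamily.u_le {L : ℕ} (hL : K.L₀ ≤ L) {s : ℝ} (hs : s ∈ Icc 0 T) (x v : E3) :
    (K.u L).1 s x v ≤ gs K.M K.b v := by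
  rw [← K.fix L hL s hs x v]
  exact K.psi_le L hL L s hs x v

theorem KinFamily.u_mass {L : ℕ} (hL : K.L₀ ≤ L) {s : ℝ} (hs : s ∈ Icc 0 T) (v : E3) :
    xint (K.u L).1 s v ≤ gs K.M K.b v := by
  have h1 := K.psi_mass L hL L s hs v
  refine le_trans (le_of_eq ?_) h1
  exact lintegral_congr fun x => (K.fix L hL s hs x v).symm

theorem Dn.measurable_at (u : Dn) (s : ℝ) : Measurable fun p : E3 × E3 => u.1 s p.1 p.2 :=
  u.2.comp measurable_const measurable_fst measurable_snd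

/-- Total mass bound. -/
def KinFamily.A : ℝ := (K.M + K.e 0) * (Real.pi / K.b) ^ (3 / 2 : ℝ)

theorem KinFamily.A_nonneg : 0 ≤ K.A := by
  have := K.M0; have := K.e0 0; have := K.b0
  unfold KinFamily.A
  positivity

theorem KinFamily.lintegral_u_le {L : ℕ} (hL : K.L₀ ≤ L) {s : ℝ} (hs : s ∈ Icc 0 T) :
    ∫⁻ z : Ph, (K.u L).1 s z.1 z.2 ≤ ENNReal.ofReal K.A := by
  have h0 := K.e0 0
  have hb := K.b0
  refine (lintegral_ph_le ((K.u L).measurable_at s) K.M0 K.b0 (K.u_mass hL hs)).trans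
    (ENNReal.ofReal_le_ofReal ?_)
  unfold KinFamily.A
  gcongr
  linarith

theorem KinFamily.lintegral_diff_le (mf : JM (K1.fhat T f)) {L : ℕ} (hL : K.L₀ ≤ L) {s : ℝ}
    (hs : s ∈ Icc 0 T) :
    ∫⁻ z : Ph, (K1.fhat T f s z.1 z.2 - (K.u L).1 s z.1 z.2) ≤
      ENNReal.ofReal (K.e L * (Real.pi / K.b) ^ (3 / 2 : ℝ)) := by
  have m1 : Measurable fun p : E3 × E3 => K1.fhat T f s p.1 p.2 :=
    mf.comp measurable_const measurable_fst measurable_snd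
  exact lintegral_ph_le (h := fun x v => K1.fhat T f s x v - (K.u L).1 s x v)
    (m1.sub ((K.u L).measurable_at s)) (K.e0 L) K.b0 (K.f_mass L hL s hs)

theorem KinFamily.lintegral_f_le (mf : JM (K1.fhat T f)) {s : ℝ} (hs : s ∈ Icc 0 T) :
    ∫⁻ z : Ph, K1.fhat T f s z.1 z.2 ≤ ENNReal.ofReal K.A := by
  have hM := K.M0
  have h0 := K.e0 0
  have hb := K.b0
  have m1 : Measurable fun p : E3 × E3 => K1.fhat T f s p.1 p.2 :=
    mf.comp measurable_const measurable_fst measurable_snd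
  have m2 := (K.u K.L₀).measurable_at s
  calc ∫⁻ z : Ph, K1.fhat T f s z.1 z.2
      ≤ ∫⁻ z : Ph, ((K1.fhat T f s z.1 z.2 - (K.u K.L₀).1 s z.1 z.2) +
          (K.u K.L₀).1 s z.1 z.2) := lintegral_mono fun z => le_tsub_add
    _ = (∫⁻ z : Ph, (K1.fhat T f s z.1 z.2 - (K.u K.L₀).1 s z.1 z.2)) +
        ∫⁻ z : Ph, (K.u K.L₀).1 s z.1 z.2 := lintegral_add_right _ m2
    _ ≤ ENNReal.ofReal (K.e K.L₀ * (Real.pi / K.b) ^ (3 / 2 : ℝ)) +
        ENNReal.ofReal (K.M * (Real.pi / K.b) ^ (3 / 2 : ℝ)) :=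
        add_le_add (K.lintegral_diff_le mf le_rfl hs)
          (lintegral_ph_le m2 K.M0 K.b0 (K.u_mass le_rfl hs))
    _ = ENNReal.ofReal ((K.M + K.e K.L₀) * (Real.pi / K.b) ^ (3 / 2 : ℝ)) := by
        have := K.e0 K.L₀
        rw [← ENNReal.ofReal_add (by positivity) (by positivity)]
        congr 1
        ring
    _ ≤ _ := by
        apply ENNReal.ofReal_le_ofReal
        unfold KinFamily.A
        have := K.anti (Nat.zero_le K.L₀)
        gcongr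

theorem KinFamily.e_tendsto : Tendsto K.e atTop (𝓝 0) := by
  have := K.sup 1 zero_le_one
  simpa using this

theorem lintegral_mul_le_of_le_one {α : Type*} [MeasurableSpace α] {μ : Measure α}
    {a F U : α → ℝ≥0∞} (ha : ∀ z, a z ≤ 1) (mF : Measurable F) (mU : Measurable U) :
    ∫⁻ z, a z * F z ∂μ ≤ (∫⁻ z, a z * U z ∂μ) + ∫⁻ z, (F z - U z) ∂μ := by
  have mFU : Measurable fun z => F z - U z := mF.sub mU
  rw [← lintegral_add_right _ mFU]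
  refine lintegral_mono fun z => ?_
  calc a z * F z ≤ a z * ((F z - U z) + U z) := mul_le_mul_right le_tsub_add _
    _ = a z * U z + a z * (F z - U z) := by ring
    _ ≤ a z * U z + 1 * (F z - U z) := by
        gcongr
        exact ha z
    _ = _ := by rw [one_mul]

theorem KinFamily.prod_diff (mf : JM (K1.fhat T f)) (s : ℕ) {δ : ℝ} (hδ : 0 < δ) :
    ∀ᶠ L in atTop, ∀ t ∈ Icc 0 T,
      ∫⁻ Z : Fin s → Ph, (∏ k, K1.fhat T f t (Z k).1 (Z k).2 -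
        ∏ k, (K.u L).1 t (Z k).1 (Z k).2) ≤ ENNReal.ofReal δ := by
  have hb := K.b0
  have hA := K.A_nonneg
  have hlim : Tendsto (fun L => (s * K.A ^ (s - 1)) *
      (K.e L * (Real.pi / K.b) ^ (3 / 2 : ℝ))) atTop (𝓝 0) := by
    have h1 := (K.e_tendsto.mul_const ((Real.pi / K.b) ^ (3 / 2 : ℝ))).const_mul
      (s * K.A ^ (s - 1))
    rw [zero_mul, mul_zero] at h1
    exact h1
  filter_upwards [hlim.eventually (ge_mem_nhds hδ), eventually_ge_atTop K.L₀] with L hLδ hL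
  intro t ht
  have m1 : Measurable fun z : Ph => K1.fhat T f t z.1 z.2 :=
    mf.comp measurable_const measurable_fst measurable_snd
  have m2 : Measurable fun z : Ph => (K.u L).1 t z.1 z.2 := (K.u L).measurable_at t
  calc ∫⁻ Z : Fin s → Ph, (∏ k, K1.fhat T f t (Z k).1 (Z k).2 -
        ∏ k, (K.u L).1 t (Z k).1 (Z k).2)
      ≤ s * ENNReal.ofReal K.A ^ (s - 1) *
        ∫⁻ z : Ph, (K1.fhat T f t z.1 z.2 - (K.u L).1 t z.1 z.2) :=
        lintegral_prod_tsub_le m1 m2 (K.lintegral_f_le mf ht) (K.lintegral_u_le hL ht)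
    _ ≤ s * ENNReal.ofReal K.A ^ (s - 1) *
        ENNReal.ofReal (K.e L * (Real.pi / K.b) ^ (3 / 2 : ℝ)) :=
        mul_le_mul_right (K.lintegral_diff_le mf hL ht) _
    _ = ENNReal.ofReal ((s * K.A ^ (s - 1)) *
        (K.e L * (Real.pi / K.b) ^ (3 / 2 : ℝ))) := by
        have h1 : (0 : ℝ) ≤ s * K.A ^ (s - 1) := by positivity
        rw [ENNReal.ofReal_mul h1, ENNReal.ofReal_mul (Nat.cast_nonneg s),
          ENNReal.ofReal_natCast, ENNReal.ofReal_pow hA]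
    _ ≤ _ := ENNReal.ofReal_le_ofReal hLδ

/-- **Replacing `f` by `u L` in products.** -/
theorem KinFamily.prod_le (mf : JM (K1.fhat T f)) (s : ℕ) {δ : ℝ} (hδ : 0 < δ) :
    ∀ᶠ L in atTop, ∀ t ∈ Icc 0 T, ∀ a : (Fin s → Ph) → ℝ≥0∞, (∀ Z, a Z ≤ 1) →
      ∫⁻ Z, a Z * ∏ k, ENNReal.ofReal (f t (Z k)) ≤
        (∫⁻ Z, a Z * ∏ k, (K.u L).1 t (Z k).1 (Z k).2) + ENNReal.ofReal δ := by
  filter_upwards [K.prod_diff mf s hδ] with L hL
  intro t ht a ha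
  have m1 : Measurable fun z : Ph => K1.fhat T f t z.1 z.2 :=
    mf.comp measurable_const measurable_fst measurable_snd
  have m2 : Measurable fun z : Ph => (K.u L).1 t z.1 z.2 := (K.u L).measurable_at t
  have h1 : ∫⁻ Z, a Z * ∏ k, ENNReal.ofReal (f t (Z k)) =
      ∫⁻ Z, a Z * ∏ k, K1.fhat T f t (Z k).1 (Z k).2 := by
    refine lintegral_congr fun Z => ?_
    congr 1
    exact Finset.prod_congr rfl fun k _ => (K1.fhat_of_mem ht (Z k).1 (Z k).2).symm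
  rw [h1]
  exact (lintegral_mul_le_of_le_one ha (measurable_prod_fin m1) (measurable_prod_fin m2)).trans
    (add_le_add le_rfl (hL t ht))

end Vale.Agent.P119.KE
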