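import Vale.Agent.P119.KE.Node
import Vale.Agent.P119.KE.Family

/-! The densities of the kinetic trees of a given shape, and their sum. -/

open MeasureTheory Filter Topology Set ProbabilityTheory
open scoped ENNReal NNReal RealInnerProductSpace

noncomputable section

namespace Vale.Agent.P119.KE

open Vale.Agent.P119.KU Vale.Agent.P119.KT
open Vale.Agent.P119.M (Shape shapes mem_shapes)

variable {Φ : E3 → ℝ}

/-! ### Sums over shapes -/

open Classical in
theorem sum_shapes_succ (d : ℕ) (F : Shape → ℝ≥0∞) :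
    ∑ τ ∈ shapes (d + 1), F τ = F .leaf + ∑ a ∈ shapes d, ∑ b ∈ shapes d, F (.node a b) := by
  have h1 : shapes (d + 1) =
      insert Shape.leaf ((shapes d ×ˢ shapes d).image fun p => Shape.node p.1 p.2) := by
    ext τ
    rw [mem_shapes, Finset.mem_insert, Finset.mem_image]
    rcases τ with _ | ⟨a, b⟩
    · simp [Shape.depth]
    · constructor
      · intro h
        refine Or.inr ⟨(a, b), ?_, rfl⟩
        have h2 : max a.depth b.depth + 1 ≤ d + 1 := h
        rw [Finset.mem_product, mem_shapes, mem_shapes]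
        exact ⟨(le_max_left _ _).trans (Nat.le_of_succ_le_succ h2),
          (le_max_right _ _).trans (Nat.le_of_succ_le_succ h2)⟩
      · rintro (h | ⟨p, hp, h⟩)
        · cases h
        · rw [Finset.mem_product, mem_shapes, mem_shapes] at hp
          rw [← h]
          exact Nat.succ_le_succ (max_le hp.1 hp.2)
  have h2 : Shape.leaf ∉ (shapes d ×ˢ shapes d).image fun p => Shape.node p.1 p.2 := by
    rw [Finset.mem_image]
    rintro ⟨p, _, h⟩
    cases h
  rw [h1, Finset.sum_insert h2, Finset.sum_image, Finset.sum_product]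
  rintro ⟨a, b⟩ _ ⟨a', b'⟩ _ h
  have := Shape.node.inj h
  exact Prod.ext this.1 this.2

theorem shapes_zero : shapes 0 = {Shape.leaf} := by
  ext τ
  rw [mem_shapes, Finset.mem_singleton]
  rcases τ with _ | ⟨a, b⟩
  · simp [Shape.depth]
  · simp [Shape.depth]

theorem Gain.Q_sum (G : Gain) {ι κ : Type*} {s : Finset ι} {t : Finset κ} {h : ι → E3 → ℝ≥0∞}
    {k : κ → E3 → ℝ≥0∞} (mh : ∀ i, Measurable (h i)) (mk : ∀ j, Measurable (k j)) (v : E3) :
    G.Q (fun w => ∑ i ∈ s, h i w) (fun w => ∑ j ∈ t, k j w) v =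
      ∑ i ∈ s, ∑ j ∈ t, G.Q (h i) (k j) v := by
  unfold Gain.Q
  simp_rw [Finset.sum_mul_sum]
  have m : ∀ i j, Measurable fun p : E3 × E3 => h i p.1 * k j p.2 := fun i j =>
    ((mh i).comp measurable_fst).mul ((mk j).comp measurable_snd)
  have m2 : ∀ i, Measurable fun p : E3 × E3 => ∑ j ∈ t, h i p.1 * k j p.2 := fun i =>
    Finset.measurable_fun_sum _ fun j _ => m i j
  rw [lintegral_finsetSum _ fun i _ => m2 i]
  exact Finset.sum_congr rfl fun i _ => lintegral_finsetSum _ fun j _ => m i j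

/-! ### Densities of the shapes -/

/-- The integrand: `lg s t L` is the weight of the leg of the line `L` between the times `s` and
`t`, `F₀` the weight of the leaves. -/
def kw (Φ : E3 → ℝ) (lg : ℝ → ℝ → Ph → ℝ≥0∞) (F₀ : Ph → ℝ≥0∞) :
    (τ : Shape) → ℝ → Ph → PD τ → ℝ≥0∞
  | .leaf, t, L, _ => F₀ L * lg 0 t L
  | .node a b, t, L, p => (Ioc 0 t).indicator (fun _ => 1) p.1.1 * lg p.1.1 t L *
      (nw Φ L.2 p.1 * (kw Φ lg F₀ a p.1.1 (inLines Φ 0 L p.1).1 p.2.1 *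
        kw Φ lg F₀ b p.1.1 (inLines Φ 0 L p.1).2 p.2.2))

/-- The density of the trees of shape `τ` at time `t`, as a function of the root line. -/
def kd (Φ : E3 → ℝ) (lg : ℝ → ℝ → Ph → ℝ≥0∞) (F₀ : Ph → ℝ≥0∞) (τ : Shape) (t : ℝ) (L : Ph) :
    ℝ≥0∞ := ∫⁻ p, kw Φ lg F₀ τ t L p ∂(pvol τ)

theorem inLines_zero (L : Ph) (q : ND) : inLines Φ 0 L q =
    ((L.1 + q.1 • L.2 - q.1 • (inVel Φ L.2 q).1, (inVel Φ L.2 q).1),
     (L.1 + q.1 • L.2 - q.1 • (inVel Φ L.2 q).2, (inVel Φ L.2 q).2)) := by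
  rw [inLines_def, inVel_def, zero_div, zero_smul, zero_smul]
  ext1
  · ext1
    · simp only
      module
    · rfl
  · ext1
    · simp only
      module
    · rfl

variable {lg : ℝ → ℝ → Ph → ℝ≥0∞} {F₀ : Ph → ℝ≥0∞}

theorem measurable_Ioc_indicator : Measurable fun x : ℝ × ℝ =>
    (Ioc 0 x.1).indicator (fun _ => (1 : ℝ≥0∞)) x.2 := by
  have h1 : MeasurableSet {x : ℝ × ℝ | 0 < x.2 ∧ x.2 ≤ x.1} :=
    (measurableSet_lt measurable_const measurable_snd).inter
      (measurableSet_le measurable_snd measurable_fst)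
  have h2 : (fun x : ℝ × ℝ => (Ioc 0 x.1).indicator (fun _ => (1 : ℝ≥0∞)) x.2) =
      {x : ℝ × ℝ | 0 < x.2 ∧ x.2 ≤ x.1}.indicator fun _ => 1 := by
    funext x
    by_cases h : 0 < x.2 ∧ x.2 ≤ x.1
    · rw [indicator_of_mem (by exact h), indicator_of_mem (by exact h)]
    · rw [indicator_of_notMem (by exact h), indicator_of_notMem (by exact h)]
  rw [h2]
  exact measurable_const.indicator h1

theorem measurable_kw (hΦ : IsPotential Φ)
    (ml : Measurable fun x : ℝ × ℝ × Ph => lg x.1 x.2.1 x.2.2) (mF : Measurable F₀) :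
    ∀ τ : Shape, Measurable fun x : ℝ × Ph × PD τ => kw Φ lg F₀ τ x.1 x.2.1 x.2.2
  | .leaf => by
    have h1 : Measurable fun x : ℝ × Ph × Unit => F₀ x.2.1 :=
      mF.comp (by fun_prop)
    have h2 : Measurable fun x : ℝ × Ph × Unit => lg 0 x.1 x.2.1 :=
      ml.comp (by fun_prop : Measurable fun x : ℝ × Ph × Unit => ((0 : ℝ), x.1, x.2.1))
    exact h1.mul h2
  | .node a b => by
    have ha := measurable_kw hΦ ml mF a
    have hb := measurable_kw hΦ ml mF b
    have h0 : Measurable fun x : ℝ × Ph × (ND × PD a × PD b) => (x.2.1, x.2.2.1) := by fun_prop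
    have h1 := (measurable_inLines hΦ 0).comp h0
    have h2 : Measurable fun x : ℝ × Ph × (ND × PD a × PD b) =>
        (x.2.2.1.1, (inLines Φ 0 x.2.1 x.2.2.1).1, x.2.2.2.1) :=
      (by fun_prop : Measurable fun x : ℝ × Ph × (ND × PD a × PD b) => x.2.2.1.1).prodMk
        (h1.fst.prodMk (by fun_prop))
    have h3 : Measurable fun x : ℝ × Ph × (ND × PD a × PD b) =>
        (x.2.2.1.1, (inLines Φ 0 x.2.1 x.2.2.1).2, x.2.2.2.2) :=
      (by fun_prop : Measurable fun x : ℝ × Ph × (ND × PD a × PD b) => x.2.2.1.1).prodMk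
        (h1.snd.prodMk (by fun_prop))
    have h4 : Measurable fun x : ℝ × Ph × (ND × PD a × PD b) => nw Φ x.2.1.2 x.2.2.1 :=
      (measurable_nw hΦ).comp
        (by fun_prop : Measurable fun x : ℝ × Ph × (ND × PD a × PD b) => (x.2.1.2, x.2.2.1))
    have h5 : Measurable fun x : ℝ × Ph × (ND × PD a × PD b) => lg x.2.2.1.1 x.1 x.2.1 :=
      ml.comp (by fun_prop :
        Measurable fun x : ℝ × Ph × (ND × PD a × PD b) => (x.2.2.1.1, x.1, x.2.1))
    have h6 : Measurable fun x : ℝ × Ph × (ND × PD a × PD b) =>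
        (Ioc 0 x.1).indicator (fun _ => (1 : ℝ≥0∞)) x.2.2.1.1 :=
      measurable_Ioc_indicator.comp
        (by fun_prop : Measurable fun x : ℝ × Ph × (ND × PD a × PD b) => (x.1, x.2.2.1.1))
    exact (h6.mul h5).mul (h4.mul ((ha.comp h2).mul (hb.comp h3)))

theorem measurable_kd (hΦ : IsPotential Φ)
    (ml : Measurable fun x : ℝ × ℝ × Ph => lg x.1 x.2.1 x.2.2) (mF : Measurable F₀) (τ : Shape) :
    Measurable fun x : ℝ × Ph => kd Φ lg F₀ τ x.1 x.2 := by
  have h1 : Measurable fun x : (ℝ × Ph) × PD τ => kw Φ lg F₀ τ x.1.1 x.1.2 x.2 :=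
    (measurable_kw hΦ ml mF τ).comp
      (by fun_prop : Measurable fun x : (ℝ × Ph) × PD τ => (x.1.1, x.1.2, x.2))
  exact h1.lintegral_prod_right'

theorem kd_leaf (t : ℝ) (L : Ph) : kd Φ lg F₀ .leaf t L = F₀ L * lg 0 t L := by
  have h1 : ∫⁻ _ : Unit, F₀ L * lg 0 t L ∂(Measure.dirac ()) = F₀ L * lg 0 t L := by
    rw [lintegral_dirac]
  exact h1

/-- The line through `(s, x)` with velocity `w`. -/
def lineAt (s : ℝ) (x w : E3) : Ph := (x - s • w, w)

theorem measurable_kd_lineAt (hΦ : IsPotential Φ)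
    (ml : Measurable fun x : ℝ × ℝ × Ph => lg x.1 x.2.1 x.2.2) (mF : Measurable F₀) (τ : Shape)
    (s : ℝ) (x : E3) : Measurable fun w => kd Φ lg F₀ τ s (lineAt s x w) := by
  have h1 : Measurable fun w : E3 => ((s, (x - s • w, w)) : ℝ × Ph) := by fun_prop
  have h2 := (measurable_kd hΦ ml mF τ).comp h1
  exact h2

theorem lintegral_nvol {F : ND → ℝ≥0∞} (hF : Measurable F) :
    ∫⁻ q, F q ∂nvol = ∫⁻ s : ℝ, ∫⁻ w : E3, ∫⁻ b in {b : E2 | ‖b‖ < 1}, F (s, w, b) := by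
  have hball : MeasurableSet {b : E2 | ‖b‖ < 1} := measurableSet_lt (by fun_prop) (by fun_prop)
  have hset : MeasurableSet {q : ND | ‖q.2.2‖ < 1} := measurableSet_lt (by fun_prop) (by fun_prop)
  unfold nvol
  rw [← lintegral_indicator hset]
  have hm : Measurable ({q : ND | ‖q.2.2‖ < 1}.indicator F) := hF.indicator hset
  rw [Measure.volume_eq_prod, lintegral_prod _ hm.aemeasurable]
  refine lintegral_congr fun s => ?_
  have hm2 : Measurable fun q : E3 × E2 => {q : ND | ‖q.2.2‖ < 1}.indicator F (s, q) :=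
    hm.comp measurable_prodMk_left
  rw [Measure.volume_eq_prod, lintegral_prod _ hm2.aemeasurable]
  refine lintegral_congr fun w => ?_
  rw [← lintegral_indicator hball]
  refine lintegral_congr fun b => ?_
  by_cases hb : ‖b‖ < 1
  · rw [indicator_of_mem (by exact hb), indicator_of_mem (by exact hb)]
  · rw [indicator_of_notMem (by exact hb), indicator_of_notMem (by exact hb)]

/-- **Recursion for the densities of the shapes.** -/
theorem kd_node (hΦ : IsPotential Φ)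
    (ml : Measurable fun x : ℝ × ℝ × Ph => lg x.1 x.2.1 x.2.2) (mF : Measurable F₀) (a b : Shape)
    (t : ℝ) (L : Ph) : kd Φ lg F₀ (.node a b) t L =
      ∫⁻ s in Ioc 0 t, lg s t L * (K1.gainOf hΦ).Q
        (fun w => kd Φ lg F₀ a s (lineAt s (L.1 + s • L.2) w))
        (fun w => kd Φ lg F₀ b s (lineAt s (L.1 + s • L.2) w)) L.2 := by
  have ma := measurable_kw hΦ ml mF a
  have mb := measurable_kw hΦ ml mF b
  have mka := measurable_kd hΦ ml mF a
  have mkb := measurable_kd hΦ ml mF b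
  -- integrate over the parameters of the subtrees
  have h1 : kd Φ lg F₀ (.node a b) t L = ∫⁻ q, (Ioc 0 t).indicator (fun _ => 1) q.1 * lg q.1 t L *
      (nw Φ L.2 q * (kd Φ lg F₀ a q.1 (inLines Φ 0 L q).1 * kd Φ lg F₀ b q.1
        (inLines Φ 0 L q).2)) ∂nvol := by
    have e1 : kd Φ lg F₀ (.node a b) t L = ∫⁻ p : ND × PD a × PD b,
        (Ioc 0 t).indicator (fun _ => 1) p.1.1 * lg p.1.1 t L *
        (nw Φ L.2 p.1 * (kw Φ lg F₀ a p.1.1 (inLines Φ 0 L p.1).1 p.2.1 *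
        kw Φ lg F₀ b p.1.1 (inLines Φ 0 L p.1).2 p.2.2)) ∂(nvol.prod ((pvol a).prod (pvol b))) :=
      rfl
    have hm : Measurable fun p : ND × PD a × PD b =>
        (Ioc 0 t).indicator (fun _ => (1 : ℝ≥0∞)) p.1.1 * lg p.1.1 t L *
        (nw Φ L.2 p.1 * (kw Φ lg F₀ a p.1.1 (inLines Φ 0 L p.1).1 p.2.1 *
        kw Φ lg F₀ b p.1.1 (inLines Φ 0 L p.1).2 p.2.2)) := by
      have h2 := (measurable_kw hΦ ml mF (.node a b))
      have h3 : Measurable fun p : ND × PD a × PD b => ((t, L, p) : ℝ × Ph × (ND × PD a × PD b)) :=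
        by fun_prop
      exact h2.comp h3
    rw [e1, lintegral_prod _ hm.aemeasurable]
    refine lintegral_congr fun q => ?_
    have m1 : Measurable fun p : PD a => kw Φ lg F₀ a q.1 (inLines Φ 0 L q).1 p :=
      ma.comp (by fun_prop : Measurable fun p : PD a => (q.1, (inLines Φ 0 L q).1, p))
    have m2 : Measurable fun p : PD b => kw Φ lg F₀ b q.1 (inLines Φ 0 L q).2 p :=
      mb.comp (by fun_prop : Measurable fun p : PD b => (q.1, (inLines Φ 0 L q).2, p))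
    have m3 : Measurable fun p : PD a × PD b => kw Φ lg F₀ a q.1 (inLines Φ 0 L q).1 p.1 *
        kw Φ lg F₀ b q.1 (inLines Φ 0 L q).2 p.2 :=
      (m1.comp measurable_fst).mul (m2.comp measurable_snd)
    simp only
    rw [lintegral_const_mul _ (m3.const_mul _), lintegral_const_mul _ m3,
      lintegral_prod_mul m1.aemeasurable m2.aemeasurable]
    rfl
  rw [h1]
  have mI : Measurable fun q : ND => (Ioc 0 t).indicator (fun _ => (1 : ℝ≥0∞)) q.1 :=
    (measurable_const.indicator measurableSet_Ioc).comp measurable_fst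
  have mlg : Measurable fun q : ND => lg q.1 t L :=
    ml.comp (by fun_prop : Measurable fun q : ND => (q.1, t, L))
  have mn : Measurable fun q : ND => nw Φ L.2 q :=
    (measurable_nw hΦ).comp measurable_prodMk_left
  have mi : Measurable fun q : ND => inLines Φ 0 L q :=
    (measurable_inLines hΦ 0).comp measurable_prodMk_left
  have mA : Measurable fun q : ND => kd Φ lg F₀ a q.1 (inLines Φ 0 L q).1 :=
    mka.comp (measurable_fst.prodMk mi.fst)
  have mB : Measurable fun q : ND => kd Φ lg F₀ b q.1 (inLines Φ 0 L q).2 :=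
    mkb.comp (measurable_fst.prodMk mi.snd)
  have mall : Measurable fun q : ND => (Ioc 0 t).indicator (fun _ => (1 : ℝ≥0∞)) q.1 * lg q.1 t L *
      (nw Φ L.2 q * (kd Φ lg F₀ a q.1 (inLines Φ 0 L q).1 * kd Φ lg F₀ b q.1
        (inLines Φ 0 L q).2)) := (mI.mul mlg).mul (mn.mul (mA.mul mB))
  rw [lintegral_nvol mall, ← lintegral_indicator measurableSet_Ioc]
  refine lintegral_congr fun s => ?_
  by_cases hs : s ∈ Ioc 0 t
  · rw [indicator_of_mem hs, ← lintegral_node_Q hΦ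
      (measurable_kd_lineAt hΦ ml mF a s (L.1 + s • L.2))
      (measurable_kd_lineAt hΦ ml mF b s (L.1 + s • L.2)) L.2 s]
    have hlin : ∀ w bb, inLines Φ 0 L (s, w, bb) =
        (lineAt s (L.1 + s • L.2) (inVel Φ L.2 (s, w, bb)).1,
          lineAt s (L.1 + s • L.2) (inVel Φ L.2 (s, w, bb)).2) := fun w bb => inLines_zero L _
    simp only [indicator_of_mem hs, one_mul, hlin]
    have m4 : Measurable fun q : E3 × E2 => nw Φ L.2 (s, q.1, q.2) *
        (kd Φ lg F₀ a s (lineAt s (L.1 + s • L.2) (inVel Φ L.2 (s, q.1, q.2)).1) *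
        kd Φ lg F₀ b s (lineAt s (L.1 + s • L.2) (inVel Φ L.2 (s, q.1, q.2)).2)) := by
      have e2 : Measurable fun q : E3 × E2 => ((s, q.1, q.2) : ND) := by fun_prop
      have h5 := (mn.mul (mA.mul mB)).comp e2
      simp only [Function.comp_def, Pi.mul_apply, hlin] at h5
      exact h5
    have m5 : ∀ w : E3, Measurable fun bb : E2 => nw Φ L.2 (s, w, bb) *
        (kd Φ lg F₀ a s (lineAt s (L.1 + s • L.2) (inVel Φ L.2 (s, w, bb)).1) *
        kd Φ lg F₀ b s (lineAt s (L.1 + s • L.2) (inVel Φ L.2 (s, w, bb)).2)) := fun w =>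
      m4.comp measurable_prodMk_left
    have h6 : ∀ w : E3, ∫⁻ bb in {b : E2 | ‖b‖ < 1}, lg s t L * (nw Φ L.2 (s, w, bb) *
        (kd Φ lg F₀ a s (lineAt s (L.1 + s • L.2) (inVel Φ L.2 (s, w, bb)).1) *
        kd Φ lg F₀ b s (lineAt s (L.1 + s • L.2) (inVel Φ L.2 (s, w, bb)).2))) =
        lg s t L * ∫⁻ bb in {b : E2 | ‖b‖ < 1}, nw Φ L.2 (s, w, bb) *
        (kd Φ lg F₀ a s (lineAt s (L.1 + s • L.2) (inVel Φ L.2 (s, w, bb)).1) *
        kd Φ lg F₀ b s (lineAt s (L.1 + s • L.2) (inVel Φ L.2 (s, w, bb)).2)) := fun w =>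
      lintegral_const_mul _ (m5 w)
    rw [lintegral_congr h6, lintegral_const_mul _ (m4.lintegral_prod_right'
      (ν := (volume : Measure E2).restrict {b | ‖b‖ < 1}))]
  · rw [indicator_of_notMem hs]
    simp [indicator_of_notMem hs]

/-- Sum over the shapes of depth `≤ d + 1`. -/
theorem sum_kd_succ (hΦ : IsPotential Φ)
    (ml : Measurable fun x : ℝ × ℝ × Ph => lg x.1 x.2.1 x.2.2) (mF : Measurable F₀) (d : ℕ)
    (t : ℝ) (L : Ph) : ∑ τ ∈ shapes (d + 1), kd Φ lg F₀ τ t L =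
      F₀ L * lg 0 t L + ∫⁻ s in Ioc 0 t, lg s t L * (K1.gainOf hΦ).Q
        (fun w => ∑ a ∈ shapes d, kd Φ lg F₀ a s (lineAt s (L.1 + s • L.2) w))
        (fun w => ∑ b ∈ shapes d, kd Φ lg F₀ b s (lineAt s (L.1 + s • L.2) w)) L.2 := by
  rw [sum_shapes_succ, kd_leaf]
  congr 1
  simp_rw [kd_node hΦ ml mF]
  have mk := fun (τ : Shape) (s : ℝ) => measurable_kd_lineAt hΦ ml mF τ s (L.1 + s • L.2)
  have mQ : ∀ a b : Shape, Measurable fun s : ℝ => lg s t L * (K1.gainOf hΦ).Q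
        (fun w => kd Φ lg F₀ a s (lineAt s (L.1 + s • L.2) w))
        (fun w => kd Φ lg F₀ b s (lineAt s (L.1 + s • L.2) w)) L.2 := by
    intro a b
    have m1 : Measurable fun s : ℝ => lg s t L :=
      ml.comp (by fun_prop : Measurable fun s : ℝ => (s, t, L))
    have m2 : ∀ τ : Shape, Measurable fun q : ℝ × E3 =>
        kd Φ lg F₀ τ q.1 (lineAt q.1 (L.1 + q.1 • L.2) q.2) := by
      intro τ
      have h1 : Measurable fun q : ℝ × E3 =>
          ((q.1, (L.1 + q.1 • L.2 - q.1 • q.2, q.2)) : ℝ × Ph) := by fun_prop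
      exact (measurable_kd hΦ ml mF τ).comp h1
    exact m1.mul (Gain.measurable_Q (G := K1.gainOf hΦ) (w := fun _ : ℝ => L.2) (m2 a) (m2 b)
      measurable_const)
  have h1 : ∀ s : ℝ, lg s t L * (K1.gainOf hΦ).Q
        (fun w => ∑ a ∈ shapes d, kd Φ lg F₀ a s (lineAt s (L.1 + s • L.2) w))
        (fun w => ∑ b ∈ shapes d, kd Φ lg F₀ b s (lineAt s (L.1 + s • L.2) w)) L.2 =
      ∑ a ∈ shapes d, ∑ b ∈ shapes d, lg s t L * (K1.gainOf hΦ).Q
        (fun w => kd Φ lg F₀ a s (lineAt s (L.1 + s • L.2) w))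
        (fun w => kd Φ lg F₀ b s (lineAt s (L.1 + s • L.2) w)) L.2 := by
    intro s
    rw [Gain.Q_sum _ (fun i => mk i s) (fun j => mk j s), Finset.mul_sum]
    exact Finset.sum_congr rfl fun a _ => Finset.mul_sum _ _ _
  simp_rw [h1]
  rw [lintegral_finsetSum _ fun a _ => Finset.measurable_fun_sum _ fun b _ => mQ a b]
  exact Finset.sum_congr rfl fun a _ => (lintegral_finsetSum _ fun b _ => mQ a b).symm

/-- The weight of the legs given by the damping. -/
def dlg (G : Coll) (g : ℝ → E3 → E3 → ℝ≥0∞) (s t : ℝ) (L : Ph) : ℝ≥0∞ :=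
  G.damp g s t (L.1 + t • L.2) L.2

theorem measurable_dlg (G : Coll) {g : ℝ → E3 → E3 → ℝ≥0∞} (mg : JM g) :
    Measurable fun x : ℝ × ℝ × Ph => dlg G g x.1 x.2.1 x.2.2 := by
  have h1 : Measurable fun x : ℝ × ℝ × Ph =>
      ((x.1, x.2.1, x.2.2.1 + x.2.1 • x.2.2.2, x.2.2.2) : ℝ × ℝ × E3 × E3) := by fun_prop
  exact (measurable_en.comp (G.measurable_dampArg mg)).comp h1

/-- **KIN-ID.** The sum of the densities of the shapes of depth `≤ d` is `Psi (d + 1)`. -/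
theorem sum_kd_eq_Psi (hΦ : IsPotential Φ) {f₀ : E3 → E3 → ℝ≥0∞}
    {m₀ : Measurable fun p : E3 × E3 => f₀ p.1 p.2} {g : ℝ → E3 → E3 → ℝ≥0∞} (mg : JM g) (d : ℕ)
    (t : ℝ) (L : Ph) :
    ∑ τ ∈ shapes d, kd Φ (dlg (K1.collOf hΦ) g) (fun z => f₀ z.1 z.2) τ t L =
      (K1.collOf hΦ).Psi f₀ m₀ (d + 1) g mg t (L.1 + t • L.2) L.2 := by
  induction d generalizing t L with
  | zero =>
    rw [shapes_zero, Finset.sum_singleton, kd_leaf, Coll.Psi_succ, add_sub_cancel_right]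
    unfold dlg
    have h1 : ∀ s, (K1.collOf hΦ).damp g s t (L.1 + t • L.2) L.2 * (K1.collOf hΦ).Q
        ((K1.collOf hΦ).Psi f₀ m₀ 0 g mg s (L.1 + t • L.2 - (t - s) • L.2))
        ((K1.collOf hΦ).Psi f₀ m₀ 0 g mg s (L.1 + t • L.2 - (t - s) • L.2)) L.2 = 0 := by
      intro s
      simp [Gain.Q, Coll.Psi_zero]
    simp [h1]
  | succ d ih =>
    rw [sum_kd_succ hΦ (measurable_dlg _ mg) m₀, Coll.Psi_succ, add_sub_cancel_right]
    congr 1
    refine lintegral_congr fun s => ?_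
    have e1 : L.1 + t • L.2 - (t - s) • L.2 = L.1 + s • L.2 := by module
    rw [e1]
    have e2 : (fun w => ∑ a ∈ shapes d, kd Φ (dlg (K1.collOf hΦ) g) (fun z => f₀ z.1 z.2) a s
        (lineAt s (L.1 + s • L.2) w)) =
        (K1.collOf hΦ).Psi f₀ m₀ (d + 1) g mg s (L.1 + s • L.2) := by
      funext w
      rw [ih s (lineAt s (L.1 + s • L.2) w)]
      unfold lineAt
      simp only
      rw [sub_add_cancel]
    rw [e2]
    rfl

/-! ### Product form of the integrand -/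

/-- The times are ordered: children before parents, the last node in `(0, t]`. -/
def ordd : (τ : Shape) → ℝ → PD τ → Prop
  | .leaf, _, _ => True
  | .node a b, t, p => (0 < p.1.1 ∧ p.1.1 ≤ t) ∧ ordd a p.1.1 p.2.1 ∧ ordd b p.1.1 p.2.2

/-- Product over the leaves. -/
def leafW (F₀ : Ph → ℝ≥0∞) : (τ : Shape) → LD τ → ℝ≥0∞
  | .leaf, z => F₀ z
  | .node a b, z => leafW F₀ a z.1 * leafW F₀ b z.2

/-- Product over the legs. -/
def legW (Φ : E3 → ℝ) (lg : ℝ → ℝ → Ph → ℝ≥0∞) : (τ : Shape) → ℝ → Ph → PD τ → ℝ≥0∞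
  | .leaf, t, L, _ => lg 0 t L
  | .node a b, t, L, p => lg p.1.1 t L * (legW Φ lg a p.1.1 (inLines Φ 0 L p.1).1 p.2.1 *
      legW Φ lg b p.1.1 (inLines Φ 0 L p.1).2 p.2.2)

open Classical in
theorem kw_eq : ∀ (τ : Shape) (t : ℝ) (L : Ph) (p : PD τ), kw Φ lg F₀ τ t L p =
    (if ordd τ t p then 1 else 0) *
      (KT.wt Φ τ L.2 p * (leafW F₀ τ (bk Φ 0 τ L p) * legW Φ lg τ t L p))
  | .leaf, t, L, p => by
    have h1 : (if ordd .leaf t p then (1 : ℝ≥0∞) else 0) = 1 := if_pos trivial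
    rw [h1, one_mul]
    change F₀ L * lg 0 t L = 1 * (F₀ L * lg 0 t L)
    rw [one_mul]
  | .node a b, t, L, p => by
    have ha := kw_eq a p.1.1 (inLines Φ 0 L p.1).1 p.2.1
    have hb := kw_eq b p.1.1 (inLines Φ 0 L p.1).2 p.2.2
    have e1 : kw Φ lg F₀ (.node a b) t L p =
        (Ioc 0 t).indicator (fun _ => 1) p.1.1 * lg p.1.1 t L *
        (nw Φ L.2 p.1 * (kw Φ lg F₀ a p.1.1 (inLines Φ 0 L p.1).1 p.2.1 *
        kw Φ lg F₀ b p.1.1 (inLines Φ 0 L p.1).2 p.2.2)) := rfl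
    have e2 : (if ordd (.node a b) t p then (1 : ℝ≥0∞) else 0) =
        (Ioc 0 t).indicator (fun _ => 1) p.1.1 * ((if ordd a p.1.1 p.2.1 then 1 else 0) *
          (if ordd b p.1.1 p.2.2 then 1 else 0)) := by
      have e3 : ordd (.node a b) t p ↔ (p.1.1 ∈ Ioc 0 t) ∧ ordd a p.1.1 p.2.1 ∧
        ordd b p.1.1 p.2.2 := Iff.rfl
      by_cases h1 : p.1.1 ∈ Ioc 0 t
      · by_cases h2 : ordd a p.1.1 p.2.1
        · by_cases h3 : ordd b p.1.1 p.2.2
          · rw [if_pos (e3.2 ⟨h1, h2, h3⟩), indicator_of_mem h1, if_pos h2, if_pos h3, mul_one,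
              mul_one]
          · rw [if_neg (fun h => h3 (e3.1 h).2.2), if_neg h3, mul_zero, mul_zero]
        · rw [if_neg (fun h => h2 (e3.1 h).2.1), if_neg h2, zero_mul, mul_zero]
      · rw [if_neg (fun h => h1 (e3.1 h).1), indicator_of_notMem h1, zero_mul]
    have e4 : KT.wt Φ (.node a b) L.2 p = nw Φ L.2 p.1 *
        (KT.wt Φ a (inLines Φ 0 L p.1).1.2 p.2.1 * KT.wt Φ b (inLines Φ 0 L p.1).2.2 p.2.2) := by
      rw [(inLines_vel 0 L p.1).1, (inLines_vel 0 L p.1).2]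
      rfl
    have e5 : leafW F₀ (.node a b) (bk Φ 0 (.node a b) L p) =
        leafW F₀ a (bk Φ 0 a (inLines Φ 0 L p.1).1 p.2.1) *
        leafW F₀ b (bk Φ 0 b (inLines Φ 0 L p.1).2 p.2.2) := rfl
    have e6 : legW Φ lg (.node a b) t L p = lg p.1.1 t L *
        (legW Φ lg a p.1.1 (inLines Φ 0 L p.1).1 p.2.1 *
        legW Φ lg b p.1.1 (inLines Φ 0 L p.1).2 p.2.2) := rfl
    rw [e1, e2, e4, e5, e6, ha, hb]
    ring

/-! ### The truncated density -/

variable {hΦ : IsPotential Φ} {f₀ : Ph → ℝ}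
  {m₀ : Measurable fun p : E3 × E3 => K1.f0hat f₀ p.1 p.2} {T : ℝ} {f : ℝ → Ph → ℝ}
  (K : KinFamily hΦ f₀ m₀ T f)

/-- The legs of the M-world truncated at depth `L` (leaves have depth `0`). -/
def KinFamily.leg (L : ℕ) : ℝ → ℝ → Ph → ℝ≥0∞ := dlg (K1.collOf hΦ) (K.u (L + 1)).1

/-- The density of the shape `τ` in the M-world truncated at depth `L`. -/
def KinFamily.kd (L : ℕ) (τ : Shape) (t : ℝ) (l : Ph) : ℝ≥0∞ :=
  KE.kd Φ (K.leg L) (fun z => K1.f0hat f₀ z.1 z.2) τ t l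

theorem KinFamily.sum_kd (L d : ℕ) (t : ℝ) (l : Ph) : ∑ τ ∈ shapes d, K.kd L τ t l =
    (K1.collOf hΦ).Psi (K1.f0hat f₀) m₀ (d + 1) (K.u (L + 1)).1 (K.u (L + 1)).2 t
      (l.1 + t • l.2) l.2 :=
  sum_kd_eq_Psi hΦ (K.u (L + 1)).2 d t l

/-- **The fixed point in terms of trees.** -/
theorem KinFamily.sum_kd_self {L : ℕ} (hL : K.L₀ ≤ L + 1) {t : ℝ} (ht : t ∈ Icc 0 T) (l : Ph) :
    ∑ τ ∈ shapes L, K.kd L τ t l = (K.u (L + 1)).1 t (l.1 + t • l.2) l.2 := by
  rw [K.sum_kd, K.fix (L + 1) hL t ht]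

theorem KinFamily.sum_kd_le {L : ℕ} (hL : K.L₀ ≤ L + 1) (d : ℕ) {t : ℝ} (ht : t ∈ Icc 0 T)
    (l : Ph) : ∑ τ ∈ shapes d, K.kd L τ t l ≤ gs K.M K.b l.2 := by
  rw [K.sum_kd]
  exact K.psi_le (L + 1) hL (d + 1) t ht _ _

/-- Bound for the trees of depth at least `d + 1`. -/
theorem KinFamily.sum_kd_tail {L : ℕ} (hL : K.L₀ ≤ L + 1) {d : ℕ} (hd : d ≤ L) {t : ℝ}
    (ht : t ∈ Icc 0 T) (l : Ph) :
    ∑ τ ∈ shapes L, K.kd L τ t l ≤ ∑ τ ∈ shapes d, K.kd L τ t l + gs (K.e (d + 1)) K.b l.2 := by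
  rw [K.sum_kd_self hL ht, K.sum_kd]
  exact K.tail (L + 1) hL (d + 1) (by omega) t ht _ _

end Vale.Agent.P119.KE
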