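import Vale.Agent.P119.KE.Close

/-! Choice of the parameters and order of the limits in the closed system. -/

open MeasureTheory Filter Topology Set
open scoped ENNReal NNReal

noncomputable section

namespace Vale.Agent.P119.KE

/-- The short lag at depth `L`. -/
def lagL (K : ℝ) (L : ℕ) : ℝ := ((2 * K) ^ L)⁻¹

/-- The threshold at depth `L`. -/
def thr (K : ℝ) (p L : ℕ) : ℝ := ((2 * K) ^ ((p + 1) * L))⁻¹

theorem lagL_pos {K : ℝ} (hK : 1 ≤ K) (L : ℕ) : 0 < lagL K L := by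
  unfold lagL; positivity

theorem lagL_le_one {K : ℝ} (hK : 1 ≤ K) (L : ℕ) : lagL K L ≤ 1 := by
  unfold lagL
  exact inv_le_one_of_one_le₀ (one_le_pow₀ (by linarith))

theorem thr_pos {K : ℝ} (hK : 1 ≤ K) (p L : ℕ) : 0 < thr K p L := by
  unfold thr; positivity

theorem thr_le {K : ℝ} (hK : 1 ≤ K) (p : ℕ) {L : ℕ} (hL : 1 ≤ L) : thr K p L ≤ 1 / 2 := by
  unfold thr
  have h1 : (2 : ℝ) ≤ (2 * K) ^ ((p + 1) * L) := by
    calc (2 : ℝ) ≤ (2 * K) ^ 1 := by rw [pow_one]; linarith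
      _ ≤ (2 * K) ^ ((p + 1) * L) := by
          refine pow_le_pow_right₀ (by linarith) ?_
          exact Nat.one_le_iff_ne_zero.2 (by positivity)
  rw [inv_le_comm₀ (by positivity) (by norm_num)]
  simpa using h1

theorem thr_div_lag {K : ℝ} (hK : 1 ≤ K) (p L : ℕ) :
    thr K p L / lagL K L ^ p = lagL K L := by
  unfold thr lagL
  have h0 : (2 * K) ^ L ≠ 0 := by positivity
  rw [inv_pow, div_inv_eq_mul, pow_mul, ← pow_mul, ← pow_mul, show (p + 1) * L = L * p + L by ring,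
    pow_add, mul_inv, mul_comm (((2 * K) ^ (L * p))⁻¹), mul_assoc, inv_mul_cancel₀ (by positivity),
    mul_one]

theorem kap_tendsto {K : ℝ} (hK : 1 ≤ K) (p : ℕ) :
    Tendsto (fun L => K ^ L * (2 * thr K p L / lagL K L ^ p + lagL K L)) atTop (𝓝 0) := by
  have h1 : ∀ L, K ^ L * (2 * thr K p L / lagL K L ^ p + lagL K L) = 3 * (1 / 2 : ℝ) ^ L := by
    intro L
    rw [mul_div_assoc, thr_div_lag hK]
    unfold lagL
    have h0 : K ^ L ≠ 0 := by positivity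
    rw [mul_pow, mul_inv, one_div, inv_pow]
    calc K ^ L * (2 * (((2 : ℝ) ^ L)⁻¹ * (K ^ L)⁻¹) + ((2 : ℝ) ^ L)⁻¹ * (K ^ L)⁻¹)
        = 3 * ((2 : ℝ) ^ L)⁻¹ * (K ^ L * (K ^ L)⁻¹) := by ring
      _ = _ := by rw [mul_inv_cancel₀ h0, mul_one]
  simp_rw [h1]
  have := (tendsto_pow_atTop_nhds_zero_of_lt_one (r := (1 / 2 : ℝ)) (by norm_num)
    (by norm_num)).const_mul 3
  simpa using this

/-- The creation term is superexponentially smaller than the threshold. -/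
theorem creation_div_thr {K : ℝ} (hK : 1 ≤ K) (p : ℕ) {cr : ℕ → ℝ} (hcr : SuperExp cr)
    (A : ℝ) (hA : 0 ≤ A) :
    Tendsto (fun L => A ^ L * (K ^ L * cr L / thr K p L)) atTop (𝓝 0) := by
  refine (hcr (A * (K * (2 * K) ^ (p + 1))) (by positivity)).congr fun L => ?_
  unfold thr
  rw [div_inv_eq_mul, mul_pow, mul_pow, ← pow_mul]
  ring

/-- **Order of the limits.** `D L η ε t` etc. are the quantities of the gas truncated at depth `L`,
stopped at the threshold `η`, at scale `ε`. First `ε → 0`, then `L → ∞`. -/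
theorem feedback_limit {T C K : ℝ} (hC : 0 ≤ C) (hK : 1 ≤ K) (p : ℕ) {cr : ℕ → ℝ}
    (hcr : ∀ L, 0 ≤ cr L) {D Θ F : ℕ → ℝ → ℝ → ℝ → ℝ≥0∞} {Mb : ℕ → ℝ}
    (bd : ∀ᶠ L in atTop, ∀ η ∈ Ioc (0 : ℝ) 1, ∀ᶠ ε in 𝓝[>] (0 : ℝ), ∀ t ∈ Icc 0 T,
      D L η ε t ≤ ENNReal.ofReal (Mb L) ∧ Θ L η ε t ≤ ENNReal.ofReal (Mb L) ∧
      F L η ε t ≤ ENNReal.ofReal (Mb L))
    (hsys : ∀ᶠ L in atTop, ∀ δ ∈ Ioc (0 : ℝ) 1, ∀ η η' : ℝ, 0 < η → η < η' → η' ≤ 1 →
      ∀ ρ : ℝ, 0 < ρ → ∀ᶠ ε in 𝓝[>] (0 : ℝ), ∀ t ∈ Icc 0 T,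
      Θ L η ε t ≤ ENNReal.ofReal (K ^ L * cr L + ρ) +
        ENNReal.ofReal C * (∫⁻ s in Icc 0 t, (D L η' ε s + F L η' ε s)) +
        ENNReal.ofReal (K ^ L * (η' / δ ^ p + δ)) *
          (D L η' ε t + Θ L η' ε t + F L η' ε t) ∧
      F L η ε t ≤ ENNReal.ofReal (K ^ L * cr L + ρ) + ENNReal.ofReal C * Θ L η' ε t +
        ENNReal.ofReal (K ^ L * (η' / δ ^ p + δ)) *
          (D L η' ε t + Θ L η' ε t + F L η' ε t) ∧
      D L η ε t ≤ ENNReal.ofReal (K ^ L * cr L + ρ) +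
        ENNReal.ofReal C * (∫⁻ s in Icc 0 t, (D L η' ε s + Θ L η' ε s)) +
        ENNReal.ofReal (K ^ L * (η' / δ ^ p + δ)) *
          (D L η' ε t + Θ L η' ε t + F L η' ε t)) :
    ∀ᶠ L in atTop, ∀ ρ : ℝ, 0 < ρ → ∀ᶠ ε in 𝓝[>] (0 : ℝ), ∀ t ∈ Icc 0 T,
      D L (thr K p L) ε t + Θ L (thr K p L) ε t ≤
        ENNReal.ofReal (6 * Real.exp (64 * (C + 1) ^ 2 * T) * (K ^ L * cr L) + ρ) := by
  have hk : ∀ᶠ L in atTop, K ^ L * (2 * thr K p L / lagL K L ^ p + lagL K L) ≤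
      1 / (96 * (C + 1)) :=
    (kap_tendsto hK p).eventually (ge_mem_nhds (by positivity))
  filter_upwards [bd, hsys, hk, eventually_ge_atTop 1] with L hbd hsys hkL hL1
  intro ρ hρ
  obtain ⟨E, hE⟩ : ∃ E, E = Real.exp (64 * (C + 1) ^ 2 * T) := ⟨_, rfl⟩
  have hE0 : 0 < E := by rw [hE]; positivity
  obtain ⟨h, hh⟩ : ∃ h, h = thr K p L := ⟨_, rfl⟩
  have hh0 : 0 < h := hh ▸ thr_pos hK p L
  have hh2 : h ≤ 1 / 2 := hh ▸ thr_le hK p hL1
  obtain ⟨dl, hdl⟩ : ∃ dl, dl = lagL K L := ⟨_, rfl⟩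
  have hdl0 : 0 < dl := hdl ▸ lagL_pos hK L
  have hdl1 : dl ≤ 1 := hdl ▸ lagL_le_one hK L
  rw [← hh, ← hdl] at hkL
  rw [← hh, ← hE]
  obtain ⟨κ, hκ⟩ : ∃ κ, κ = K ^ L * (2 * h / dl ^ p + dl) := ⟨_, rfl⟩
  rw [← hκ] at hkL
  have hκ0 : 0 ≤ κ := by rw [hκ]; positivity
  have hκC : κ * (96 * (C + 1)) ≤ 1 := by
    calc κ * (96 * (C + 1)) ≤ 1 / (96 * (C + 1)) * (96 * (C + 1)) := by gcongr
      _ = 1 := by field_simp
  obtain ⟨Mm, hMm⟩ : ∃ Mm, Mm = max (Mb L) 0 := ⟨_, rfl⟩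
  have hMm0 : 0 ≤ Mm := hMm ▸ le_max_right _ _
  -- number of levels
  obtain ⟨n, hn0, hn⟩ : ∃ n : ℕ, 0 < n ∧ (1 / 2 : ℝ) ^ n * (3 * Mm) * E ≤ ρ / 2 := by
    have h1 : Tendsto (fun n : ℕ => (1 / 2 : ℝ) ^ n * (3 * Mm) * E) atTop (𝓝 (0 * (3 * Mm) * E)) :=
      ((tendsto_pow_atTop_nhds_zero_of_lt_one (by norm_num) (by norm_num)).mul_const _).mul_const _
    rw [zero_mul, zero_mul] at h1
    have h2 := (h1.eventually (ge_mem_nhds (show (0 : ℝ) < ρ / 2 by positivity))).and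
      (eventually_gt_atTop 0)
    obtain ⟨n, h3, h4⟩ := h2.exists
    exact ⟨n, h4, h3⟩
  obtain ⟨lev, hlev⟩ : ∃ lev : ℕ → ℝ, ∀ i, lev i = h * (1 + i / n) := ⟨_, fun _ => rfl⟩
  have hn0' : (0 : ℝ) < n := by exact_mod_cast hn0
  have hlev0 : lev 0 = h := by rw [hlev]; simp
  have hlevpos : ∀ i, 0 < lev i := fun i => by rw [hlev]; positivity
  have hlevle : ∀ i ≤ n, lev i ≤ 2 * h := fun i hi => by
    rw [hlev]
    have h1 : (i : ℝ) / n ≤ 1 := by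
      rw [div_le_one hn0']
      exact_mod_cast hi
    nlinarith
  have hlevlt : ∀ i, lev i < lev (i + 1) := fun i => by
    rw [hlev, hlev]
    have : (i : ℝ) / n < ((i + 1 : ℕ) : ℝ) / n := by
      rw [div_lt_div_iff_of_pos_right hn0']
      push_cast
      linarith
    nlinarith
  obtain ⟨r, hr⟩ : ∃ r, r = ρ / (12 * E) := ⟨_, rfl⟩
  have hr0 : 0 < r := by rw [hr]; positivity
  -- all the inequalities for small `ε`
  have hall : ∀ᶠ ε in 𝓝[>] (0 : ℝ), ∀ i ∈ Finset.range n, ∀ t ∈ Icc 0 T,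
      Θ L (lev i) ε t ≤ ENNReal.ofReal (K ^ L * cr L + r) +
        ENNReal.ofReal C * (∫⁻ s in Icc 0 t, (D L (lev (i + 1)) ε s + F L (lev (i + 1)) ε s)) +
        ENNReal.ofReal κ *
          (D L (lev (i + 1)) ε t + Θ L (lev (i + 1)) ε t + F L (lev (i + 1)) ε t) ∧
      F L (lev i) ε t ≤ ENNReal.ofReal (K ^ L * cr L + r) +
        ENNReal.ofReal C * Θ L (lev (i + 1)) ε t +
        ENNReal.ofReal κ *
          (D L (lev (i + 1)) ε t + Θ L (lev (i + 1)) ε t + F L (lev (i + 1)) ε t) ∧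
      D L (lev i) ε t ≤ ENNReal.ofReal (K ^ L * cr L + r) +
        ENNReal.ofReal C * (∫⁻ s in Icc 0 t, (D L (lev (i + 1)) ε s + Θ L (lev (i + 1)) ε s)) +
        ENNReal.ofReal κ *
          (D L (lev (i + 1)) ε t + Θ L (lev (i + 1)) ε t + F L (lev (i + 1)) ε t) := by
    rw [Filter.eventually_all_finset]
    intro i hi
    have hi' : i + 1 ≤ n := Finset.mem_range.1 hi
    have hle1 : lev (i + 1) ≤ 1 := (hlevle _ hi').trans (by linarith)
    filter_upwards [hsys dl ⟨hdl0, hdl1⟩ (lev i) (lev (i + 1)) (hlevpos i) (hlevlt i) hle1 r hr0]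
      with ε hε t ht
    obtain ⟨h1, h2, h3⟩ := hε t ht
    have hκle : ENNReal.ofReal (K ^ L * (lev (i + 1) / dl ^ p + dl)) ≤ ENNReal.ofReal κ := by
      apply ENNReal.ofReal_le_ofReal
      rw [hκ]
      have := hlevle _ hi'
      gcongr
    exact ⟨h1.trans (add_le_add le_rfl (mul_le_mul_left hκle _)),
      h2.trans (add_le_add le_rfl (mul_le_mul_left hκle _)),
      h3.trans (add_le_add le_rfl (mul_le_mul_left hκle _))⟩
  have hbn := hbd (lev n) ⟨hlevpos n, (hlevle n le_rfl).trans (by linarith)⟩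
  filter_upwards [hall, hbn] with ε hall hbn t ht
  have hMle : ENNReal.ofReal (Mb L) ≤ ENNReal.ofReal Mm :=
    ENNReal.ofReal_le_ofReal (hMm ▸ le_max_left _ _)
  have key := closed_system (T := T) (C := C) (κ := κ) (c := K ^ L * cr L + r) (M := Mm) hC hκ0
    (by have := hcr L; positivity) hMm0 hκC (D := fun i s => D L (lev i) ε s)
    (Θ := fun i s => Θ L (lev i) ε s) (F := fun i s => F L (lev i) ε s) (n := n)
    (fun i hi s hs => (hall i (Finset.mem_range.2 hi) s hs).1)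
    (fun i hi s hs => (hall i (Finset.mem_range.2 hi) s hs).2.1)
    (fun i hi s hs => (hall i (Finset.mem_range.2 hi) s hs).2.2)
    (fun s hs => (hbn s hs).1.trans hMle) (fun s hs => (hbn s hs).2.1.trans hMle)
    (fun s hs => (hbn s hs).2.2.trans hMle) t ht
  simp only [hlev0] at key
  refine key.trans (ENNReal.ofReal_le_ofReal ?_)
  have hcrL := hcr L
  have hexp : Real.exp (64 * (C + 1) ^ 2 * t) ≤ E := by
    rw [hE]
    apply Real.exp_le_exp.2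
    have := ht.2
    gcongr
  calc (6 * (K ^ L * cr L + r) + (1 / 2) ^ n * (3 * Mm)) * Real.exp (64 * (C + 1) ^ 2 * t)
      ≤ (6 * (K ^ L * cr L + r) + (1 / 2) ^ n * (3 * Mm)) * E := by gcongr
    _ = 6 * E * (K ^ L * cr L) + (6 * r * E + (1 / 2) ^ n * (3 * Mm) * E) := by ring
    _ ≤ 6 * E * (K ^ L * cr L) + (ρ / 2 + ρ / 2) := by
        gcongr
        rw [hr]
        apply le_of_eq
        field_simp
        ring
    _ = _ := by ring

end Vale.Agent.P119.KE
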