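import Vale.Agent.P119.Bdl.B1

/-! Kinetic level, abstract part: gain operators given by a kernel, Gaussian bounds, Picard
iterates by depth. -/

open MeasureTheory Filter Topology Set ProbabilityTheory
open scoped ENNReal NNReal

noncomputable section

namespace Vale.Agent.P119.KE

/-- `a e^{-b|v|²}` with values in `[0, ∞]`. -/
def gs (a b : ℝ) (v : E3) : ℝ≥0∞ := ENNReal.ofReal (a * Real.exp (-b * ‖v‖ ^ 2))

@[fun_prop]
theorem measurable_gs (a b : ℝ) : Measurable (gs a b) := by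
  unfold gs
  fun_prop

theorem gs_lt_top (a b : ℝ) (v : E3) : gs a b v < ∞ := ENNReal.ofReal_lt_top

theorem gs_mono {a a' b b' : ℝ} (ha : 0 ≤ a) (haa : a ≤ a') (hb : b' ≤ b) (v : E3) :
    gs a b v ≤ gs a' b' v := by
  unfold gs
  apply ENNReal.ofReal_le_ofReal
  have h1 : Real.exp (-b * ‖v‖ ^ 2) ≤ Real.exp (-b' * ‖v‖ ^ 2) := by
    apply Real.exp_le_exp.2
    nlinarith [sq_nonneg ‖v‖]
  exact mul_le_mul haa h1 (Real.exp_pos _).le (ha.trans haa)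

theorem mul_exp_neg_sq_le {δ r : ℝ} (hδ : 0 < δ) (_hr : 0 ≤ r) :
    (1 + r) * Real.exp (-δ * r ^ 2) ≤ 1 + 1 / Real.sqrt δ := by
  have h1 : Real.exp (-δ * r ^ 2) ≤ 1 := Real.exp_le_one_iff.2 (by nlinarith [sq_nonneg r])
  have hs : 0 < Real.sqrt δ := Real.sqrt_pos.2 hδ
  have h2 : r * Real.exp (-δ * r ^ 2) ≤ 1 / Real.sqrt δ := by
    have h3 : Real.sqrt δ * r ≤ Real.exp (δ * r ^ 2) := by
      have h4 := Real.add_one_le_exp (δ * r ^ 2)
      have h5 : (Real.sqrt δ * r) ^ 2 = δ * r ^ 2 := by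
        rw [mul_pow, Real.sq_sqrt hδ.le]
      nlinarith [sq_nonneg (Real.sqrt δ * r - 1)]
    have h6 : Real.exp (-δ * r ^ 2) = (Real.exp (δ * r ^ 2))⁻¹ := by
      rw [← Real.exp_neg]; ring_nf
    rw [h6, ← div_eq_mul_inv, div_le_div_iff₀ (Real.exp_pos _) hs]
    linarith
  nlinarith [(Real.exp_pos (-δ * r ^ 2)).le]

/-- A gain operator: `Q⁺(h, k)(v) = ∫ h(v') k(v'_*) K_v(dv', dv'_*)`. -/
structure Gain where
  K : Kernel E3 (E3 × E3)
  sf : IsSFiniteKernel K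
  R : ℝ → ℝ
  R_nonneg : ∀ b, 0 ≤ R b
  R_anti : ∀ b b', 0 < b → b ≤ b' → R b' ≤ R b
  gauss : ∀ b, 0 < b → ∀ v,
    ∫⁻ p, ENNReal.ofReal (Real.exp (-b * (‖p.1‖ ^ 2 + ‖p.2‖ ^ 2))) ∂(K v) ≤
      ENNReal.ofReal (R b * (1 + ‖v‖) * Real.exp (-b * ‖v‖ ^ 2))

attribute [instance] Gain.sf

variable (G : Gain)

/-- `Q⁺(h, k)(v)`. -/
def Gain.Q (h k : E3 → ℝ≥0∞) (v : E3) : ℝ≥0∞ := ∫⁻ p, h p.1 * k p.2 ∂(G.K v)

theorem Gain.Q_mono {h h' k k' : E3 → ℝ≥0∞} (hh : ∀ w, h w ≤ h' w) (hk : ∀ w, k w ≤ k' w)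
    (v : E3) : G.Q h k v ≤ G.Q h' k' v :=
  lintegral_mono fun p => mul_le_mul' (hh _) (hk _)

theorem Gain.Q_add_left {h h' k : E3 → ℝ≥0∞} (mh : Measurable h) (mk : Measurable k) (v : E3) :
    G.Q (fun w => h w + h' w) k v = G.Q h k v + G.Q h' k v := by
  unfold Gain.Q
  simp_rw [add_mul]
  exact lintegral_add_left (by fun_prop) _

theorem Gain.Q_add_right {h k k' : E3 → ℝ≥0∞} (mh : Measurable h) (mk : Measurable k) (v : E3) :
    G.Q h (fun w => k w + k' w) v = G.Q h k v + G.Q h k' v := by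
  unfold Gain.Q
  simp_rw [mul_add]
  exact lintegral_add_left (by fun_prop) _

theorem Gain.Q_gs {a a' b : ℝ} (ha : 0 ≤ a) (ha' : 0 ≤ a') (hb : 0 < b) (v : E3) :
    G.Q (gs a b) (gs a' b) v ≤
      ENNReal.ofReal (a * a' * G.R b * (1 + ‖v‖) * Real.exp (-b * ‖v‖ ^ 2)) := by
  unfold Gain.Q gs
  have h1 : ∀ p : E3 × E3, ENNReal.ofReal (a * Real.exp (-b * ‖p.1‖ ^ 2)) *
      ENNReal.ofReal (a' * Real.exp (-b * ‖p.2‖ ^ 2)) =
      ENNReal.ofReal (a * a') *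
        ENNReal.ofReal (Real.exp (-b * (‖p.1‖ ^ 2 + ‖p.2‖ ^ 2))) := by
    intro p
    rw [← ENNReal.ofReal_mul (by positivity), ← ENNReal.ofReal_mul (by positivity)]
    congr 1
    rw [mul_add, Real.exp_add]
    ring
  simp_rw [h1]
  rw [lintegral_const_mul _ (by fun_prop)]
  refine (mul_le_mul_right (G.gauss b hb v) _).trans ?_
  rw [← ENNReal.ofReal_mul (by positivity)]
  apply ENNReal.ofReal_le_ofReal
  apply le_of_eq
  ring

/-- One step of the iteration: a loss `δ` in the exponent absorbs the factor `1 + |v|`. -/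
theorem Gain.Q_gs_le {a a' b δ : ℝ} (ha : 0 ≤ a) (ha' : 0 ≤ a') (hb : 0 < b)
    (hδ : 0 < δ) (v : E3) :
    G.Q (gs a b) (gs a' b) v ≤ gs (a * a' * G.R b * (1 + 1 / Real.sqrt δ)) (b - δ) v := by
  refine (G.Q_gs ha ha' hb v).trans ?_
  unfold gs
  apply ENNReal.ofReal_le_ofReal
  have h1 : Real.exp (-b * ‖v‖ ^ 2) =
      Real.exp (-δ * ‖v‖ ^ 2) * Real.exp (-(b - δ) * ‖v‖ ^ 2) := by
    rw [← Real.exp_add]; ring_nf
  have h2 := mul_exp_neg_sq_le hδ (norm_nonneg v)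
  have h3 : 0 ≤ a * a' * G.R b := mul_nonneg (mul_nonneg ha ha') (G.R_nonneg b)
  calc a * a' * G.R b * (1 + ‖v‖) * Real.exp (-b * ‖v‖ ^ 2)
      = a * a' * G.R b * ((1 + ‖v‖) * Real.exp (-δ * ‖v‖ ^ 2)) *
        Real.exp (-(b - δ) * ‖v‖ ^ 2) := by rw [h1]; ring
    _ ≤ a * a' * G.R b * (1 + 1 / Real.sqrt δ) * Real.exp (-(b - δ) * ‖v‖ ^ 2) := by
        gcongr

theorem lintegral_pow_Ioc {t : ℝ} (ht : 0 ≤ t) (d : ℕ) :
    ∫⁻ s in Ioc 0 t, ENNReal.ofReal (s ^ d) = ENNReal.ofReal (t ^ (d + 1) / (d + 1)) := by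
  have h1 : ∫ s in (0 : ℝ)..t, s ^ d = t ^ (d + 1) / (d + 1) := by
    rw [integral_pow]; simp
  rw [← h1, intervalIntegral.integral_of_le ht, ofReal_integral_eq_lintegral_ofReal]
  · exact ((continuous_pow d).integrableOn_Icc).mono_set Ioc_subset_Icc_self
  · filter_upwards [ae_restrict_mem measurableSet_Ioc] with s hs
    exact pow_nonneg hs.1.le d

/-- Iteration step in time. -/
theorem Gain.step {C γ a b δ t : ℝ} {d : ℕ} (ht : 0 ≤ t) (hC : 0 ≤ C) (ha : 0 ≤ a) (hb : 0 < b)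
    (hbγ : b ≤ γ) (hδ : 0 < δ) {B : ℝ → E3 → ℝ≥0∞}
    (hB : ∀ s ∈ Ioc 0 t, ∀ v, B s v ≤ gs (a * s ^ d) b v) (v : E3) :
    ∫⁻ s in Ioc 0 t, (G.Q (B s) (gs C γ) v + G.Q (gs C γ) (B s) v) ≤
      gs (2 * C * G.R b * (1 + 1 / Real.sqrt δ) * a * (t ^ (d + 1) / (d + 1))) (b - δ) v := by
  have hk : ∀ s ∈ Ioc 0 t, G.Q (B s) (gs C γ) v + G.Q (gs C γ) (B s) v ≤
      ENNReal.ofReal (s ^ d) * gs (2 * C * G.R b * (1 + 1 / Real.sqrt δ) * a) (b - δ) v := by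
    intro s hs
    have hs0 : 0 ≤ s ^ d := pow_nonneg hs.1.le d
    have h1 : G.Q (B s) (gs C γ) v ≤ G.Q (gs (a * s ^ d) b) (gs C b) v :=
      G.Q_mono (hB s hs) (gs_mono hC le_rfl hbγ) v
    have h2 : G.Q (gs C γ) (B s) v ≤ G.Q (gs C b) (gs (a * s ^ d) b) v :=
      G.Q_mono (gs_mono hC le_rfl hbγ) (hB s hs) v
    have h3 := G.Q_gs_le (b := b) (mul_nonneg ha hs0) hC hb hδ v
    have h4 := G.Q_gs_le (b := b) hC (mul_nonneg ha hs0) hb hδ v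
    refine (add_le_add (h1.trans h3) (h2.trans h4)).trans ?_
    unfold gs
    have hR := G.R_nonneg b
    have hsq : 0 ≤ 1 + 1 / Real.sqrt δ := by positivity
    rw [← ENNReal.ofReal_add (by positivity) (by positivity), ← ENNReal.ofReal_mul hs0]
    apply ENNReal.ofReal_le_ofReal
    apply le_of_eq
    ring
  calc ∫⁻ s in Ioc 0 t, (G.Q (B s) (gs C γ) v + G.Q (gs C γ) (B s) v)
      ≤ ∫⁻ s in Ioc 0 t, ENNReal.ofReal (s ^ d) *
          gs (2 * C * G.R b * (1 + 1 / Real.sqrt δ) * a) (b - δ) v :=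
        setLIntegral_mono' measurableSet_Ioc hk
    _ = ENNReal.ofReal (t ^ (d + 1) / (d + 1)) *
          gs (2 * C * G.R b * (1 + 1 / Real.sqrt δ) * a) (b - δ) v := by
        rw [lintegral_mul_const _ (by fun_prop), lintegral_pow_Ioc ht]
    _ = _ := by
        unfold gs
        have hR := G.R_nonneg b
        rw [← ENNReal.ofReal_mul (by positivity)]
        congr 1
        ring

end Vale.Agent.P119.KE
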