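import Vale.Agent.P119.KE.Kern

/-! Picard iterates by depth of the mild Boltzmann equation, abstract form. -/

open MeasureTheory Filter Topology Set ProbabilityTheory
open scoped ENNReal NNReal

noncomputable section

namespace Vale.Agent.P119.KE

variable (G : Gain)

theorem Gain.measurable_Q {α : Type*} [MeasurableSpace α] {h k : α × E3 → ℝ≥0∞} {w : α → E3}
    (mh : Measurable h) (mk : Measurable k) (mw : Measurable w) :
    Measurable fun a => G.Q (fun u => h (a, u)) (fun u => k (a, u)) (w a) := by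
  have h1 : Measurable fun q : α × (E3 × E3) => h (q.1, q.2.1) * k (q.1, q.2.2) := by fun_prop
  have h2 := Measurable.lintegral_kernel_prod_right' (κ := G.K.comap w mw) h1
  simpa [Gain.Q, Kernel.comap_apply] using h2

theorem Gain.measurable_Q' {h k : E3 → ℝ≥0∞} (mh : Measurable h) (mk : Measurable k) :
    Measurable fun v => G.Q h k v := by
  have := G.measurable_Q (α := E3) (h := fun q => h q.2) (k := fun q => k q.2) (w := id)
    (by fun_prop) (by fun_prop) measurable_id
  simpa using this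

/-- Data of a mild equation: the part without collision `g₀` and the survival factor
`S s t x v` of the line through `(x, v)` at time `t`, during `[s, t]`. -/
structure MildData where
  g₀ : ℝ → E3 → E3 → ℝ≥0∞
  S : ℝ → ℝ → E3 → E3 → ℝ≥0∞
  mg : Measurable fun p : ℝ × E3 × E3 => g₀ p.1 p.2.1 p.2.2
  mS : Measurable fun p : ℝ × ℝ × E3 × E3 => S p.1 p.2.1 p.2.2.1 p.2.2.2
  S_le : ∀ s t x v, S s t x v ≤ 1

variable {G} (D : MildData)

/-- The Duhamel operator. -/
def MildData.duh (G : Gain) (h k : ℝ → E3 → E3 → ℝ≥0∞) (t : ℝ) (x v : E3) : ℝ≥0∞ :=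
  ∫⁻ s in Ioc 0 t, D.S s t x v * G.Q (h s (x - (t - s) • v)) (k s (x - (t - s) • v)) v

/-- Picard iterates; `pic d` is the density of the particles of depth `≤ d`. -/
def MildData.pic (G : Gain) : ℕ → ℝ → E3 → E3 → ℝ≥0∞
  | 0 => fun _ _ _ => 0
  | d + 1 => fun t x v => D.g₀ t x v + D.duh G (MildData.pic G d) (MildData.pic G d) t x v

/-- Joint measurability. -/
def JM (h : ℝ → E3 → E3 → ℝ≥0∞) : Prop := Measurable fun p : ℝ × E3 × E3 => h p.1 p.2.1 p.2.2

theorem JM.comp {h : ℝ → E3 → E3 → ℝ≥0∞} (mh : JM h) {α : Type*} [MeasurableSpace α]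
    {a : α → ℝ} {b c : α → E3} (ha : Measurable a) (hb : Measurable b) (hc : Measurable c) :
    Measurable fun q => h (a q) (b q) (c q) :=
  Measurable.comp (g := fun p : ℝ × E3 × E3 => h p.1 p.2.1 p.2.2) mh
    (ha.prodMk (hb.prodMk hc))

theorem JM.slice {h : ℝ → E3 → E3 → ℝ≥0∞} (mh : JM h) (s : ℝ) (x : E3) :
    Measurable (h s x) :=
  mh.comp measurable_const measurable_const measurable_id

theorem MildData.measurable_S (D : MildData) {α : Type*} [MeasurableSpace α]
    {a b : α → ℝ} {c d : α → E3} (ha : Measurable a) (hb : Measurable b) (hc : Measurable c)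
    (hd : Measurable d) : Measurable fun q => D.S (a q) (b q) (c q) (d q) :=
  Measurable.comp (g := fun p : ℝ × ℝ × E3 × E3 => D.S p.1 p.2.1 p.2.2.1 p.2.2.2) D.mS
    (ha.prodMk (hb.prodMk (hc.prodMk hd)))

theorem MildData.jm_duh {h k : ℝ → E3 → E3 → ℝ≥0∞} (mh : JM h) (mk : JM k) :
    JM (D.duh G h k) := by
  have h1 : Measurable fun q : (ℝ × E3 × E3) × ℝ =>
      (Ioc 0 q.1.1).indicator (fun s => D.S s q.1.1 q.1.2.1 q.1.2.2 *
        G.Q (h s (q.1.2.1 - (q.1.1 - s) • q.1.2.2)) (k s (q.1.2.1 - (q.1.1 - s) • q.1.2.2))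
          q.1.2.2) q.2 := by
    have h2 : (fun q : (ℝ × E3 × E3) × ℝ =>
      (Ioc 0 q.1.1).indicator (fun s => D.S s q.1.1 q.1.2.1 q.1.2.2 *
        G.Q (h s (q.1.2.1 - (q.1.1 - s) • q.1.2.2)) (k s (q.1.2.1 - (q.1.1 - s) • q.1.2.2))
          q.1.2.2) q.2) = {q : (ℝ × E3 × E3) × ℝ | 0 < q.2 ∧ q.2 ≤ q.1.1}.indicator
          (fun q => D.S q.2 q.1.1 q.1.2.1 q.1.2.2 *
        G.Q (h q.2 (q.1.2.1 - (q.1.1 - q.2) • q.1.2.2))
          (k q.2 (q.1.2.1 - (q.1.1 - q.2) • q.1.2.2)) q.1.2.2) := by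
      ext q
      by_cases hq : 0 < q.2 ∧ q.2 ≤ q.1.1
      · rw [indicator_of_mem (show q.2 ∈ Ioc 0 q.1.1 from hq), indicator_of_mem (by exact hq)]
      · rw [indicator_of_notMem (show q.2 ∉ Ioc 0 q.1.1 from hq),
          indicator_of_notMem (by exact hq)]
    rw [h2]
    refine Measurable.indicator ?_ ?_
    · refine Measurable.mul ?_ ?_
      · exact D.measurable_S (by fun_prop) (by fun_prop) (by fun_prop) (by fun_prop)
      · exact G.measurable_Q
          (h := fun q : ((ℝ × E3 × E3) × ℝ) × E3 =>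
            h q.1.2 (q.1.1.2.1 - (q.1.1.1 - q.1.2) • q.1.1.2.2) q.2)
          (k := fun q : ((ℝ × E3 × E3) × ℝ) × E3 =>
            k q.1.2 (q.1.1.2.1 - (q.1.1.1 - q.1.2) • q.1.1.2.2) q.2)
          (w := fun q => q.1.2.2)
          (mh.comp (by fun_prop) (by fun_prop) (by fun_prop))
          (mk.comp (by fun_prop) (by fun_prop) (by fun_prop)) (by fun_prop)
    · exact (measurableSet_lt measurable_const measurable_snd).inter
        (measurableSet_le measurable_snd (by fun_prop))
  have h3 := Measurable.lintegral_prod_right' (ν := (volume : Measure ℝ)) h1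
  unfold JM MildData.duh
  simp_rw [lintegral_indicator measurableSet_Ioc] at h3
  exact h3

theorem MildData.jm_pic (d : ℕ) : JM (D.pic G d) := by
  induction d with
  | zero => exact measurable_const
  | succ d ih => exact D.mg.add (D.jm_duh ih ih)

theorem MildData.duh_mono {h h' k k' : ℝ → E3 → E3 → ℝ≥0∞} {t : ℝ}
    (hh : ∀ s ∈ Ioc 0 t, ∀ x v, h s x v ≤ h' s x v)
    (hk : ∀ s ∈ Ioc 0 t, ∀ x v, k s x v ≤ k' s x v) (x v : E3) :
    D.duh G h k t x v ≤ D.duh G h' k' t x v :=
  setLIntegral_mono' measurableSet_Ioc fun s hs =>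
    mul_le_mul_right (G.Q_mono (hh s hs _) (hk s hs _) v) _

theorem MildData.pic_mono (d : ℕ) (t : ℝ) (x v : E3) :
    D.pic G d t x v ≤ D.pic G (d + 1) t x v := by
  induction d generalizing t x v with
  | zero => exact zero_le
  | succ d ih => exact add_le_add le_rfl (D.duh_mono (fun s _ => ih s) (fun s _ => ih s) x v)

theorem MildData.pic_mono' {d e : ℕ} (h : d ≤ e) (t : ℝ) (x v : E3) :
    D.pic G d t x v ≤ D.pic G e t x v :=
  monotone_nat_of_le_succ (f := fun d => D.pic G d t x v) (fun n => D.pic_mono n t x v) h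

/-- `f` is a mild solution on `[0, T]`. -/
structure MildData.IsSol (G : Gain) (T : ℝ) (f : ℝ → E3 → E3 → ℝ≥0∞) : Prop where
  jm : JM f
  eq : ∀ t ∈ Icc 0 T, ∀ x v, f t x v = D.g₀ t x v + D.duh G f f t x v

variable {T : ℝ} {f : ℝ → E3 → E3 → ℝ≥0∞}

theorem MildData.IsSol.pic_le (h : D.IsSol G T f) (d : ℕ) {t : ℝ} (ht : t ∈ Icc 0 T)
    (x v : E3) : D.pic G d t x v ≤ f t x v := by
  induction d generalizing t x v with
  | zero => exact zero_le
  | succ d ih =>
    rw [h.eq t ht]
    have hs : ∀ s ∈ Ioc 0 t, s ∈ Icc 0 T := fun s hs => ⟨hs.1.le, hs.2.trans ht.2⟩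
    exact add_le_add le_rfl (D.duh_mono (fun s h1 => ih (hs s h1)) (fun s h1 => ih (hs s h1)) x v)

/-- The remainder `f - F_d`. -/
def MildData.rem (G : Gain) (f : ℝ → E3 → E3 → ℝ≥0∞) (d : ℕ) (t : ℝ) (x v : E3) : ℝ≥0∞ :=
  f t x v - D.pic G d t x v

theorem MildData.IsSol.pic_add_rem (h : D.IsSol G T f) (d : ℕ) {t : ℝ} (ht : t ∈ Icc 0 T)
    (x v : E3) : D.pic G d t x v + D.rem G f d t x v = f t x v :=
  add_tsub_cancel_of_le (h.pic_le D d ht x v)

theorem MildData.IsSol.jm_rem (h : D.IsSol G T f) (d : ℕ) : JM (D.rem G f d) :=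
  Measurable.sub h.jm (D.jm_pic d)

/-- Linear bound for the remainders. -/
theorem MildData.IsSol.rem_succ_le (h : D.IsSol G T f) (d : ℕ) {t : ℝ} (ht : t ∈ Icc 0 T)
    (x v : E3) : D.rem G f (d + 1) t x v ≤
      ∫⁻ s in Ioc 0 t, (G.Q (D.rem G f d s (x - (t - s) • v)) (f s (x - (t - s) • v)) v +
        G.Q (f s (x - (t - s) • v)) (D.rem G f d s (x - (t - s) • v)) v) := by
  change f t x v - D.pic G (d + 1) t x v ≤ _
  rw [tsub_le_iff_right, h.eq t ht]
  have hs : ∀ s ∈ Ioc 0 t, s ∈ Icc 0 T := fun s hs => ⟨hs.1.le, hs.2.trans ht.2⟩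
  have key : D.duh G f f t x v ≤
      (∫⁻ s in Ioc 0 t, (G.Q (D.rem G f d s (x - (t - s) • v)) (f s (x - (t - s) • v)) v +
        G.Q (f s (x - (t - s) • v)) (D.rem G f d s (x - (t - s) • v)) v)) +
      D.duh G (D.pic G d) (D.pic G d) t x v := by
    unfold MildData.duh
    rw [← lintegral_add_right' _ ?_]
    · refine setLIntegral_mono' measurableSet_Ioc fun s h1 => ?_
      set y := x - (t - s) • v with hy
      have e1 : ∀ w, f s y w = D.pic G d s y w + D.rem G f d s y w := fun w =>
        (h.pic_add_rem D d (hs s h1) y w).symm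
      have mp : Measurable (D.pic G d s y) := (D.jm_pic d).slice s y
      have mf : Measurable (f s y) := h.jm.slice s y
      have mr : Measurable (D.rem G f d s y) := (h.jm_rem D d).slice s y
      have e2 : G.Q (f s y) (f s y) v =
          G.Q (D.pic G d s y) (f s y) v + G.Q (D.rem G f d s y) (f s y) v := by
        rw [← G.Q_add_left mp mf]
        congr 1
        exact funext e1
      have e3 : G.Q (D.pic G d s y) (f s y) v =
          G.Q (D.pic G d s y) (D.pic G d s y) v + G.Q (D.pic G d s y) (D.rem G f d s y) v := by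
        rw [← G.Q_add_right mp mp]
        congr 1
        exact funext e1
      have e4 : G.Q (D.pic G d s y) (D.rem G f d s y) v ≤
          G.Q (f s y) (D.rem G f d s y) v :=
        G.Q_mono (fun w => h.pic_le D d (hs s h1) y w) (fun w => le_rfl) v
      rw [e2, e3, mul_add, mul_add]
      have hS := D.S_le s t x v
      calc D.S s t x v * G.Q (D.pic G d s y) (D.pic G d s y) v +
            D.S s t x v * G.Q (D.pic G d s y) (D.rem G f d s y) v +
            D.S s t x v * G.Q (D.rem G f d s y) (f s y) v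
          ≤ D.S s t x v * G.Q (D.pic G d s y) (D.pic G d s y) v +
            1 * G.Q (f s y) (D.rem G f d s y) v +
            1 * G.Q (D.rem G f d s y) (f s y) v := by gcongr
        _ = _ := by ring
    · have hp : JM (D.pic G d) := D.jm_pic d
      refine (Measurable.mul ?_ ?_).aemeasurable
      · exact D.measurable_S measurable_id measurable_const measurable_const measurable_const
      · exact G.measurable_Q
          (h := fun q : ℝ × E3 => D.pic G d q.1 (x - (t - q.1) • v) q.2)
          (k := fun q : ℝ × E3 => D.pic G d q.1 (x - (t - q.1) • v) q.2) (w := fun _ => v)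
          (hp.comp (by fun_prop) (by fun_prop) (by fun_prop))
          (hp.comp (by fun_prop) (by fun_prop) (by fun_prop)) measurable_const
  calc D.g₀ t x v + D.duh G f f t x v
      ≤ D.g₀ t x v + ((∫⁻ s in Ioc 0 t, (G.Q (D.rem G f d s (x - (t - s) • v))
          (f s (x - (t - s) • v)) v + G.Q (f s (x - (t - s) • v))
          (D.rem G f d s (x - (t - s) • v)) v)) +
          D.duh G (D.pic G d) (D.pic G d) t x v) := add_le_add le_rfl key
    _ = _ := by
      rw [MildData.pic]
      ring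

end Vale.Agent.P119.KE
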