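import Vale.Agent.P119.KE.Diff

/-! The damping map of the depth-truncated gas. -/

open MeasureTheory Filter Topology Set ProbabilityTheory
open scoped ENNReal NNReal

noncomputable section

namespace Vale.Agent.P119.KE

/-- The gain sum over the trees of depth `≤ d`, damped by `ν[h]`. -/
def Coll.Psi (G : Coll) (f₀ : E3 → E3 → ℝ≥0∞) (m₀ : Measurable fun p : E3 × E3 => f₀ p.1 p.2)
    (d : ℕ) (h : ℝ → E3 → E3 → ℝ≥0∞) (mh : JM h) : ℝ → E3 → E3 → ℝ≥0∞ :=
  (G.data f₀ m₀ h mh).pic G.toGain d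

variable {G : Coll} (P : Wt) {f₀ : E3 → E3 → ℝ≥0∞} {m₀ : Measurable fun p : E3 × E3 => f₀ p.1 p.2}
  {h k : ℝ → E3 → E3 → ℝ≥0∞}

theorem Coll.jm_Psi (d : ℕ) (mh : JM h) : JM (G.Psi f₀ m₀ d h mh) :=
  MildData.jm_pic _ d

theorem Coll.Psi_succ (d : ℕ) (mh : JM h) (t : ℝ) (x v : E3) :
    G.Psi f₀ m₀ (d + 1) h mh t x v = f₀ (x - t • v) v * G.damp h 0 t x v +
      ∫⁻ s in Ioc 0 t, G.damp h s t x v * G.Q (G.Psi f₀ m₀ d h mh s (x - (t - s) • v))
        (G.Psi f₀ m₀ d h mh s (x - (t - s) • v)) v := rfl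

theorem Coll.Psi_zero (mh : JM h) (t : ℝ) (x v : E3) :
    G.Psi f₀ m₀ 0 h mh t x v = 0 := rfl

theorem Coll.Psi_mono_depth (mh : JM h) {d e : ℕ} (hde : d ≤ e) (t : ℝ) (x v : E3) :
    G.Psi f₀ m₀ d h mh t x v ≤ G.Psi f₀ m₀ e h mh t x v :=
  MildData.pic_mono' _ hde t x v

theorem Coll.dampArg_mono {T : ℝ} (hk : ∀ s ∈ Icc 0 T, ∀ x v, k s x v ≤ h s x v) {s t : ℝ}
    (hs : 0 ≤ s) (ht : t ≤ T) (x v : E3) : G.dampArg k s t x v ≤ G.dampArg h s t x v :=
  setLIntegral_mono' measurableSet_Ioc fun τ hτ =>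
    G.nu_mono (fun w => hk τ ⟨hs.trans hτ.1.le, hτ.2.trans ht⟩ _ w) v

/-- `Psi` is antitone in the damping. -/
theorem Coll.Psi_anti {T : ℝ} (mh : JM h) (mk : JM k)
    (hk : ∀ s ∈ Icc 0 T, ∀ x v, k s x v ≤ h s x v) (d : ℕ) {t : ℝ} (ht : t ∈ Icc 0 T)
    (x v : E3) : G.Psi f₀ m₀ d h mh t x v ≤ G.Psi f₀ m₀ d k mk t x v := by
  induction d generalizing t x v with
  | zero => exact le_rfl
  | succ d ih =>
    rw [Coll.Psi_succ, Coll.Psi_succ]
    refine add_le_add ?_ ?_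
    · exact mul_le_mul_right (en_anti (Coll.dampArg_mono hk le_rfl ht.2 x v)) _
    · refine setLIntegral_mono' measurableSet_Ioc fun s hs => ?_
      have hs' : s ∈ Icc 0 T := ⟨hs.1.le, hs.2.trans ht.2⟩
      exact mul_le_mul' (en_anti (Coll.dampArg_mono hk hs.1.le ht.2 x v))
        (G.Q_mono (fun w => ih hs' _ w) (fun w => ih hs' _ w) v)

theorem Coll.Psi_congr {T : ℝ} (mh : JM h) (mk : JM k)
    (hk : ∀ s ∈ Icc 0 T, ∀ x v, k s x v = h s x v) (d : ℕ) {t : ℝ} (ht : t ∈ Icc 0 T)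
    (x v : E3) : G.Psi f₀ m₀ d h mh t x v = G.Psi f₀ m₀ d k mk t x v :=
  le_antisymm (Coll.Psi_anti mh mk (fun s hs x v => (hk s hs x v).le) d ht x v)
    (Coll.Psi_anti mk mh (fun s hs x v => (hk s hs x v).ge) d ht x v)

theorem measurable_W_slice (l κ b α s : ℝ) : Measurable (W l κ b α s) := measurable_gs _ _

theorem jm2_W (l κ b α : ℝ) : Measurable fun p : ℝ × E3 => W l κ b α p.1 p.2 := by
  unfold W gs
  fun_prop

/-- One step estimate for the dependence on the damping. -/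
theorem Wt.diff_step (mh : JM h) (mk : JM k) {M l α α' : ℝ} (hM : 0 ≤ M) (hl : 0 < l)
    (hα : 0 ≤ α) (hα' : 0 ≤ α') (h0 : P.Dat f₀) (d : ℕ)
    (hB : ∀ s ∈ Icc 0 P.T, ∀ x v, k s x v ≤ h s x v + W l P.κ P.b α s v)
    (bh : ∀ s ∈ Icc 0 P.T, ∀ x v, G.Psi f₀ m₀ d h mh s x v ≤ P.bg M s v)
    (bk : ∀ s ∈ Icc 0 P.T, ∀ x v, G.Psi f₀ m₀ d k mk s x v ≤ P.bg M s v)
    (hP : ∀ s ∈ Icc 0 P.T, ∀ x v, G.Psi f₀ m₀ d h mh s x v ≤
      G.Psi f₀ m₀ d k mk s x v + W l P.κ P.b α' s v) {t : ℝ} (ht : t ∈ Icc 0 P.T) (x v : E3) :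
    G.Psi f₀ m₀ (d + 1) h mh t x v ≤ G.Psi f₀ m₀ (d + 1) k mk t x v +
      W l P.κ P.b (G.R (P.b / 2) * P.M2 G M / l * α + 2 * M * G.R (P.b / 2) * th l P.κ * α')
        t v := by
  have hR1 := G.R_nonneg (P.b / 2)
  have hsT : ∀ s ∈ Ioc 0 t, s ∈ Icc 0 P.T := fun s hs => ⟨hs.1.le, hs.2.trans ht.2⟩
  set β : ℝ≥0∞ := ∫⁻ s in Ioc 0 t, G.nu (W l P.κ P.b α s) v with hβ
  -- damping factors
  have hdamp : ∀ s, 0 ≤ s → G.damp h s t x v ≤ G.damp k s t x v + β := by
    intro s hs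
    apply en_le_en_add
    have h1 : G.dampArg k s t x v ≤ G.dampArg h s t x v +
        ∫⁻ τ in Ioc s t, G.nu (W l P.κ P.b α τ) v := by
      unfold Coll.dampArg
      have mm : Measurable fun τ => G.nu (h τ (x - (t - τ) • v)) v :=
        G.measurable_nu (α := ℝ) (h := fun q : ℝ × E3 => h q.1 (x - (t - q.1) • v) q.2)
          (w := fun _ => v) (mh.comp (by fun_prop) (by fun_prop) (by fun_prop)) measurable_const
      rw [← lintegral_add_left mm]
      refine setLIntegral_mono' measurableSet_Ioc fun τ hτ => ?_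
      have hτ' : τ ∈ Icc 0 P.T := ⟨hs.trans hτ.1.le, hτ.2.trans ht.2⟩
      rw [← G.nu_add (mh.slice τ _)]
      exact G.nu_mono (fun w => hB τ hτ' _ w) v
    refine h1.trans (add_le_add le_rfl ?_)
    exact lintegral_mono_set (Ioc_subset_Ioc_left hs)
  rw [Coll.Psi_succ, Coll.Psi_succ]
  -- pointwise bound of the gain term
  have hgain : ∀ s ∈ Ioc 0 t, G.damp h s t x v *
      G.Q (G.Psi f₀ m₀ d h mh s (x - (t - s) • v)) (G.Psi f₀ m₀ d h mh s (x - (t - s) • v)) v ≤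
      (G.damp k s t x v * G.Q (G.Psi f₀ m₀ d k mk s (x - (t - s) • v))
        (G.Psi f₀ m₀ d k mk s (x - (t - s) • v)) v +
      (G.Q (W l P.κ P.b α' s) (P.bg M s) v + G.Q (P.bg M s) (W l P.κ P.b α' s) v)) +
      β * G.Q (P.bg M s) (P.bg M s) v := by
    intro s hs
    set y := x - (t - s) • v
    set A := G.Psi f₀ m₀ d h mh s y
    set B := G.Psi f₀ m₀ d k mk s y
    have mB : Measurable B := (Coll.jm_Psi d mk).slice s y
    have q1 : G.Q A A v ≤ G.Q B B v +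
        (G.Q (W l P.κ P.b α' s) (P.bg M s) v + G.Q (P.bg M s) (W l P.κ P.b α' s) v) := by
      calc G.Q A A v ≤ G.Q (fun w => B w + W l P.κ P.b α' s w) A v :=
            G.Q_mono (fun w => hP s (hsT s hs) y w) (fun _ => le_rfl) v
        _ ≤ G.Q B A v + G.Q (W l P.κ P.b α' s) A v := by
            have : G.Q (fun w => B w + W l P.κ P.b α' s w) A v =
                G.Q B A v + G.Q (W l P.κ P.b α' s) A v :=
              G.Q_add_left mB ((Coll.jm_Psi d mh).slice s y) v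
            exact this.le
        _ ≤ G.Q B (fun w => B w + W l P.κ P.b α' s w) v + G.Q (W l P.κ P.b α' s) (P.bg M s) v :=
            add_le_add (G.Q_mono (fun _ => le_rfl) (fun w => hP s (hsT s hs) y w) v)
              (G.Q_mono (fun _ => le_rfl) (fun w => bh s (hsT s hs) y w) v)
        _ = (G.Q B B v + G.Q B (W l P.κ P.b α' s) v) + G.Q (W l P.κ P.b α' s) (P.bg M s) v := by
            rw [G.Q_add_right mB mB]
        _ ≤ (G.Q B B v + G.Q (P.bg M s) (W l P.κ P.b α' s) v) +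
            G.Q (W l P.κ P.b α' s) (P.bg M s) v := by
            gcongr
            exact G.Q_mono (fun w => bk s (hsT s hs) y w) (fun _ => le_rfl) v
        _ = _ := by ring
    have q2 : G.Q A A v ≤ G.Q (P.bg M s) (P.bg M s) v :=
      G.Q_mono (fun w => bh s (hsT s hs) y w) (fun w => bh s (hsT s hs) y w) v
    calc G.damp h s t x v * G.Q A A v
        ≤ (G.damp k s t x v + β) * G.Q A A v := mul_le_mul_left (hdamp s hs.1.le) _
      _ = G.damp k s t x v * G.Q A A v + β * G.Q A A v := add_mul _ _ _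
      _ ≤ G.damp k s t x v * (G.Q B B v +
          (G.Q (W l P.κ P.b α' s) (P.bg M s) v + G.Q (P.bg M s) (W l P.κ P.b α' s) v)) +
          β * G.Q (P.bg M s) (P.bg M s) v :=
          add_le_add (mul_le_mul_right q1 _) (mul_le_mul_right q2 _)
      _ ≤ _ := by
          rw [mul_add]
          gcongr
          exact mul_le_of_le_one_left zero_le (en_le_one _)
  have m1 : Measurable fun s => G.Q (W l P.κ P.b α' s) (P.bg M s) v +
      G.Q (P.bg M s) (W l P.κ P.b α' s) v := by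
    have mW : Measurable fun q : ℝ × E3 => W l P.κ P.b α' q.1 q.2 := jm2_W _ _ _ _
    have mb : Measurable fun q : ℝ × E3 => P.bg M q.1 q.2 := by
      unfold Wt.bg gs
      fun_prop
    exact (G.measurable_Q (h := fun q : ℝ × E3 => W l P.κ P.b α' q.1 q.2)
      (k := fun q : ℝ × E3 => P.bg M q.1 q.2) (w := fun _ => v) mW mb measurable_const).add
      (G.measurable_Q (h := fun q : ℝ × E3 => P.bg M q.1 q.2)
      (k := fun q : ℝ × E3 => W l P.κ P.b α' q.1 q.2) (w := fun _ => v) mb mW measurable_const)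
  have m2 : Measurable fun s => G.Q (P.bg M s) (P.bg M s) v := by
    have mb : Measurable fun q : ℝ × E3 => P.bg M q.1 q.2 := by
      unfold Wt.bg gs
      fun_prop
    exact G.measurable_Q (h := fun q : ℝ × E3 => P.bg M q.1 q.2)
      (k := fun q : ℝ × E3 => P.bg M q.1 q.2) (w := fun _ => v) mb mb measurable_const
  calc f₀ (x - t • v) v * G.damp h 0 t x v + ∫⁻ s in Ioc 0 t, G.damp h s t x v *
      G.Q (G.Psi f₀ m₀ d h mh s (x - (t - s) • v)) (G.Psi f₀ m₀ d h mh s (x - (t - s) • v)) v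
      ≤ f₀ (x - t • v) v * (G.damp k 0 t x v + β) + ∫⁻ s in Ioc 0 t,
        ((G.damp k s t x v * G.Q (G.Psi f₀ m₀ d k mk s (x - (t - s) • v))
        (G.Psi f₀ m₀ d k mk s (x - (t - s) • v)) v +
      (G.Q (W l P.κ P.b α' s) (P.bg M s) v + G.Q (P.bg M s) (W l P.κ P.b α' s) v)) +
      β * G.Q (P.bg M s) (P.bg M s) v) :=
        add_le_add (mul_le_mul_right (hdamp 0 le_rfl) _)
          (setLIntegral_mono' measurableSet_Ioc hgain)
    _ = (f₀ (x - t • v) v * G.damp k 0 t x v + ∫⁻ s in Ioc 0 t,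
        G.damp k s t x v * G.Q (G.Psi f₀ m₀ d k mk s (x - (t - s) • v))
        (G.Psi f₀ m₀ d k mk s (x - (t - s) • v)) v) +
        ((∫⁻ s in Ioc 0 t, (G.Q (W l P.κ P.b α' s) (P.bg M s) v +
          G.Q (P.bg M s) (W l P.κ P.b α' s) v)) +
        β * (f₀ (x - t • v) v + ∫⁻ s in Ioc 0 t, G.Q (P.bg M s) (P.bg M s) v)) := by
        rw [lintegral_add_right _ (m2.const_mul β), lintegral_add_right _ m1,
          lintegral_const_mul _ m2]
        ring
    _ ≤ _ := by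
        refine add_le_add le_rfl ?_
        refine (add_le_add (P.gain_part (G := G) hM hα' hl ht v)
          (P.loss_part hM hα hl h0 ht (x - t • v) v)).trans ?_
        unfold W gs
        have hM2 := P.M2_nonneg (G := G) (M := M)
        have hth := th_nonneg (κ := P.κ) hl
        rw [← ENNReal.ofReal_add (by positivity) (by positivity)]
        apply ENNReal.ofReal_le_ofReal
        apply le_of_eq
        ring

/-- `|h - k| ≤ W α` on `[0, T]`. -/
def Wt.Close (l α : ℝ) (h k : ℝ → E3 → E3 → ℝ≥0∞) : Prop :=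
  ∀ s ∈ Icc 0 P.T, ∀ x v, h s x v ≤ k s x v + W l P.κ P.b α s v ∧
    k s x v ≤ h s x v + W l P.κ P.b α s v

theorem Wt.Close.symm {l α : ℝ} (H : P.Close l α h k) : P.Close l α k h :=
  fun s hs x v => ⟨(H s hs x v).2, (H s hs x v).1⟩

theorem W_add {l κ b α β : ℝ} (hα : 0 ≤ α) (hβ : 0 ≤ β) (s : ℝ) (v : E3) :
    W l κ b α s v + W l κ b β s v = W l κ b (α + β) s v := by
  unfold W gs
  rw [← ENNReal.ofReal_add (by positivity) (by positivity)]
  congr 1
  ring

theorem W_mono {l κ b α β : ℝ} (hα : 0 ≤ α) (h : α ≤ β) (s : ℝ) (v : E3) :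
    W l κ b α s v ≤ W l κ b β s v :=
  gs_mono (by positivity) (by gcongr) le_rfl v

theorem Wt.Close.trans {l α β : ℝ} (hα : 0 ≤ α) (hβ : 0 ≤ β) {j : ℝ → E3 → E3 → ℝ≥0∞}
    (H : P.Close l α h k) (H' : P.Close l β k j) : P.Close l (α + β) h j := by
  intro s hs x v
  rw [← W_add hα hβ]
  constructor
  · refine (H s hs x v).1.trans ?_
    refine (add_le_add ((H' s hs x v).1) le_rfl).trans ?_
    apply le_of_eq
    ring
  · refine (H' s hs x v).2.trans ?_
    refine (add_le_add ((H s hs x v).2) le_rfl).trans ?_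
    apply le_of_eq
    ring

theorem Wt.Close.mono {l α β : ℝ} (hα : 0 ≤ α) (hαβ : α ≤ β) (H : P.Close l α h k) :
    P.Close l β h k := fun s hs x v =>
  ⟨(H s hs x v).1.trans (add_le_add le_rfl (W_mono hα hαβ s v)),
    (H s hs x v).2.trans (add_le_add le_rfl (W_mono hα hαβ s v))⟩

/-- `l` is admissible for backgrounds of size `M`. -/
structure Wt.Adm (G : Coll) (M l : ℝ) : Prop where
  M0 : 0 ≤ M
  l0 : 0 < l
  loss : G.R (P.b / 2) * P.M2 G M / l ≤ 1 / 4
  gain : 2 * M * G.R (P.b / 2) * th l P.κ ≤ 1 / 4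

theorem th_tendsto {κ : ℝ} (hκ : 0 < κ) : Tendsto (fun l => th l κ) atTop (𝓝 0) := by
  unfold th
  have h1 : Tendsto (fun l : ℝ => 1 / l) atTop (𝓝 0) := by
    simpa using tendsto_inv_atTop_zero
  have h2 : Tendsto (fun l : ℝ => 2 * Real.sqrt (l * κ)) atTop atTop := by
    refine Tendsto.const_mul_atTop (by norm_num) ?_
    refine Real.tendsto_sqrt_atTop.comp ?_
    exact tendsto_id.atTop_mul_const hκ
  have h3 : Tendsto (fun l : ℝ => 1 / (2 * Real.sqrt (l * κ))) atTop (𝓝 0) := by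
    simp only [one_div]
    exact tendsto_inv_atTop_zero.comp h2
  simpa using h1.add h3

theorem Wt.exists_adm (G : Coll) {M : ℝ} (hM : 0 ≤ M) : ∃ l, P.Adm G M l := by
  have h1 : Tendsto (fun l : ℝ => G.R (P.b / 2) * P.M2 G M / l) atTop (𝓝 0) :=
    tendsto_const_nhds.div_atTop tendsto_id
  have h2 : Tendsto (fun l : ℝ => 2 * M * G.R (P.b / 2) * th l P.κ) atTop (𝓝 0) := by
    simpa using (th_tendsto P.hκ).const_mul (2 * M * G.R (P.b / 2))
  have e1 : ∀ᶠ l in atTop, G.R (P.b / 2) * P.M2 G M / l ≤ 1 / 4 :=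
    h1.eventually (ge_mem_nhds (by norm_num))
  have e2 : ∀ᶠ l in atTop, 2 * M * G.R (P.b / 2) * th l P.κ ≤ 1 / 4 :=
    h2.eventually (ge_mem_nhds (by norm_num))
  obtain ⟨l, h3, h4, h5⟩ := ((eventually_gt_atTop (0 : ℝ)).and (e1.and e2)).exists
  exact ⟨l, hM, h3, h4, h5⟩

/-- Contraction, both sums being bounded. -/
theorem Wt.contract (mh : JM h) (mk : JM k) {M l α : ℝ} (A : P.Adm G M l)
    (hα : 0 ≤ α) (h0 : P.Dat f₀) (L : ℕ) (hB : P.Close l α h k)
    (bh : ∀ d < L, ∀ s ∈ Icc 0 P.T, ∀ x v, G.Psi f₀ m₀ d h mh s x v ≤ P.bg M s v)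
    (bk : ∀ d < L, ∀ s ∈ Icc 0 P.T, ∀ x v, G.Psi f₀ m₀ d k mk s x v ≤ P.bg M s v) :
    ∀ d ≤ L, P.Close l (α / 3) (G.Psi f₀ m₀ d h mh) (G.Psi f₀ m₀ d k mk) := by
  intro d
  induction d with
  | zero =>
    intro _ s _ x v
    simp [Coll.Psi_zero]
  | succ d ih =>
    intro hd s hs x v
    have hd' : d < L := hd
    have ih' := ih hd'.le
    have hcoef : G.R (P.b / 2) * P.M2 G M / l * α +
        2 * M * G.R (P.b / 2) * th l P.κ * (α / 3) ≤ α / 3 := by
      have h1 := mul_le_mul_of_nonneg_right A.loss hα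
      have h2 := mul_le_mul_of_nonneg_right A.gain (show 0 ≤ α / 3 by positivity)
      linarith
    have hpos : 0 ≤ G.R (P.b / 2) * P.M2 G M / l * α +
        2 * M * G.R (P.b / 2) * th l P.κ * (α / 3) := by
      have := G.R_nonneg (P.b / 2)
      have := P.M2_nonneg (G := G) (M := M)
      have := A.l0
      have := A.M0
      have := th_nonneg (κ := P.κ) A.l0
      positivity
    constructor
    · refine (P.diff_step mh mk A.M0 A.l0 hα (by positivity) h0 d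
        (fun s hs x v => (hB s hs x v).2) (bh d hd') (bk d hd')
        (fun s hs x v => (ih' s hs x v).1) hs x v).trans ?_
      exact add_le_add le_rfl (W_mono hpos hcoef s v)
    · refine (P.diff_step mk mh A.M0 A.l0 hα (by positivity) h0 d
        (fun s hs x v => (hB s hs x v).1) (bk d hd') (bh d hd')
        (fun s hs x v => (ih' s hs x v).2) hs x v).trans ?_
      exact add_le_add le_rfl (W_mono hpos hcoef s v)

theorem Wt.W_le_bg {l α s : ℝ} (hl : 0 < l) (hα : 0 ≤ α) (hs : s ∈ Icc 0 P.T)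
    (h : α * Real.exp (l * P.T) ≤ 1) (v : E3) : W l P.κ P.b α s v ≤ P.bg 1 s v := by
  refine gs_mono (by positivity) ?_ le_rfl v
  refine le_trans ?_ h
  gcongr
  exact hs.2

/-- Contraction near a bounded reference function. -/
theorem Wt.ball (mh : JM h) (mk : JM k) {M M₁ l α : ℝ} (A : P.Adm G M l) (hM₁ : 0 ≤ M₁)
    (hM : M₁ + 1 ≤ M) (hα : 0 ≤ α) (hαT : α * Real.exp (l * P.T) ≤ 1) (h0 : P.Dat f₀)
    (hB : P.Close l α h k)
    (bk : ∀ d, ∀ s ∈ Icc 0 P.T, ∀ x v, G.Psi f₀ m₀ d k mk s x v ≤ P.bg M₁ s v) (d : ℕ) :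
    P.Close l (α / 3) (G.Psi f₀ m₀ d h mh) (G.Psi f₀ m₀ d k mk) ∧
      ∀ s ∈ Icc 0 P.T, ∀ x v, G.Psi f₀ m₀ d h mh s x v ≤ P.bg (M₁ + 1) s v := by
  have hbg : ∀ M M' s v, 0 ≤ M → M ≤ M' → P.bg M s v ≤ P.bg M' s v := fun M M' s v h1 h2 =>
    gs_mono h1 h2 le_rfl v
  have key : ∀ d, P.Close l (α / 3) (G.Psi f₀ m₀ d h mh) (G.Psi f₀ m₀ d k mk) →
      ∀ s ∈ Icc 0 P.T, ∀ x v, G.Psi f₀ m₀ d h mh s x v ≤ P.bg (M₁ + 1) s v := by
    intro d hc s hs x v
    refine (hc s hs x v).1.trans ((add_le_add (bk d s hs x v)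
      ((W_mono (by positivity) (by linarith : α / 3 ≤ α) s v).trans
      (P.W_le_bg A.l0 hα hs hαT v))).trans ?_)
    unfold Wt.bg gs
    rw [← ENNReal.ofReal_add (by positivity) (by positivity)]
    apply ENNReal.ofReal_le_ofReal
    apply le_of_eq
    ring
  have main : ∀ d, P.Close l (α / 3) (G.Psi f₀ m₀ d h mh) (G.Psi f₀ m₀ d k mk) := by
    intro d
    induction d using Nat.strong_induction_on with
    | _ d ih =>
      exact P.contract mh mk A hα h0 d hB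
        (fun e he s hs x v => (key e (ih e he) s hs x v).trans (hbg _ _ _ _ (by linarith) hM))
        (fun e he s hs x v => (bk e s hs x v).trans (hbg _ _ _ _ hM₁ (by linarith))) d le_rfl
  exact ⟨main d, key d (main d)⟩

end Vale.Agent.P119.KE
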