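import Vale.Agent.P119.KE.Creation

/-! Closed systems of Volterra inequalities, without any regularity of the unknowns and without
absorption: the unknowns on the right-hand side may be those of the next stopping level. -/

open MeasureTheory Filter Topology Set
open scoped ENNReal NNReal

noncomputable section

namespace Vale.Agent.P119.KE

theorem setLIntegral_exp_le {l t : ℝ} (hl : 0 < l) :
    ∫⁻ s in Icc 0 t, ENNReal.ofReal (Real.exp (l * s)) ≤
      ENNReal.ofReal (1 / l * Real.exp (l * t)) := by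
  rcases lt_or_ge t 0 with ht | ht
  · rw [Icc_eq_empty (by linarith)]
    simp
  · have hint : IntegrableOn (fun s => Real.exp (l * s)) (Icc 0 t) :=
      (Continuous.integrableOn_Icc (by fun_prop))
    rw [← ofReal_integral_eq_lintegral_ofReal hint (ae_of_all _ fun s => by positivity)]
    apply ENNReal.ofReal_le_ofReal
    rw [integral_Icc_eq_integral_Ioc, ← intervalIntegral.integral_of_le ht]
    have h1 : ∫ s in (0 : ℝ)..t, Real.exp (l * s) = l⁻¹ * (Real.exp (l * t) - Real.exp (l * 0)) := by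
      rw [intervalIntegral.integral_comp_mul_left (fun s => Real.exp s) hl.ne']
      simp
    rw [h1, mul_zero, Real.exp_zero, one_div]
    have : 0 < l⁻¹ := by positivity
    nlinarith

/-- **Closed chain of Volterra inequalities.** `X i` is the unknown at the `i`-th stopping level.
No measurability, no absorption. -/
theorem closed_chain {T A κ B M l : ℝ} (hA : 0 ≤ A) (hκ : 0 ≤ κ) (hB : 0 ≤ B) (hM : 0 ≤ M)
    (hl : 0 < l) (hlk : A / l + κ ≤ 1 / 2) {X : ℕ → ℝ → ℝ≥0∞} {n : ℕ}
    (h : ∀ i < n, ∀ t ∈ Icc 0 T, X i t ≤ ENNReal.ofReal B +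
      ENNReal.ofReal A * (∫⁻ s in Icc 0 t, X (i + 1) s) + ENNReal.ofReal κ * X (i + 1) t)
    (hn : ∀ t ∈ Icc 0 T, X n t ≤ ENNReal.ofReal M) {i : ℕ} (hi : i ≤ n) :
    ∀ t ∈ Icc 0 T, X i t ≤
      ENNReal.ofReal ((2 * B + (1 / 2) ^ (n - i) * M) * Real.exp (l * t)) := by
  obtain ⟨k, rfl⟩ := Nat.exists_eq_add_of_le hi
  induction k generalizing i with
  | zero =>
    intro t ht
    refine (hn t ht).trans (ENNReal.ofReal_le_ofReal ?_)
    simp only [add_zero, tsub_self, pow_zero, one_mul]
    have h1 : 1 ≤ Real.exp (l * t) := Real.one_le_exp (mul_nonneg hl.le ht.1)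
    nlinarith
  | succ k ih =>
    intro t ht
    have ih' := ih (i := i + 1) (by rw [show i + 1 + k = i + (k + 1) by ring]; exact h)
      (by rw [show i + 1 + k = i + (k + 1) by ring]; exact hn) (by omega)
    rw [show i + 1 + k - (i + 1) = k by omega] at ih'
    rw [show i + (k + 1) - i = k + 1 by omega]
    obtain ⟨S, hS⟩ : ∃ S, S = 2 * B + (1 / 2) ^ k * M := ⟨_, rfl⟩
    rw [← hS] at ih'
    have hS0 : 0 ≤ S := by rw [hS]; positivity
    have h1 : ∫⁻ s in Icc 0 t, X (i + 1) s ≤
        ENNReal.ofReal S * ENNReal.ofReal (1 / l * Real.exp (l * t)) := by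
      calc ∫⁻ s in Icc 0 t, X (i + 1) s
          ≤ ∫⁻ s in Icc 0 t, ENNReal.ofReal S * ENNReal.ofReal (Real.exp (l * s)) := by
            refine setLIntegral_mono (by fun_prop) fun s hs => ?_
            rw [← ENNReal.ofReal_mul hS0]
            exact ih' s ⟨hs.1, hs.2.trans ht.2⟩
        _ = ENNReal.ofReal S * ∫⁻ s in Icc 0 t, ENNReal.ofReal (Real.exp (l * s)) :=
            lintegral_const_mul' _ _ ENNReal.ofReal_ne_top
        _ ≤ _ := by
            gcongr
            exact setLIntegral_exp_le hl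
    refine (h i (by omega) t ht).trans ?_
    calc ENNReal.ofReal B + ENNReal.ofReal A * (∫⁻ s in Icc 0 t, X (i + 1) s) +
          ENNReal.ofReal κ * X (i + 1) t
        ≤ ENNReal.ofReal B + ENNReal.ofReal A *
          (ENNReal.ofReal S * ENNReal.ofReal (1 / l * Real.exp (l * t))) +
          ENNReal.ofReal κ * ENNReal.ofReal (S * Real.exp (l * t)) := by
          gcongr
          exact ih' t ht
      _ = ENNReal.ofReal (B + A * (S * (1 / l * Real.exp (l * t))) +
          κ * (S * Real.exp (l * t))) := by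
          rw [← ENNReal.ofReal_mul hS0, ← ENNReal.ofReal_mul hA, ← ENNReal.ofReal_mul hκ,
            ← ENNReal.ofReal_add hB (by positivity), ← ENNReal.ofReal_add (by positivity)
              (by positivity)]
      _ ≤ _ := by
          apply ENNReal.ofReal_le_ofReal
          have h2 : 1 ≤ Real.exp (l * t) := Real.one_le_exp (mul_nonneg hl.le ht.1)
          have h3 : A * (S * (1 / l * Real.exp (l * t))) + κ * (S * Real.exp (l * t)) =
              (A / l + κ) * (S * Real.exp (l * t)) := by ring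
          have h4 : (A / l + κ) * (S * Real.exp (l * t)) ≤ 1 / 2 * (S * Real.exp (l * t)) := by
            gcongr
          have h5 : B ≤ B * Real.exp (l * t) := by nlinarith
          have h6 : (2 * B + (1 / 2) ^ (k + 1) * M) * Real.exp (l * t) =
              B * Real.exp (l * t) + 1 / 2 * (S * Real.exp (l * t)) := by
            rw [hS, pow_succ]
            ring
          rw [add_assoc, h3, h6]
          exact add_le_add h5 h4

/-- Gronwall's inequality for a bounded function, without measurability. -/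
theorem gronwall_bdd {T A κ B M l : ℝ} (hA : 0 ≤ A) (hκ : 0 ≤ κ) (hB : 0 ≤ B) (hM : 0 ≤ M)
    (hl : 0 < l) (hlk : A / l + κ ≤ 1 / 2) {X : ℝ → ℝ≥0∞}
    (h : ∀ t ∈ Icc 0 T, X t ≤ ENNReal.ofReal B +
      ENNReal.ofReal A * (∫⁻ s in Icc 0 t, X s) + ENNReal.ofReal κ * X t)
    (hn : ∀ t ∈ Icc 0 T, X t ≤ ENNReal.ofReal M) :
    ∀ t ∈ Icc 0 T, X t ≤ ENNReal.ofReal (2 * B * Real.exp (l * t)) := by
  intro t ht
  have h1 : ∀ n : ℕ, X t ≤
      ENNReal.ofReal ((2 * B + (1 / 2) ^ n * M) * Real.exp (l * t)) := fun n => by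
    have := closed_chain hA hκ hB hM hl hlk (X := fun _ => X) (n := n) (T := T)
      (fun i _ => h) hn (i := 0) (Nat.zero_le n) t ht
    simpa using this
  have h2 : Tendsto (fun n : ℕ =>
      ENNReal.ofReal ((2 * B + (1 / 2) ^ n * M) * Real.exp (l * t))) atTop
      (𝓝 (ENNReal.ofReal ((2 * B + 0 * M) * Real.exp (l * t)))) := by
    apply ENNReal.tendsto_ofReal
    refine Tendsto.mul_const _ (tendsto_const_nhds.add (Tendsto.mul_const _ ?_))
    exact tendsto_pow_atTop_nhds_zero_of_lt_one (by norm_num) (by norm_num)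
  have h3 := ge_of_tendsto' h2 h1
  simpa using h3

/-- **The closed system of the feedback block.** `D` contaminated density, `Θ` touch probability
of a fresh line, `F` felt density; the index is the stopping level. All constants `C` must be
uniform in the truncation, only `κ` and `c` may depend on it. -/
theorem closed_system {T C κ c M : ℝ} (hC : 0 ≤ C) (hκ : 0 ≤ κ) (hc : 0 ≤ c) (hM : 0 ≤ M)
    (hκC : κ * (96 * (C + 1)) ≤ 1) {D Θ F : ℕ → ℝ → ℝ≥0∞} {n : ℕ}
    (hΘ : ∀ i < n, ∀ t ∈ Icc 0 T, Θ i t ≤ ENNReal.ofReal c +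
      ENNReal.ofReal C * (∫⁻ s in Icc 0 t, (D (i + 1) s + F (i + 1) s)) +
      ENNReal.ofReal κ * (D (i + 1) t + Θ (i + 1) t + F (i + 1) t))
    (hF : ∀ i < n, ∀ t ∈ Icc 0 T, F i t ≤ ENNReal.ofReal c + ENNReal.ofReal C * Θ (i + 1) t +
      ENNReal.ofReal κ * (D (i + 1) t + Θ (i + 1) t + F (i + 1) t))
    (hD : ∀ i < n, ∀ t ∈ Icc 0 T, D i t ≤ ENNReal.ofReal c +
      ENNReal.ofReal C * (∫⁻ s in Icc 0 t, (D (i + 1) s + Θ (i + 1) s)) +
      ENNReal.ofReal κ * (D (i + 1) t + Θ (i + 1) t + F (i + 1) t))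
    (bD : ∀ t ∈ Icc 0 T, D n t ≤ ENNReal.ofReal M) (bΘ : ∀ t ∈ Icc 0 T, Θ n t ≤ ENNReal.ofReal M)
    (bF : ∀ t ∈ Icc 0 T, F n t ≤ ENNReal.ofReal M) :
    ∀ t ∈ Icc 0 T, D 0 t + Θ 0 t ≤
      ENNReal.ofReal ((6 * c + (1 / 2) ^ n * (3 * M)) * Real.exp (64 * (C + 1) ^ 2 * t)) := by
  obtain ⟨w, hw⟩ : ∃ w, w = 1 / (4 * (C + 1)) := ⟨_, rfl⟩
  have hw0 : 0 < w := by rw [hw]; positivity
  have hw1 : w ≤ 1 := by
    rw [hw, div_le_one (by positivity)]
    linarith
  have hwC : w * C ≤ 1 / 4 := by
    rw [hw, div_mul_eq_mul_div, div_le_iff₀ (by positivity)]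
    linarith
  have hwi : 1 / w = 4 * (C + 1) := by rw [hw, one_div_one_div]
  obtain ⟨X, hX⟩ : ∃ X : ℕ → ℝ → ℝ≥0∞, ∀ i t, X i t = D i t + Θ i t + ENNReal.ofReal w * F i t :=
    ⟨_, fun _ _ => rfl⟩
  -- all the unknowns are controlled by `X / w`
  have hall : ∀ i t, D i t + Θ i t + F i t ≤ ENNReal.ofReal (4 * (C + 1)) * X i t := by
    intro i t
    have h1 : (1 : ℝ≥0∞) ≤ ENNReal.ofReal (4 * (C + 1)) := by
      rw [ENNReal.one_le_ofReal]; linarith
    have h2 : ENNReal.ofReal (4 * (C + 1)) * (ENNReal.ofReal w * F i t) = F i t := by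
      rw [← mul_assoc, ← ENNReal.ofReal_mul (by positivity), ← hwi, one_div,
        inv_mul_cancel₀ hw0.ne', ENNReal.ofReal_one, one_mul]
    rw [hX, mul_add, h2]
    gcongr
    exact le_mul_of_one_le_left zero_le h1
  have hstep : ∀ i < n, ∀ t ∈ Icc 0 T, X i t ≤ ENNReal.ofReal (3 * c) +
      ENNReal.ofReal (8 * (C + 1) ^ 2) * (∫⁻ s in Icc 0 t, X (i + 1) s) +
      ENNReal.ofReal (1 / 4 + 12 * (C + 1) * κ) * X (i + 1) t := by
    intro i hi t ht
    obtain ⟨R, hR⟩ : ∃ R, R = ENNReal.ofReal κ * (D (i + 1) t + Θ (i + 1) t + F (i + 1) t) :=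
      ⟨_, rfl⟩
    have hRle : R ≤ ENNReal.ofReal (4 * (C + 1) * κ) * X (i + 1) t := by
      rw [hR]
      calc _ ≤ ENNReal.ofReal κ * (ENNReal.ofReal (4 * (C + 1)) * X (i + 1) t) :=
            mul_le_mul_right (hall _ _) _
        _ = _ := by
            rw [← mul_assoc, ← ENNReal.ofReal_mul hκ, mul_comm κ]
    have h1 := hD i hi t ht
    have h2 := hΘ i hi t ht
    have h3 := hF i hi t ht
    rw [← hR] at h1 h2 h3
    have hI1 : ∫⁻ s in Icc 0 t, (D (i + 1) s + Θ (i + 1) s) ≤
        ENNReal.ofReal (4 * (C + 1)) * ∫⁻ s in Icc 0 t, X (i + 1) s := by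
      rw [← lintegral_const_mul' _ _ ENNReal.ofReal_ne_top]
      exact lintegral_mono fun s => le_self_add.trans (hall (i + 1) s)
    have hI2 : ∫⁻ s in Icc 0 t, (D (i + 1) s + F (i + 1) s) ≤
        ENNReal.ofReal (4 * (C + 1)) * ∫⁻ s in Icc 0 t, X (i + 1) s := by
      rw [← lintegral_const_mul' _ _ ENNReal.ofReal_ne_top]
      refine lintegral_mono fun s => le_trans ?_ (hall (i + 1) s)
      gcongr
      exact le_self_add
    have hI : ENNReal.ofReal C * (ENNReal.ofReal (4 * (C + 1)) * ∫⁻ s in Icc 0 t, X (i + 1) s) ≤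
        ENNReal.ofReal (4 * (C + 1) ^ 2) * ∫⁻ s in Icc 0 t, X (i + 1) s := by
      rw [← mul_assoc, ← ENNReal.ofReal_mul hC]
      exact mul_le_mul_left (ENNReal.ofReal_le_ofReal (by nlinarith)) _
    have h3' : ENNReal.ofReal w * F i t ≤ ENNReal.ofReal c + ENNReal.ofReal (1 / 4) * X (i + 1) t
        + R := by
      calc ENNReal.ofReal w * F i t
          ≤ ENNReal.ofReal w * (ENNReal.ofReal c + ENNReal.ofReal C * Θ (i + 1) t + R) :=
            mul_le_mul_right h3 _
        _ = ENNReal.ofReal w * ENNReal.ofReal c + ENNReal.ofReal (w * C) * Θ (i + 1) t +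
            ENNReal.ofReal w * R := by
            rw [ENNReal.ofReal_mul hw0.le]
            ring
        _ ≤ 1 * ENNReal.ofReal c + ENNReal.ofReal (1 / 4) * X (i + 1) t + 1 * R := by
            have hw1' : ENNReal.ofReal w ≤ 1 := by
              rw [ENNReal.ofReal_le_one]; exact hw1
            gcongr
            rw [hX]
            exact le_add_right (le_add_left le_rfl)
        _ = _ := by rw [one_mul, one_mul]
    rw [hX]
    calc D i t + Θ i t + ENNReal.ofReal w * F i t
        ≤ (ENNReal.ofReal c + ENNReal.ofReal (4 * (C + 1) ^ 2) * (∫⁻ s in Icc 0 t, X (i + 1) s)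
            + R) +
          (ENNReal.ofReal c + ENNReal.ofReal (4 * (C + 1) ^ 2) * (∫⁻ s in Icc 0 t, X (i + 1) s)
            + R) +
          (ENNReal.ofReal c + ENNReal.ofReal (1 / 4) * X (i + 1) t + R) := by
          refine add_le_add (add_le_add (h1.trans ?_) (h2.trans ?_)) h3'
          · exact add_le_add (add_le_add le_rfl ((mul_le_mul_right hI1 _).trans hI)) le_rfl
          · exact add_le_add (add_le_add le_rfl ((mul_le_mul_right hI2 _).trans hI)) le_rfl
      _ = (ENNReal.ofReal c + ENNReal.ofReal c + ENNReal.ofReal c) +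
          (ENNReal.ofReal (4 * (C + 1) ^ 2) + ENNReal.ofReal (4 * (C + 1) ^ 2)) *
            (∫⁻ s in Icc 0 t, X (i + 1) s) +
          (ENNReal.ofReal (1 / 4) * X (i + 1) t + (R + R + R)) := by ring
      _ ≤ (ENNReal.ofReal c + ENNReal.ofReal c + ENNReal.ofReal c) +
          (ENNReal.ofReal (4 * (C + 1) ^ 2) + ENNReal.ofReal (4 * (C + 1) ^ 2)) *
            (∫⁻ s in Icc 0 t, X (i + 1) s) +
          (ENNReal.ofReal (1 / 4) * X (i + 1) t +
            (ENNReal.ofReal (4 * (C + 1) * κ) * X (i + 1) t +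
            ENNReal.ofReal (4 * (C + 1) * κ) * X (i + 1) t +
            ENNReal.ofReal (4 * (C + 1) * κ) * X (i + 1) t)) := by gcongr
      _ = _ := by
          have q1 : ENNReal.ofReal c + ENNReal.ofReal c + ENNReal.ofReal c =
              ENNReal.ofReal (3 * c) := by
            rw [← ENNReal.ofReal_add hc hc, ← ENNReal.ofReal_add (by positivity) hc]
            congr 1
            ring
          have q2 : ENNReal.ofReal (4 * (C + 1) ^ 2) + ENNReal.ofReal (4 * (C + 1) ^ 2) =
              ENNReal.ofReal (8 * (C + 1) ^ 2) := by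
            rw [← ENNReal.ofReal_add (by positivity) (by positivity)]
            congr 1
            ring
          have q3 : ENNReal.ofReal (1 / 4 + 12 * (C + 1) * κ) = ENNReal.ofReal (1 / 4) +
              (ENNReal.ofReal (4 * (C + 1) * κ) + ENNReal.ofReal (4 * (C + 1) * κ) +
                ENNReal.ofReal (4 * (C + 1) * κ)) := by
            rw [← ENNReal.ofReal_add (by positivity) (by positivity),
              ← ENNReal.ofReal_add (by positivity) (by positivity),
              ← ENNReal.ofReal_add (by positivity) (by positivity)]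
            congr 1
            ring
          rw [q1, q2, q3]
          ring
  have hbd : ∀ t ∈ Icc 0 T, X n t ≤ ENNReal.ofReal (3 * M) := by
    intro t ht
    rw [hX]
    have hw1' : ENNReal.ofReal w ≤ 1 := by
      rw [ENNReal.ofReal_le_one]; exact hw1
    calc D n t + Θ n t + ENNReal.ofReal w * F n t
        ≤ ENNReal.ofReal M + ENNReal.ofReal M + 1 * ENNReal.ofReal M := by
          gcongr
          · exact bD t ht
          · exact bΘ t ht
          · exact bF t ht
      _ = _ := by
          rw [one_mul, ← ENNReal.ofReal_add hM hM, ← ENNReal.ofReal_add (by positivity) hM]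
          congr 1
          ring
  intro t ht
  have hfin := closed_chain (A := 8 * (C + 1) ^ 2) (κ := 1 / 4 + 12 * (C + 1) * κ) (B := 3 * c)
    (M := 3 * M) (l := 64 * (C + 1) ^ 2) (by positivity) (by positivity) (by positivity)
    (by positivity) (by positivity) ?_ hstep hbd (i := 0) (Nat.zero_le n) t ht
  · refine le_trans ?_ (hfin.trans (ENNReal.ofReal_le_ofReal (le_of_eq ?_)))
    · rw [hX]
      exact le_self_add
    · rw [Nat.sub_zero]
      ring
  · have h8 : 8 * (C + 1) ^ 2 / (64 * (C + 1) ^ 2) = 1 / 8 := by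
      have : (C + 1) ^ 2 ≠ 0 := by positivity
      field_simp
      norm_num
    rw [h8]
    nlinarith

end Vale.Agent.P119.KE
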