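import Vale.Agent.P119.KE.Damp

/-! Dependence of the depth-truncated gain sums on the damping: one step estimate in the
time dependent Gaussian weights `exp(λ t) exp(-(b - κ t)|v|²)`. -/

open MeasureTheory Filter Topology Set ProbabilityTheory
open scoped ENNReal NNReal

noncomputable section

namespace Vale.Agent.P119.KE

/-- Time dependent weights. -/
def W (l κ b α t : ℝ) (v : E3) : ℝ≥0∞ := gs (α * Real.exp (l * t)) (b - κ * t) v

theorem lintegral_exp_Ioc {c t : ℝ} (hc : 0 < c) (ht : 0 ≤ t) :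
    ∫⁻ s in Ioc 0 t, ENNReal.ofReal (Real.exp (c * s)) ≤
      ENNReal.ofReal (Real.exp (c * t) / c) := by
  have h1 : ∫ s in (0 : ℝ)..t, Real.exp (c * s) = (Real.exp (c * t) - 1) / c := by
    rw [intervalIntegral.integral_comp_mul_left (f := fun x => Real.exp x) hc.ne']
    simp [integral_exp, div_eq_inv_mul]
  have h2 : ∫⁻ s in Ioc 0 t, ENNReal.ofReal (Real.exp (c * s)) =
      ENNReal.ofReal ((Real.exp (c * t) - 1) / c) := by
    rw [← h1, intervalIntegral.integral_of_le ht, ofReal_integral_eq_lintegral_ofReal]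
    · have : Continuous fun s : ℝ => Real.exp (c * s) := by fun_prop
      exact (this.integrableOn_Icc).mono_set Ioc_subset_Icc_self
    · exact Eventually.of_forall fun s => (Real.exp_pos _).le
  rw [h2]
  apply ENNReal.ofReal_le_ofReal
  gcongr
  linarith

theorem frac_le {l κ r : ℝ} (hl : 0 < l) (hκ : 0 < κ) (_hr : 0 ≤ r) :
    (1 + r) / (l + κ * r ^ 2) ≤ 1 / l + 1 / (2 * Real.sqrt (l * κ)) := by
  have hs : 0 < Real.sqrt (l * κ) := Real.sqrt_pos.2 (mul_pos hl hκ)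
  have hd : 0 < l + κ * r ^ 2 := by positivity
  rw [add_div]
  refine add_le_add ?_ ?_
  · rw [div_le_div_iff₀ hd hl]
    nlinarith [mul_nonneg hκ.le (sq_nonneg r)]
  · rw [div_le_div_iff₀ hd (by positivity)]
    have h1 : Real.sqrt (l * κ) ^ 2 = l * κ := Real.sq_sqrt (by positivity)
    have h2 : Real.sqrt (l * κ) = Real.sqrt l * Real.sqrt κ := Real.sqrt_mul hl.le _
    have h3 : Real.sqrt l ^ 2 = l := Real.sq_sqrt hl.le
    have h4 : Real.sqrt κ ^ 2 = κ := Real.sq_sqrt hκ.le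
    rw [h2]
    nlinarith [sq_nonneg (Real.sqrt l - Real.sqrt κ * r)]

/-- The constant of the linear terms. -/
def th (l κ : ℝ) : ℝ := 1 / l + 1 / (2 * Real.sqrt (l * κ))

theorem th_nonneg {l κ : ℝ} (hl : 0 < l) : 0 ≤ th l κ := by unfold th; positivity

theorem time1 {l κ b r t : ℝ} (hl : 0 < l) (hκ : 0 < κ) (hr : 0 ≤ r) (ht : 0 ≤ t) :
    ∫⁻ s in Ioc 0 t, ENNReal.ofReal ((1 + r) * Real.exp (l * s) *
        Real.exp (-(b - κ * s) * r ^ 2)) ≤
      ENNReal.ofReal (th l κ * (Real.exp (l * t) * Real.exp (-(b - κ * t) * r ^ 2))) := by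
  have hc : 0 < l + κ * r ^ 2 := by positivity
  have e1 : ∀ s : ℝ, ENNReal.ofReal ((1 + r) * Real.exp (l * s) *
        Real.exp (-(b - κ * s) * r ^ 2)) = ENNReal.ofReal ((1 + r) * Real.exp (-b * r ^ 2)) *
          ENNReal.ofReal (Real.exp ((l + κ * r ^ 2) * s)) := by
    intro s
    rw [← ENNReal.ofReal_mul (by positivity)]
    congr 1
    rw [mul_assoc, mul_assoc, ← Real.exp_add, ← Real.exp_add]
    ring_nf
  simp_rw [e1]
  rw [lintegral_const_mul _ (by fun_prop)]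
  refine (mul_le_mul_right (lintegral_exp_Ioc hc ht) _).trans ?_
  rw [← ENNReal.ofReal_mul (by positivity)]
  apply ENNReal.ofReal_le_ofReal
  have h2 := frac_le hl hκ hr
  calc (1 + r) * Real.exp (-b * r ^ 2) * (Real.exp ((l + κ * r ^ 2) * t) / (l + κ * r ^ 2))
      = (1 + r) / (l + κ * r ^ 2) * (Real.exp (-b * r ^ 2) * Real.exp ((l + κ * r ^ 2) * t)) := by
        ring
    _ ≤ th l κ * (Real.exp (-b * r ^ 2) * Real.exp ((l + κ * r ^ 2) * t)) := by
        unfold th; gcongr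
    _ = _ := by
        rw [← Real.exp_add, ← Real.exp_add]
        ring_nf

theorem time3 {κ b r t T : ℝ} (hκ : 0 < κ) (hr : 0 ≤ r) (ht : 0 ≤ t) (hT : t ≤ T) :
    ∫⁻ s in Ioc 0 t, ENNReal.ofReal ((1 + r) ^ 2 * Real.exp (-(b - κ * s) * r ^ 2)) ≤
      ENNReal.ofReal (4 * (T + 1 / κ) * Real.exp (-(b - κ * t) * r ^ 2)) := by
  have hT0 : 0 ≤ T := ht.trans hT
  by_cases h1 : r ≤ 1
  · -- crude bound
    have e1 : ∀ s ∈ Ioc 0 t, ENNReal.ofReal ((1 + r) ^ 2 * Real.exp (-(b - κ * s) * r ^ 2)) ≤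
        ENNReal.ofReal (4 * Real.exp (-(b - κ * t) * r ^ 2)) := by
      intro s hs
      apply ENNReal.ofReal_le_ofReal
      have h2 : (1 + r) ^ 2 ≤ 4 := by nlinarith
      have h3 : Real.exp (-(b - κ * s) * r ^ 2) ≤ Real.exp (-(b - κ * t) * r ^ 2) := by
        apply Real.exp_le_exp.2
        have := mul_nonneg (mul_nonneg hκ.le (sub_nonneg.2 hs.2)) (sq_nonneg r)
        nlinarith
      exact mul_le_mul h2 h3 (Real.exp_pos _).le (by norm_num)
    refine (setLIntegral_mono' measurableSet_Ioc e1).trans ?_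
    rw [setLIntegral_const, Real.volume_Ioc, sub_zero, ← ENNReal.ofReal_mul (by positivity)]
    apply ENNReal.ofReal_le_ofReal
    have : 0 ≤ 1 / κ := by positivity
    calc 4 * Real.exp (-(b - κ * t) * r ^ 2) * t
        ≤ 4 * Real.exp (-(b - κ * t) * r ^ 2) * (T + 1 / κ) := by gcongr; linarith
      _ = _ := by ring
  · push Not at h1
    have hc : 0 < κ * r ^ 2 := by positivity
    have e1 : ∀ s : ℝ, ENNReal.ofReal ((1 + r) ^ 2 * Real.exp (-(b - κ * s) * r ^ 2)) =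
        ENNReal.ofReal ((1 + r) ^ 2 * Real.exp (-b * r ^ 2)) *
          ENNReal.ofReal (Real.exp ((κ * r ^ 2) * s)) := by
      intro s
      rw [← ENNReal.ofReal_mul (by positivity)]
      congr 1
      rw [mul_assoc, ← Real.exp_add]
      ring_nf
    simp_rw [e1]
    rw [lintegral_const_mul _ (by fun_prop)]
    refine (mul_le_mul_right (lintegral_exp_Ioc hc ht) _).trans ?_
    rw [← ENNReal.ofReal_mul (by positivity)]
    apply ENNReal.ofReal_le_ofReal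
    have h2 : (1 + r) ^ 2 / (κ * r ^ 2) ≤ 4 * (T + 1 / κ) := by
      have h3 : (1 + r) ^ 2 / (κ * r ^ 2) ≤ 4 / κ := by
        rw [div_le_div_iff₀ hc hκ]
        have h4 : (1 + r) ^ 2 ≤ 4 * r ^ 2 := by nlinarith
        nlinarith
      have h5 : 4 / κ = 4 * (1 / κ) := by ring
      rw [h5] at h3
      nlinarith
    calc (1 + r) ^ 2 * Real.exp (-b * r ^ 2) * (Real.exp (κ * r ^ 2 * t) / (κ * r ^ 2))
        = (1 + r) ^ 2 / (κ * r ^ 2) * (Real.exp (-b * r ^ 2) * Real.exp (κ * r ^ 2 * t)) := by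
          ring
      _ ≤ 4 * (T + 1 / κ) * (Real.exp (-b * r ^ 2) * Real.exp (κ * r ^ 2 * t)) := by gcongr
      _ = _ := by
          rw [← Real.exp_add]
          ring_nf

variable (G : Coll)

/-- Fixed parameters of the estimates. -/
structure Wt where
  T : ℝ
  b : ℝ
  κ : ℝ
  C : ℝ
  hT : 0 ≤ T
  hb : 0 < b
  hκ : 0 < κ
  hκT : κ * T ≤ b / 2
  hC : 0 ≤ C

variable {G} (P : Wt)

theorem Wt.bs {s : ℝ} (hs : s ∈ Icc 0 P.T) : P.b / 2 ≤ P.b - P.κ * s := by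
  have := mul_le_mul_of_nonneg_left hs.2 P.hκ.le
  linarith [P.hκT]

theorem Wt.bs_pos {s : ℝ} (hs : s ∈ Icc 0 P.T) : 0 < P.b - P.κ * s := by
  have := P.bs hs
  linarith [P.hb]

theorem Wt.bs_le {s : ℝ} (hs : s ∈ Icc 0 P.T) : P.b - P.κ * s ≤ P.b := by
  have := mul_nonneg P.hκ.le hs.1
  linarith

/-- The background at time `s`. -/
def Wt.bg (M s : ℝ) (v : E3) : ℝ≥0∞ := gs M (P.b - P.κ * s) v

theorem Wt.Q_bound {M l α : ℝ} (hM : 0 ≤ M) (hα : 0 ≤ α) {s : ℝ} (hs : s ∈ Icc 0 P.T) (v : E3) :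
    G.Q (W l P.κ P.b α s) (P.bg M s) v + G.Q (P.bg M s) (W l P.κ P.b α s) v ≤
      ENNReal.ofReal (2 * M * G.R (P.b / 2) * α) *
        ENNReal.ofReal ((1 + ‖v‖) * Real.exp (l * s) * Real.exp (-(P.b - P.κ * s) * ‖v‖ ^ 2)) := by
  have h1 := G.Q_gs (a := α * Real.exp (l * s)) (a' := M) (b := P.b - P.κ * s)
    (by positivity) hM (P.bs_pos hs) v
  have h2 := G.Q_gs (a := M) (a' := α * Real.exp (l * s)) (b := P.b - P.κ * s)
    hM (by positivity) (P.bs_pos hs) v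
  unfold W Wt.bg
  refine (add_le_add h1 h2).trans ?_
  have hR0 := G.R_nonneg (P.b - P.κ * s)
  have hR1 := G.R_nonneg (P.b / 2)
  have hR : G.R (P.b - P.κ * s) ≤ G.R (P.b / 2) := G.R_anti _ _ (by linarith [P.hb]) (P.bs hs)
  rw [← ENNReal.ofReal_add (by positivity) (by positivity), ← ENNReal.ofReal_mul (by positivity)]
  apply ENNReal.ofReal_le_ofReal
  calc α * Real.exp (l * s) * M * G.R (P.b - P.κ * s) * (1 + ‖v‖) *
        Real.exp (-(P.b - P.κ * s) * ‖v‖ ^ 2) +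
      M * (α * Real.exp (l * s)) * G.R (P.b - P.κ * s) * (1 + ‖v‖) *
        Real.exp (-(P.b - P.κ * s) * ‖v‖ ^ 2)
      = 2 * M * G.R (P.b - P.κ * s) * α * ((1 + ‖v‖) * Real.exp (l * s) *
        Real.exp (-(P.b - P.κ * s) * ‖v‖ ^ 2)) := by ring
    _ ≤ 2 * M * G.R (P.b / 2) * α * ((1 + ‖v‖) * Real.exp (l * s) *
        Real.exp (-(P.b - P.κ * s) * ‖v‖ ^ 2)) := by gcongr

/-- The gain part of the one step estimate. -/
theorem Wt.gain_part {M l α : ℝ} (hM : 0 ≤ M) (hα : 0 ≤ α) (hl : 0 < l) {t : ℝ}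
    (ht : t ∈ Icc 0 P.T) (v : E3) :
    ∫⁻ s in Ioc 0 t, (G.Q (W l P.κ P.b α s) (P.bg M s) v +
        G.Q (P.bg M s) (W l P.κ P.b α s) v) ≤
      W l P.κ P.b (2 * M * G.R (P.b / 2) * th l P.κ * α) t v := by
  have hR1 := G.R_nonneg (P.b / 2)
  have hth := th_nonneg (κ := P.κ) hl
  calc ∫⁻ s in Ioc 0 t, (G.Q (W l P.κ P.b α s) (P.bg M s) v +
        G.Q (P.bg M s) (W l P.κ P.b α s) v)
      ≤ ∫⁻ s in Ioc 0 t, ENNReal.ofReal (2 * M * G.R (P.b / 2) * α) *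
        ENNReal.ofReal ((1 + ‖v‖) * Real.exp (l * s) * Real.exp (-(P.b - P.κ * s) * ‖v‖ ^ 2)) :=
        setLIntegral_mono' measurableSet_Ioc fun s hs =>
          P.Q_bound hM hα ⟨hs.1.le, hs.2.trans ht.2⟩ v
    _ = ENNReal.ofReal (2 * M * G.R (P.b / 2) * α) * ∫⁻ s in Ioc 0 t,
        ENNReal.ofReal ((1 + ‖v‖) * Real.exp (l * s) * Real.exp (-(P.b - P.κ * s) * ‖v‖ ^ 2)) :=
        lintegral_const_mul _ (by fun_prop)
    _ ≤ ENNReal.ofReal (2 * M * G.R (P.b / 2) * α) *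
        ENNReal.ofReal (th l P.κ * (Real.exp (l * t) * Real.exp (-(P.b - P.κ * t) * ‖v‖ ^ 2))) :=
        mul_le_mul_right (time1 hl P.hκ (norm_nonneg v) ht.1) _
    _ = _ := by
        unfold W gs
        rw [← ENNReal.ofReal_mul (by positivity)]
        congr 1
        ring

/-- The bracket in the loss part. -/
def Wt.M2 (G : Coll) (M : ℝ) : ℝ :=
  P.C + M ^ 2 * G.R (P.b / 2) * (4 * (P.T + 1 / P.κ))

theorem Wt.M2_nonneg {M : ℝ} : 0 ≤ P.M2 G M := by
  unfold Wt.M2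
  have := G.R_nonneg (P.b / 2)
  have := P.hC
  have := P.hT
  have := P.hκ
  positivity

/-- The datum: `(1 + |v|) f₀ ≤ C e^{-b|v|²}`. -/
def Wt.Dat (f₀ : E3 → E3 → ℝ≥0∞) : Prop :=
  ∀ x v, ENNReal.ofReal (1 + ‖v‖) * f₀ x v ≤ gs P.C P.b v

theorem Wt.bracket {M : ℝ} (hM : 0 ≤ M) {f₀ : E3 → E3 → ℝ≥0∞} (h0 : P.Dat f₀) {t : ℝ}
    (ht : t ∈ Icc 0 P.T) (x v : E3) :
    ENNReal.ofReal (1 + ‖v‖) * (f₀ x v + ∫⁻ s in Ioc 0 t, G.Q (P.bg M s) (P.bg M s) v) ≤
      P.bg (P.M2 G M) t v := by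
  have hR1 := G.R_nonneg (P.b / 2)
  rw [mul_add]
  have h1 : ENNReal.ofReal (1 + ‖v‖) * f₀ x v ≤ gs P.C (P.b - P.κ * t) v :=
    (h0 x v).trans (gs_mono P.hC le_rfl (P.bs_le ht) v)
  have h2 : ENNReal.ofReal (1 + ‖v‖) * ∫⁻ s in Ioc 0 t, G.Q (P.bg M s) (P.bg M s) v ≤
      gs (M ^ 2 * G.R (P.b / 2) * (4 * (P.T + 1 / P.κ))) (P.b - P.κ * t) v := by
    have h3 : ∀ s ∈ Ioc 0 t, G.Q (P.bg M s) (P.bg M s) v ≤
        ENNReal.ofReal (M ^ 2 * G.R (P.b / 2)) *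
          ENNReal.ofReal ((1 + ‖v‖) * Real.exp (-(P.b - P.κ * s) * ‖v‖ ^ 2)) := by
      intro s hs
      have hs' : s ∈ Icc 0 P.T := ⟨hs.1.le, hs.2.trans ht.2⟩
      have h4 := G.Q_gs (a := M) (a' := M) (b := P.b - P.κ * s) hM hM (P.bs_pos hs') v
      refine h4.trans ?_
      have hR : G.R (P.b - P.κ * s) ≤ G.R (P.b / 2) :=
        G.R_anti _ _ (by linarith [P.hb]) (P.bs hs')
      rw [← ENNReal.ofReal_mul (by positivity)]
      apply ENNReal.ofReal_le_ofReal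
      calc M * M * G.R (P.b - P.κ * s) * (1 + ‖v‖) * Real.exp (-(P.b - P.κ * s) * ‖v‖ ^ 2)
          ≤ M * M * G.R (P.b / 2) * (1 + ‖v‖) * Real.exp (-(P.b - P.κ * s) * ‖v‖ ^ 2) := by
            gcongr
        _ = _ := by ring
    calc ENNReal.ofReal (1 + ‖v‖) * ∫⁻ s in Ioc 0 t, G.Q (P.bg M s) (P.bg M s) v
        ≤ ENNReal.ofReal (1 + ‖v‖) * ∫⁻ s in Ioc 0 t, ENNReal.ofReal (M ^ 2 * G.R (P.b / 2)) *
          ENNReal.ofReal ((1 + ‖v‖) * Real.exp (-(P.b - P.κ * s) * ‖v‖ ^ 2)) :=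
          mul_le_mul_right (setLIntegral_mono' measurableSet_Ioc h3) _
      _ = ENNReal.ofReal (M ^ 2 * G.R (P.b / 2)) * ∫⁻ s in Ioc 0 t,
          ENNReal.ofReal ((1 + ‖v‖) ^ 2 * Real.exp (-(P.b - P.κ * s) * ‖v‖ ^ 2)) := by
          rw [lintegral_const_mul _ (by fun_prop), ← mul_assoc, mul_comm (ENNReal.ofReal (1 + ‖v‖)),
            mul_assoc, ← lintegral_const_mul _ (by fun_prop)]
          congr 1
          refine lintegral_congr fun s => ?_
          rw [← ENNReal.ofReal_mul (by positivity)]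
          congr 1
          ring
      _ ≤ ENNReal.ofReal (M ^ 2 * G.R (P.b / 2)) *
          ENNReal.ofReal (4 * (P.T + 1 / P.κ) * Real.exp (-(P.b - P.κ * t) * ‖v‖ ^ 2)) :=
          mul_le_mul_right (time3 P.hκ (norm_nonneg v) ht.1 ht.2) _
      _ = _ := by
          unfold gs
          rw [← ENNReal.ofReal_mul (by positivity)]
          congr 1
          ring
  refine (add_le_add h1 h2).trans ?_
  unfold Wt.bg Wt.M2 gs
  have h5 := P.hC
  have h6 := P.hT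
  have h7 := P.hκ
  rw [← ENNReal.ofReal_add (by positivity) (by positivity)]
  apply ENNReal.ofReal_le_ofReal
  apply le_of_eq
  ring

/-- The loss part of the one step estimate. -/
theorem Wt.loss_part {M l α : ℝ} (hM : 0 ≤ M) (hα : 0 ≤ α) (hl : 0 < l)
    {f₀ : E3 → E3 → ℝ≥0∞} (h0 : P.Dat f₀) {t : ℝ} (ht : t ∈ Icc 0 P.T) (x v : E3) :
    (∫⁻ s in Ioc 0 t, G.nu (W l P.κ P.b α s) v) *
      (f₀ x v + ∫⁻ s in Ioc 0 t, G.Q (P.bg M s) (P.bg M s) v) ≤
      W l P.κ P.b (G.R (P.b / 2) * P.M2 G M / l * α) t v := by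
  have hR1 := G.R_nonneg (P.b / 2)
  have h1 : ∫⁻ s in Ioc 0 t, G.nu (W l P.κ P.b α s) v ≤
      ENNReal.ofReal (G.R (P.b / 2) * α * (Real.exp (l * t) / l)) *
        ENNReal.ofReal (1 + ‖v‖) := by
    calc ∫⁻ s in Ioc 0 t, G.nu (W l P.κ P.b α s) v
        ≤ ∫⁻ s in Ioc 0 t, ENNReal.ofReal (G.R (P.b / 2) * α * (1 + ‖v‖)) *
            ENNReal.ofReal (Real.exp (l * s)) := by
          refine setLIntegral_mono' measurableSet_Ioc fun s hs => ?_
          have hs' : s ∈ Icc 0 P.T := ⟨hs.1.le, hs.2.trans ht.2⟩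
          refine (G.nu_gs (a := α * Real.exp (l * s)) (by positivity) (P.bs_pos hs') v).trans ?_
          rw [← ENNReal.ofReal_mul (by positivity)]
          apply ENNReal.ofReal_le_ofReal
          have hR : G.R (P.b - P.κ * s) ≤ G.R (P.b / 2) :=
            G.R_anti _ _ (by linarith [P.hb]) (P.bs hs')
          calc α * Real.exp (l * s) * (G.R (P.b - P.κ * s) * (1 + ‖v‖))
              ≤ α * Real.exp (l * s) * (G.R (P.b / 2) * (1 + ‖v‖)) := by gcongr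
            _ = _ := by ring
      _ = ENNReal.ofReal (G.R (P.b / 2) * α * (1 + ‖v‖)) *
            ∫⁻ s in Ioc 0 t, ENNReal.ofReal (Real.exp (l * s)) :=
          lintegral_const_mul _ (by fun_prop)
      _ ≤ ENNReal.ofReal (G.R (P.b / 2) * α * (1 + ‖v‖)) *
            ENNReal.ofReal (Real.exp (l * t) / l) :=
          mul_le_mul_right (lintegral_exp_Ioc hl ht.1) _
      _ = _ := by
          rw [← ENNReal.ofReal_mul (by positivity), ← ENNReal.ofReal_mul (by positivity)]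
          congr 1
          ring
  calc (∫⁻ s in Ioc 0 t, G.nu (W l P.κ P.b α s) v) *
      (f₀ x v + ∫⁻ s in Ioc 0 t, G.Q (P.bg M s) (P.bg M s) v)
      ≤ (ENNReal.ofReal (G.R (P.b / 2) * α * (Real.exp (l * t) / l)) *
        ENNReal.ofReal (1 + ‖v‖)) *
        (f₀ x v + ∫⁻ s in Ioc 0 t, G.Q (P.bg M s) (P.bg M s) v) := mul_le_mul_left h1 _
    _ = ENNReal.ofReal (G.R (P.b / 2) * α * (Real.exp (l * t) / l)) *
        (ENNReal.ofReal (1 + ‖v‖) *
        (f₀ x v + ∫⁻ s in Ioc 0 t, G.Q (P.bg M s) (P.bg M s) v)) := by rw [mul_assoc]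
    _ ≤ ENNReal.ofReal (G.R (P.b / 2) * α * (Real.exp (l * t) / l)) * P.bg (P.M2 G M) t v :=
        mul_le_mul_right (P.bracket hM h0 ht x v) _
    _ = _ := by
        unfold Wt.bg W gs
        rw [← ENNReal.ofReal_mul (by positivity)]
        congr 1
        ring

end Vale.Agent.P119.KE
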