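import Vale.Agent.P119.KE.Creation
import Vale.Agent.P119.KE.Datum

/-! Products of densities and the final `L¹` argument. -/

open MeasureTheory Filter Topology Set ProbabilityTheory
open scoped ENNReal NNReal

noncomputable section

namespace Vale.Agent.P119.KE

section Products

variable {P : Type*} [MeasureSpace P] [SigmaFinite (volume : Measure P)]

theorem lintegral_cons {n : ℕ} (F : (Fin (n + 1) → P) → ℝ≥0∞) :
    ∫⁻ Z, F Z = ∫⁻ p : P × (Fin n → P), F (Fin.cons p.1 p.2) := by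
  rw [← ((volume_preserving_piFinSuccAbove (fun _ : Fin (n + 1) => P) 0).symm).lintegral_comp_emb
    (MeasurableEquiv.measurableEmbedding _)]
  refine lintegral_congr fun p => ?_
  simp [MeasurableEquiv.piFinSuccAbove_symm_apply, Fin.insertNthEquiv]

omit [SigmaFinite (volume : Measure P)] in
theorem measurable_prod_fin {n : ℕ} {f : P → ℝ≥0∞} (mf : Measurable f) :
    Measurable fun Z : Fin n → P => ∏ k, f (Z k) :=
  Finset.measurable_prod _ fun k _ => mf.comp (measurable_pi_apply k)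

theorem lintegral_prod_fin {n : ℕ} {f : P → ℝ≥0∞} (mf : Measurable f) :
    ∫⁻ Z : Fin n → P, ∏ k, f (Z k) = (∫⁻ z, f z) ^ n := by
  induction n with
  | zero =>
    simp only [Finset.univ_eq_empty, Finset.prod_empty, pow_zero, lintegral_const, one_mul]
    rw [volume_pi, Measure.pi_empty_univ]
  | succ n ih =>
    rw [lintegral_cons, Measure.volume_eq_prod]
    simp only [Fin.prod_univ_succ, Fin.cons_zero, Fin.cons_succ]
    rw [lintegral_prod_mul (f := f) (g := fun Z : Fin n → P => ∏ k, f (Z k)) mf.aemeasurable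
      (measurable_prod_fin mf).aemeasurable, ih, pow_succ, mul_comm]

theorem mul_tsub_mul_le (a A b B : ℝ≥0∞) : a * A - b * B ≤ (a - b) * A + b * (A - B) := by
  rw [tsub_le_iff_right]
  calc a * A ≤ ((a - b) + b) * A := mul_le_mul_left le_tsub_add _
    _ = (a - b) * A + b * A := add_mul _ _ _
    _ ≤ (a - b) * A + b * ((A - B) + B) := by
        gcongr
        exact le_tsub_add
    _ = _ := by ring

theorem lintegral_prod_tsub_le {n : ℕ} {f u : P → ℝ≥0∞} (mf : Measurable f) (mu : Measurable u)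
    {A : ℝ≥0∞} (hf : ∫⁻ z, f z ≤ A) (hu : ∫⁻ z, u z ≤ A) :
    ∫⁻ Z : Fin n → P, (∏ k, f (Z k) - ∏ k, u (Z k)) ≤ n * A ^ (n - 1) * ∫⁻ z, (f z - u z) := by
  induction n with
  | zero => simp
  | succ n ih =>
    rw [lintegral_cons, Measure.volume_eq_prod]
    simp only [Fin.prod_univ_succ, Fin.cons_zero, Fin.cons_succ]
    have mF : Measurable fun Z : Fin n → P => ∏ k, f (Z k) := measurable_prod_fin mf
    have mU : Measurable fun Z : Fin n → P => ∏ k, u (Z k) := measurable_prod_fin mu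
    calc ∫⁻ p : P × (Fin n → P), (f p.1 * ∏ k, f (p.2 k) - u p.1 * ∏ k, u (p.2 k))
          ∂(volume.prod volume)
        ≤ ∫⁻ p : P × (Fin n → P), ((f p.1 - u p.1) * ∏ k, f (p.2 k) +
          u p.1 * (∏ k, f (p.2 k) - ∏ k, u (p.2 k))) ∂(volume.prod volume) :=
          lintegral_mono fun p => mul_tsub_mul_le _ _ _ _
      _ = (∫⁻ p : P × (Fin n → P), (f p.1 - u p.1) * ∏ k, f (p.2 k) ∂(volume.prod volume)) +
          ∫⁻ p : P × (Fin n → P), u p.1 * (∏ k, f (p.2 k) - ∏ k, u (p.2 k))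
            ∂(volume.prod volume) := by
          refine lintegral_add_left ?_ _
          exact ((mf.comp measurable_fst).sub (mu.comp measurable_fst)).mul
            (mF.comp measurable_snd)
      _ = (∫⁻ z, (f z - u z)) * (∫⁻ z, f z) ^ n +
          (∫⁻ z, u z) * ∫⁻ Z : Fin n → P, (∏ k, f (Z k) - ∏ k, u (Z k)) := by
          rw [lintegral_prod_mul (f := fun z => f z - u z) (g := fun Z : Fin n → P =>
              ∏ k, f (Z k)) (mf.sub mu).aemeasurable mF.aemeasurable,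
            lintegral_prod_mul (f := u) (g := fun Z : Fin n → P => ∏ k, f (Z k) - ∏ k, u (Z k))
              mu.aemeasurable (mF.sub mU).aemeasurable, lintegral_prod_fin mf]
      _ ≤ (∫⁻ z, (f z - u z)) * A ^ n + A * (n * A ^ (n - 1) * ∫⁻ z, (f z - u z)) := by
          gcongr
      _ = (A ^ n + n * (A * A ^ (n - 1))) * ∫⁻ z, (f z - u z) := by ring
      _ = _ := by
          congr 1
          rcases n with _ | n
          · simp
          · rw [Nat.add_sub_cancel, ← pow_succ']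
            simp only [Nat.add_sub_cancel]
            push_cast
            ring

end Products

/-! ## Masses -/

theorem lintegral_ph_le {h : E3 → E3 → ℝ≥0∞} (mh : Measurable fun p : E3 × E3 => h p.1 p.2)
    {a b : ℝ} (ha : 0 ≤ a) (hb : 0 < b) (H : ∀ v, ∫⁻ x, h x v ≤ gs a b v) :
    ∫⁻ z : Ph, h z.1 z.2 ≤ ENNReal.ofReal (a * (Real.pi / b) ^ (3 / 2 : ℝ)) := by
  rw [Measure.volume_eq_prod, lintegral_prod_symm' _ mh, ← lintegral_gs ha hb]
  exact lintegral_mono H

/-! ## The `L¹` argument -/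

section Scheffe

variable {P : Type*} [MeasureSpace P]

theorem l1_le_of_lower {F G : P → ℝ} (hF : Integrable F) (hG : Integrable G) :
    ∫⁻ z, ‖F z - G z‖ₑ ≤ ENNReal.ofReal ((∫ z, F z) - ∫ z, G z) +
      2 * ∫⁻ z, ENNReal.ofReal (G z - F z) := by
  have hpos : Integrable fun z => max (G z - F z) 0 := (hG.sub hF).pos_part
  have hsub : Integrable fun z => F z - G z := hF.sub hG
  have h1 : ∫⁻ z, ‖F z - G z‖ₑ = ENNReal.ofReal (∫ z, ‖F z - G z‖) := by
    rw [ofReal_integral_eq_lintegral_ofReal hsub.norm (ae_of_all _ fun z => norm_nonneg _)]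
    exact lintegral_congr fun z => (ofReal_norm _).symm
  have h2 : ∫⁻ z, ENNReal.ofReal (G z - F z) = ENNReal.ofReal (∫ z, max (G z - F z) 0) := by
    rw [ofReal_integral_eq_lintegral_ofReal hpos (ae_of_all _ fun z => le_max_right _ _)]
    refine lintegral_congr fun z => ?_
    rcases le_total (G z - F z) 0 with h | h
    · rw [max_eq_right h, ENNReal.ofReal_of_nonpos h, ENNReal.ofReal_zero]
    · rw [max_eq_left h]
  have h3 : ∫ z, ‖F z - G z‖ = ((∫ z, F z) - ∫ z, G z) + 2 * ∫ z, max (G z - F z) 0 := by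
    rw [← integral_sub hF hG, ← integral_const_mul, ← integral_add hsub
      (hpos.const_mul 2)]
    refine integral_congr_ae (ae_of_all _ fun z => ?_)
    simp only [Real.norm_eq_abs]
    rcases le_total (G z - F z) 0 with h | h
    · rw [max_eq_right h, abs_of_nonneg (by linarith)]
      ring
    · rw [max_eq_left h, abs_of_nonpos (by linarith)]
      ring
  have h4 : 0 ≤ ∫ z, max (G z - F z) 0 := integral_nonneg fun z => le_max_right _ _
  rw [h1, h2, h3]
  have h5 : ENNReal.ofReal (2 * ∫ z, max (G z - F z) 0) =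
      2 * ENNReal.ofReal (∫ z, max (G z - F z) 0) := by
    rw [ENNReal.ofReal_mul (by norm_num)]
    norm_num
  rw [← h5]
  exact ENNReal.ofReal_add_le

theorem tendsto_l1_of_lower {F : ℝ → ℝ → P → ℝ} {g : ℝ → P → ℝ} {T : ℝ}
    (hF : ∀ ε ∈ Ioo (0 : ℝ) 1, ∀ t ∈ Icc 0 T, Integrable (F ε t))
    (hg : ∀ t ∈ Icc 0 T, Integrable (g t)) (hg1 : ∀ t ∈ Icc 0 T, ∫ z, g t z = 1)
    {m : ℝ → ℝ} (hm : ∀ ε ∈ Ioo (0 : ℝ) 1, ∀ t ∈ Icc 0 T, ∫ z, F ε t z ≤ m ε)
    (hm1 : Tendsto m (𝓝[>] 0) (𝓝 1))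
    (hlow : ∀ δ : ℝ, 0 < δ → ∀ᶠ ε in 𝓝[>] (0 : ℝ), ∀ t ∈ Icc 0 T,
      ∫⁻ z, ENNReal.ofReal (g t z - F ε t z) ≤ ENNReal.ofReal δ) :
    Tendsto (fun ε => ⨆ t ∈ Icc 0 T, ∫⁻ z, ‖F ε t z - g t z‖ₑ) (𝓝[>] 0) (𝓝 0) := by
  rw [ENNReal.tendsto_nhds_zero]
  intro η hη
  obtain ⟨δ, hδ0, hδ⟩ : ∃ δ : ℝ, 0 < δ ∧ ENNReal.ofReal (3 * δ) ≤ η := by
    rcases eq_or_ne η ∞ with rfl | hη'
    · exact ⟨1, one_pos, le_top⟩
    · refine ⟨η.toReal / 3, div_pos (ENNReal.toReal_pos hη.ne' hη') (by norm_num), ?_⟩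
      rw [mul_div_cancel₀ _ (by norm_num), ENNReal.ofReal_toReal hη']
  have h1 : ∀ᶠ ε in 𝓝[>] (0 : ℝ), ε ∈ Ioo (0 : ℝ) 1 := Ioo_mem_nhdsGT one_pos
  have h2 : ∀ᶠ ε in 𝓝[>] (0 : ℝ), m ε < 1 + δ := hm1.eventually_lt_const (by linarith)
  filter_upwards [h1, h2, hlow δ hδ0] with ε hε hmε hl
  refine iSup₂_le fun t ht => ?_
  refine (l1_le_of_lower (hF ε hε t ht) (hg t ht)).trans ?_
  have h3 : ENNReal.ofReal ((∫ z, F ε t z) - ∫ z, g t z) ≤ ENNReal.ofReal δ := by
    apply ENNReal.ofReal_le_ofReal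
    rw [hg1 t ht]
    have := hm ε hε t ht
    linarith
  refine le_trans ?_ hδ
  calc ENNReal.ofReal ((∫ z, F ε t z) - ∫ z, g t z) +
        2 * ∫⁻ z, ENNReal.ofReal (g t z - F ε t z)
      ≤ ENNReal.ofReal δ + 2 * ENNReal.ofReal δ := by
        gcongr
        exact hl t ht
    _ = ENNReal.ofReal (3 * δ) := by
        rw [show (2 : ℝ≥0∞) = ENNReal.ofReal 2 by norm_num, ← ENNReal.ofReal_mul (by norm_num),
          ← ENNReal.ofReal_add hδ0.le (by positivity)]
        congr 1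
        ring

theorem tsub_chain (a b c : ℝ≥0∞) : a - c ≤ (a - b) + (b - c) := by
  rw [tsub_le_iff_right]
  calc a ≤ (a - b) + b := le_tsub_add
    _ ≤ (a - b) + ((b - c) + c) := by
        gcongr
        exact le_tsub_add
    _ = _ := by ring

end Scheffe

end Vale.Agent.P119.KE
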