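import Vale.Agent.P119.KE.Ball

/-! The density of the gas truncated by depth: existence, uniform bounds, closeness to the
Boltzmann solution, and convergence of the alternating iterates. -/

open MeasureTheory Filter Topology Set ProbabilityTheory
open scoped ENNReal NNReal

noncomputable section

namespace Vale.Agent.P119.KE

variable {G : Coll} (P : Wt) {f₀ : E3 → E3 → ℝ≥0∞} {m₀ : Measurable fun p : E3 × E3 => f₀ p.1 p.2}

/-- Densities with their measurability. -/
def Dn := {h : ℝ → E3 → E3 → ℝ≥0∞ // JM h}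

/-- The damping map on bundled densities. -/
def Coll.PsiB (G : Coll) (f₀ : E3 → E3 → ℝ≥0∞) (m₀ : Measurable fun p : E3 × E3 => f₀ p.1 p.2)
    (L : ℕ) (h : Dn) : Dn := ⟨G.Psi f₀ m₀ L h.1 h.2, Coll.jm_Psi L h.2⟩

theorem W_tendsto {l κ b : ℝ} {a : ℕ → ℝ} (ha : Tendsto a atTop (𝓝 0)) (s : ℝ) (v : E3) :
    Tendsto (fun n => W l κ b (a n) s v) atTop (𝓝 0) := by
  unfold W
  apply gs_tendsto_zero
  simpa using ha.mul_const (Real.exp (l * s))

/-- A sequence with geometrically small increments has a limit. -/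
theorem Wt.exists_limit {l α : ℝ} (hα : 0 ≤ α) (u : ℕ → Dn)
    (hu : ∀ n, P.Close l (α * (1 / 3) ^ n) (u n).1 (u (n + 1)).1) :
    ∃ w : Dn, ∀ n, P.Close l (3 / 2 * α * (1 / 3) ^ n) w.1 (u n).1 := by
  -- upper envelopes
  have mW : ∀ n, JM fun s x v => (u n).1 s x v + W l P.κ P.b (3 / 2 * α * (1 / 3) ^ n) s v := by
    intro n
    exact Measurable.add (u n).2 ((jm2_W l P.κ P.b _).comp
      (f := fun p : ℝ × E3 × E3 => (p.1, p.2.2)) (by fun_prop))
  set w : ℝ → E3 → E3 → ℝ≥0∞ := fun s x v =>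
    ⨅ n, ((u n).1 s x v + W l P.κ P.b (3 / 2 * α * (1 / 3) ^ n) s v) with hw
  have mw : JM w := Measurable.iInf fun n => mW n
  refine ⟨⟨w, mw⟩, fun n s hs x v => ⟨?_, ?_⟩⟩
  · exact iInf_le (fun n => (u n).1 s x v + W l P.κ P.b (3 / 2 * α * (1 / 3) ^ n) s v) n
  · -- `u n ≤ u i + W (3/2 α 3^-i) + W (3/2 α 3^-n)` for all `i`
    have h1 : ∀ i, (u n).1 s x v ≤ ((u i).1 s x v + W l P.κ P.b (3 / 2 * α * (1 / 3) ^ i) s v) +
        W l P.κ P.b (3 / 2 * α * (1 / 3) ^ n) s v := by
      -- forward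
      have hf : ∀ m k, (u m).1 s x v ≤ (u (m + k)).1 s x v +
          W l P.κ P.b (3 / 2 * α * ((1 / 3) ^ m - (1 / 3) ^ (m + k))) s v := by
        intro m k
        induction k with
        | zero => simp
        | succ k ih =>
          have h2 := (hu (m + k) s hs x v).1
          calc (u m).1 s x v ≤ (u (m + k)).1 s x v +
                W l P.κ P.b (3 / 2 * α * ((1 / 3) ^ m - (1 / 3) ^ (m + k))) s v := ih
            _ ≤ ((u (m + k + 1)).1 s x v + W l P.κ P.b (α * (1 / 3) ^ (m + k)) s v) +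
                W l P.κ P.b (3 / 2 * α * ((1 / 3) ^ m - (1 / 3) ^ (m + k))) s v :=
                add_le_add h2 le_rfl
            _ = _ := by
                rw [add_assoc, W_add (by positivity)]
                · congr 2
                  rw [← add_assoc m k 1, pow_succ _ (m + k)]
                  ring
                · have : (1 / 3 : ℝ) ^ (m + k) ≤ (1 / 3) ^ m :=
                    pow_le_pow_of_le_one (by norm_num) (by norm_num) (by omega)
                  have := sub_nonneg.2 this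
                  positivity
      have hb : ∀ m k, (u (m + k)).1 s x v ≤ (u m).1 s x v +
          W l P.κ P.b (3 / 2 * α * ((1 / 3) ^ m - (1 / 3) ^ (m + k))) s v := by
        intro m k
        induction k with
        | zero => simp
        | succ k ih =>
          have h2 := (hu (m + k) s hs x v).2
          calc (u (m + (k + 1))).1 s x v ≤ (u (m + k)).1 s x v +
                W l P.κ P.b (α * (1 / 3) ^ (m + k)) s v := h2
            _ ≤ ((u m).1 s x v + W l P.κ P.b (3 / 2 * α * ((1 / 3) ^ m - (1 / 3) ^ (m + k))) s v) +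
                W l P.κ P.b (α * (1 / 3) ^ (m + k)) s v := add_le_add ih le_rfl
            _ = _ := by
                rw [add_assoc, W_add]
                · congr 2
                  rw [← add_assoc m k 1, pow_succ _ (m + k)]
                  ring
                · have : (1 / 3 : ℝ) ^ (m + k) ≤ (1 / 3) ^ m :=
                    pow_le_pow_of_le_one (by norm_num) (by norm_num) (by omega)
                  have := sub_nonneg.2 this
                  positivity
                · positivity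
      intro i
      rcases le_total n i with h | h
      · obtain ⟨k, rfl⟩ := Nat.exists_eq_add_of_le h
        refine (hf n k).trans ?_
        rw [add_assoc]
        refine add_le_add le_rfl ?_
        refine le_trans (W_mono ?_ ?_ s v) le_add_self
        · have : (1 / 3 : ℝ) ^ (n + k) ≤ (1 / 3) ^ n :=
            pow_le_pow_of_le_one (by norm_num) (by norm_num) (by omega)
          have := sub_nonneg.2 this
          positivity
        · have : 0 ≤ 3 / 2 * α * (1 / 3 : ℝ) ^ (n + k) := by positivity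
          nlinarith
      · obtain ⟨k, rfl⟩ := Nat.exists_eq_add_of_le h
        refine (hb i k).trans ?_
        rw [add_assoc]
        refine add_le_add le_rfl ?_
        refine le_trans (W_mono ?_ ?_ s v) le_self_add
        · have : (1 / 3 : ℝ) ^ (i + k) ≤ (1 / 3) ^ i :=
            pow_le_pow_of_le_one (by norm_num) (by norm_num) (by omega)
          have := sub_nonneg.2 this
          positivity
        · have : 0 ≤ 3 / 2 * α * (1 / 3 : ℝ) ^ (i + k) := by positivity
          nlinarith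
    change (u n).1 s x v ≤ (⨅ n, ((u n).1 s x v + W l P.κ P.b (3 / 2 * α * (1 / 3) ^ n) s v)) +
      W l P.κ P.b (3 / 2 * α * (1 / 3) ^ n) s v
    rw [ENNReal.iInf_add]
    exact le_iInf h1

theorem Wt.eq_of_close {l : ℝ} {h k : ℝ → E3 → E3 → ℝ≥0∞} {a : ℕ → ℝ}
    (ha : Tendsto a atTop (𝓝 0)) (H : ∀ n, P.Close l (a n) h k) :
    ∀ s ∈ Icc 0 P.T, ∀ x v, h s x v = k s x v := by
  intro s hs x v
  have h1 : Tendsto (fun n => k s x v + W l P.κ P.b (a n) s v) atTop (𝓝 (k s x v + 0)) :=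
    tendsto_const_nhds.add (W_tendsto ha s v)
  have h2 : Tendsto (fun n => h s x v + W l P.κ P.b (a n) s v) atTop (𝓝 (h s x v + 0)) :=
    tendsto_const_nhds.add (W_tendsto ha s v)
  rw [add_zero] at h1 h2
  exact le_antisymm (ge_of_tendsto' h1 fun n => (H n s hs x v).1)
    (ge_of_tendsto' h2 fun n => (H n s hs x v).2)

/-- Existence of the truncated density near the Boltzmann solution. `ρ` bounds the remainder
`f - F_L` in the weighted norm. -/
theorem Wt.exists_fixed {f : ℝ → E3 → E3 → ℝ≥0∞} (mf : JM f) (h0 : P.Dat f₀) {M₁ M l ρ : ℝ}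
    (A : P.Adm G M l) (hM₁ : 0 ≤ M₁) (hM : M₁ + 2 ≤ M) (L : ℕ)
    (bf : ∀ d, ∀ s ∈ Icc 0 P.T, ∀ x v, G.Psi f₀ m₀ d f mf s x v ≤ P.bg M₁ s v)
    (hρ : 0 ≤ ρ) (hρT : 3 / 2 * ρ * Real.exp (l * P.T) ≤ 1)
    (hf : P.Close l ρ (G.Psi f₀ m₀ L f mf) f) :
    ∃ u : Dn, (∀ s ∈ Icc 0 P.T, ∀ x v, G.Psi f₀ m₀ L u.1 u.2 s x v = u.1 s x v) ∧
      P.Close l (3 / 2 * ρ) u.1 f ∧
      (∀ d, P.Close l (ρ / 2) (G.Psi f₀ m₀ d u.1 u.2) (G.Psi f₀ m₀ d f mf)) ∧
      ∀ d, ∀ s ∈ Icc 0 P.T, ∀ x v, G.Psi f₀ m₀ d u.1 u.2 s x v ≤ P.bg (M₁ + 1) s v := by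
  set z : ℕ → Dn := fun n => (G.PsiB f₀ m₀ L)^[n] ⟨f, mf⟩ with hz
  have hz0 : z 0 = ⟨f, mf⟩ := rfl
  have hzs : ∀ n, z (n + 1) = G.PsiB f₀ m₀ L (z n) := fun n =>
    Function.iterate_succ_apply' _ _ _
  set α : ℝ := 3 / 2 * ρ with hα
  have hα0 : 0 ≤ α := by positivity
  have hM' : M₁ + 1 ≤ M := by linarith
  -- all iterates stay in the ball
  have hball : ∀ n, P.Close l α (z n).1 f := by
    intro n
    induction n with
    | zero =>
      intro s _ x v
      rw [hz0]
      exact ⟨le_self_add, le_self_add⟩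
    | succ n ih =>
      rw [hzs n]
      have h1 := (P.ball (G := G) (m₀ := m₀) (z n).2 mf A hM₁ hM' hα0 hρT h0 ih bf L).1
      have h2 := h1.trans P (by positivity) hρ hf
      have e1 : α / 3 + ρ = α := by rw [hα]; ring
      rw [e1] at h2
      exact h2
  have hbz : ∀ n d, ∀ s ∈ Icc 0 P.T, ∀ x v,
      G.Psi f₀ m₀ d (z n).1 (z n).2 s x v ≤ P.bg (M₁ + 1) s v := fun n d =>
    (P.ball (G := G) (m₀ := m₀) (z n).2 mf A hM₁ hM' hα0 hρT h0 (hball n) bf d).2
  have hinc : ∀ n, P.Close l (α * (1 / 3) ^ n) (z n).1 (z (n + 1)).1 := by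
    intro n
    induction n with
    | zero =>
      rw [pow_zero, mul_one, hzs 0, hz0]
      exact (hf.symm P).mono P hρ (by rw [hα]; linarith)
    | succ n ih =>
      rw [hzs (n + 1)]
      have h1 : (z (n + 1)).1 = G.Psi f₀ m₀ L (z n).1 (z n).2 := by rw [hzs n]; rfl
      have h2 : (1 / 3 : ℝ) ^ n ≤ 1 := pow_le_one₀ (by norm_num) (by norm_num)
      have h3 := (P.ball (G := G) (m₀ := m₀) (z n).2 (z (n + 1)).2 A (by linarith) (by linarith)
        (by positivity) (by
          calc α * (1 / 3) ^ n * Real.exp (l * P.T) ≤ α * 1 * Real.exp (l * P.T) := by gcongr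
            _ ≤ 1 := by rw [mul_one]; exact hρT) h0 ih (hbz (n + 1)) L).1
      rw [h1]
      have e1 : α * (1 / 3) ^ n / 3 = α * (1 / 3) ^ (n + 1) := by rw [pow_succ]; ring
      rw [e1] at h3
      exact h3
  obtain ⟨u, hu⟩ := P.exists_limit hα0 z hinc
  -- closeness of `u` to `f`
  have huf : ∀ n, P.Close l (3 / 2 * α * (1 / 3) ^ n + α) u.1 f := fun n =>
    (hu n).trans P (by positivity) hα0 (hball n)
  have huf' : P.Close l α u.1 f := by
    intro s hs x v
    have hlim : Tendsto (fun n : ℕ => 3 / 2 * α * (1 / 3 : ℝ) ^ n + α) atTop (𝓝 (0 + α)) := by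
      refine Tendsto.add ?_ tendsto_const_nhds
      have := (tendsto_pow_atTop_nhds_zero_of_lt_one (r := (1 / 3 : ℝ)) (by norm_num)
        (by norm_num)).const_mul (3 / 2 * α)
      simpa using this
    rw [zero_add] at hlim
    have hW : Tendsto (fun n : ℕ => W l P.κ P.b (3 / 2 * α * (1 / 3 : ℝ) ^ n + α) s v) atTop
        (𝓝 (W l P.κ P.b α s v)) := by
      unfold W gs
      exact ENNReal.tendsto_ofReal ((hlim.mul_const _).mul_const _)
    exact ⟨ge_of_tendsto' (tendsto_const_nhds.add hW) fun n => (huf n s hs x v).1,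
      ge_of_tendsto' (tendsto_const_nhds.add hW) fun n => (huf n s hs x v).2⟩
  have hball_u := fun d => P.ball (G := G) (m₀ := m₀) u.2 mf A hM₁ hM' hα0 hρT h0 huf' bf d
  refine ⟨u, ?_, huf', fun d => ?_, fun d => (hball_u d).2⟩
  · -- fixed point
    have h1 : ∀ n, P.Close l (α * (1 / 3) ^ n) (G.Psi f₀ m₀ L u.1 u.2) u.1 := by
      intro n
      have h2 : (1 / 3 : ℝ) ^ (n + 1) ≤ 1 / 3 := by
        rw [pow_succ]
        have : (1 / 3 : ℝ) ^ n ≤ 1 := pow_le_one₀ (by norm_num) (by norm_num)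
        linarith
      have hsm : 3 / 2 * α * (1 / 3) ^ (n + 1) * Real.exp (l * P.T) ≤ 1 := by
        calc 3 / 2 * α * (1 / 3) ^ (n + 1) * Real.exp (l * P.T)
            ≤ 3 / 2 * α * (1 / 3) * Real.exp (l * P.T) := by gcongr
          _ ≤ α * Real.exp (l * P.T) := by
              have : 0 ≤ α * Real.exp (l * P.T) := by positivity
              nlinarith
          _ ≤ 1 := hρT
      have h3 := (P.ball (G := G) (m₀ := m₀) u.2 (z (n + 1)).2 A (by linarith) (by linarith)
        (by positivity) hsm h0 (hu (n + 1)) (hbz (n + 1)) L).1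
      have h4 := h3.trans P (by positivity) (by positivity)
        (show P.Close l (3 / 2 * α * (1 / 3) ^ (n + 2)) (G.Psi f₀ m₀ L (z (n + 1)).1 (z (n + 1)).2)
          u.1 from by
            have := (hu (n + 2)).symm P
            rw [hzs (n + 1)] at this
            exact this)
      refine h4.mono P (by positivity) ?_
      have e1 : 3 / 2 * α * (1 / 3) ^ (n + 1) / 3 + 3 / 2 * α * (1 / 3) ^ (n + 2) =
          α * (1 / 3) ^ n * (1 / 3) := by
        rw [pow_succ _ (n + 1), pow_succ _ n]; ring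
      rw [e1]
      have : 0 ≤ α * (1 / 3 : ℝ) ^ n := by positivity
      linarith
    refine P.eq_of_close (a := fun n => α * (1 / 3) ^ n) ?_ h1
    have := (tendsto_pow_atTop_nhds_zero_of_lt_one (r := (1 / 3 : ℝ)) (by norm_num)
      (by norm_num)).const_mul α
    simpa using this
  · have := (hball_u d).1
    have e1 : α / 3 = ρ / 2 := by rw [hα]; ring
    rwa [e1] at this

/-- The bounds of the gain-only sums. -/
def Wt.gb (G : Coll) : ℕ → ℝ
  | 0 => 0
  | d + 1 => Wt.gb G d + P.M2 G (Wt.gb G d)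

theorem Wt.gb_nonneg (d : ℕ) : 0 ≤ P.gb G d := by
  induction d with
  | zero => exact le_rfl
  | succ d ih => exact add_nonneg ih P.M2_nonneg

theorem Wt.gb_mono : Monotone (P.gb G) :=
  monotone_nat_of_le_succ fun d => by
    rw [Wt.gb]
    linarith [P.M2_nonneg (G := G) (M := P.gb G d)]

theorem Wt.Psi_le_gb (h0 : P.Dat f₀) (h : Dn) (d : ℕ) {t : ℝ} (ht : t ∈ Icc 0 P.T) (x v : E3) :
    G.Psi f₀ m₀ d h.1 h.2 t x v ≤ P.bg (P.gb G d) t v := by
  induction d generalizing t x v with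
  | zero => exact zero_le
  | succ d ih =>
    rw [Coll.Psi_succ]
    have hb := P.bracket (G := G) (P.gb_nonneg (G := G) d) h0 ht (x - t • v) v
    calc f₀ (x - t • v) v * G.damp h.1 0 t x v + ∫⁻ s in Ioc 0 t, G.damp h.1 s t x v *
          G.Q (G.Psi f₀ m₀ d h.1 h.2 s (x - (t - s) • v))
            (G.Psi f₀ m₀ d h.1 h.2 s (x - (t - s) • v)) v
        ≤ f₀ (x - t • v) v * 1 + ∫⁻ s in Ioc 0 t, 1 *
          G.Q (P.bg (P.gb G d) s) (P.bg (P.gb G d) s) v := by
          refine add_le_add (mul_le_mul_right (en_le_one _) _)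
            (setLIntegral_mono' measurableSet_Ioc fun s hs => ?_)
          have hs' : s ∈ Icc 0 P.T := ⟨hs.1.le, hs.2.trans ht.2⟩
          exact mul_le_mul' (en_le_one _) (G.Q_mono (fun w => ih hs' _ w) (fun w => ih hs' _ w) v)
      _ = 1 * (f₀ (x - t • v) v + ∫⁻ s in Ioc 0 t,
          G.Q (P.bg (P.gb G d) s) (P.bg (P.gb G d) s) v) := by
          simp only [one_mul, mul_one]
      _ ≤ ENNReal.ofReal (1 + ‖v‖) * (f₀ (x - t • v) v + ∫⁻ s in Ioc 0 t,
          G.Q (P.bg (P.gb G d) s) (P.bg (P.gb G d) s) v) := by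
          gcongr
          rw [ENNReal.one_le_ofReal]
          linarith [norm_nonneg v]
      _ ≤ P.bg (P.M2 G (P.gb G d)) t v := hb
      _ ≤ _ := gs_mono P.M2_nonneg (by
          rw [Wt.gb]
          linarith [P.gb_nonneg (G := G) d]) le_rfl v

/-- The alternating iterates converge geometrically to any fixed point. -/
theorem Wt.alternating (h0 : P.Dat f₀) (L : ℕ) :
    ∃ l α : ℝ, 0 < l ∧ 0 ≤ α ∧ ∀ u : Dn,
      (∀ s ∈ Icc 0 P.T, ∀ x v, G.Psi f₀ m₀ L u.1 u.2 s x v = u.1 s x v) →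
      ∀ z : ℕ → Dn, (∀ s x v, (z 0).1 s x v = 0) → (∀ n, z (n + 1) = G.PsiB f₀ m₀ L (z n)) →
      (∀ n, ∀ s ∈ Icc 0 P.T, ∀ x v, (z (2 * n)).1 s x v ≤ u.1 s x v ∧
        u.1 s x v ≤ (z (2 * n + 1)).1 s x v) ∧
      (∀ n, P.Close l (α * (1 / 3) ^ n) (z n).1 (z (n + 1)).1) ∧
      ∀ n, P.Close l (α * (1 / 3) ^ n) (z n).1 u.1 := by
  obtain ⟨l, A⟩ := P.exists_adm G (P.gb_nonneg (G := G) L)
  refine ⟨l, P.gb G L, A.l0, P.gb_nonneg L, fun u hu z hz0 hzs => ?_⟩
  have hbg : ∀ (h : Dn), ∀ d < L, ∀ s ∈ Icc 0 P.T, ∀ x v,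
      G.Psi f₀ m₀ d h.1 h.2 s x v ≤ P.bg (P.gb G L) s v := fun h d hd s hs x v =>
    (P.Psi_le_gb h0 h d hs x v).trans (gs_mono (P.gb_nonneg d) (P.gb_mono hd.le) le_rfl v)
  have hsand : ∀ n, ∀ s ∈ Icc 0 P.T, ∀ x v, (z (2 * n)).1 s x v ≤ u.1 s x v ∧
        u.1 s x v ≤ (z (2 * n + 1)).1 s x v := by
    intro n
    induction n with
    | zero =>
      intro s hs x v
      refine ⟨by rw [mul_zero, hz0]; exact zero_le, ?_⟩
      rw [mul_zero, zero_add, hzs 0, ← hu s hs x v]
      exact Coll.Psi_anti u.2 (z 0).2 (fun s _ x v => by rw [hz0]; exact zero_le) L hs x v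
    | succ n ih =>
      have h1 : ∀ s ∈ Icc 0 P.T, ∀ x v, (z (2 * (n + 1))).1 s x v ≤ u.1 s x v := by
        intro s hs x v
        rw [show 2 * (n + 1) = (2 * n + 1) + 1 by ring, hzs, ← hu s hs x v]
        exact Coll.Psi_anti (z (2 * n + 1)).2 u.2 (fun s hs x v => (ih s hs x v).2) L hs x v
      refine fun s hs x v => ⟨h1 s hs x v, ?_⟩
      rw [hzs, ← hu s hs x v]
      exact Coll.Psi_anti u.2 (z (2 * (n + 1))).2 h1 L hs x v
  have hclose : ∀ n, P.Close l (P.gb G L * (1 / 3) ^ n) (z n).1 (z (n + 1)).1 := by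
    intro n
    induction n with
    | zero =>
      intro s hs x v
      rw [hz0]
      refine ⟨zero_le, ?_⟩
      refine le_trans ?_ le_add_self
      rw [hzs 0, pow_zero, mul_one]
      refine (P.Psi_le_gb (G := G) (m₀ := m₀) h0 (z 0) L hs x v).trans ?_
      refine gs_mono (P.gb_nonneg L) ?_ le_rfl v
      have h1 : 1 ≤ Real.exp (l * s) := Real.one_le_exp (mul_nonneg A.l0.le hs.1)
      have h2 := P.gb_nonneg (G := G) L
      nlinarith
    | succ n ih =>
      have h1 := P.contract (m₀ := m₀) (z n).2 (z (n + 1)).2 A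
        (mul_nonneg (P.gb_nonneg L) (by positivity)) h0 L ih (hbg (z n)) (hbg (z (n + 1))) L le_rfl
      rw [hzs (n + 1)]
      have h2 : (z (n + 1)).1 = G.Psi f₀ m₀ L (z n).1 (z n).2 := by rw [hzs n]; rfl
      rw [h2]
      have e1 : P.gb G L * (1 / 3) ^ n / 3 = P.gb G L * (1 / 3) ^ (n + 1) := by
        rw [pow_succ]; ring
      rw [e1] at h1
      exact h1
  refine ⟨hsand, hclose, fun n => ?_⟩
  -- `z n` and `u`: `u` lies between `z n` and `z (n + 1)`
  intro s hs x v
  rcases Nat.even_or_odd' n with ⟨m, rfl | rfl⟩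
  · exact ⟨(hsand m s hs x v).1.trans le_self_add,
      (hsand m s hs x v).2.trans (hclose (2 * m) s hs x v).2⟩
  · have h1 := (hsand (m + 1) s hs x v).1
    rw [show 2 * (m + 1) = 2 * m + 1 + 1 by ring] at h1
    exact ⟨(hclose (2 * m + 1) s hs x v).1.trans (add_le_add h1 le_rfl),
      (hsand m s hs x v).2.trans le_self_add⟩

end Vale.Agent.P119.KE
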