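import Vale.Agent.P119.KE.Picard

/-! Superexponential decay of the remainders of the Picard iterates (truncation by depth). -/

open MeasureTheory Filter Topology Set ProbabilityTheory
open scoped ENNReal NNReal

noncomputable section

namespace Vale.Agent.P119.KE

variable (G : Gain)

/-- The linearized operator with a Gaussian background. -/
def Gain.lin (C γ : ℝ) (B : ℝ → E3 → ℝ≥0∞) (t : ℝ) (v : E3) : ℝ≥0∞ :=
  ∫⁻ s in Ioc 0 t, (G.Q (B s) (gs C γ) v + G.Q (gs C γ) (B s) v)

theorem Gain.lin_mono {C γ : ℝ} {B B' : ℝ → E3 → ℝ≥0∞} {t : ℝ}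
    (h : ∀ s ∈ Ioc 0 t, ∀ v, B s v ≤ B' s v) (v : E3) :
    G.lin C γ B t v ≤ G.lin C γ B' t v :=
  setLIntegral_mono' measurableSet_Ioc fun s hs =>
    add_le_add (G.Q_mono (h s hs) (fun _ => le_rfl) v) (G.Q_mono (fun _ => le_rfl) (h s hs) v)

/-- The factor lost per step if `n` steps are made from the exponent `b` to `b / 2`. -/
def Gain.kap (C b : ℝ) (n : ℕ) : ℝ :=
  2 * C * G.R (b / 2) * (1 + 1 / Real.sqrt (b / (2 * n)))

/-- The coefficient after `n` steps. -/
def Gain.coef (C b T : ℝ) (n : ℕ) : ℝ := (G.kap C b n * T) ^ n / n.factorial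

theorem Gain.kap_nonneg {C b : ℝ} (hC : 0 ≤ C) (n : ℕ) : 0 ≤ G.kap C b n := by
  unfold Gain.kap
  have := G.R_nonneg (b / 2)
  positivity

theorem Gain.coef_nonneg {C b T : ℝ} (hC : 0 ≤ C) (hT : 0 ≤ T) (n : ℕ) :
    0 ≤ G.coef C b T n :=
  div_nonneg (pow_nonneg (mul_nonneg (G.kap_nonneg hC n) hT) n) (by positivity)

theorem Gain.lin_iterate_le {C γ b a T : ℝ} (hC : 0 ≤ C) (ha : 0 ≤ a) (hb : 0 < b)
    (hbγ : b ≤ γ) (_hT : 0 ≤ T) {B : ℝ → E3 → ℝ≥0∞}
    (hB : ∀ s ∈ Icc 0 T, ∀ v, B s v ≤ gs a b v) (n : ℕ) {t : ℝ} (ht : t ∈ Icc 0 T) (v : E3) :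
    (G.lin C γ)^[n] B t v ≤ gs (a * G.coef C b T n) (b / 2) v := by
  rcases Nat.eq_zero_or_pos n with h0 | hn
  · subst h0
    simp only [Function.iterate_zero, id_eq, Gain.coef, pow_zero, Nat.factorial_zero,
      Nat.cast_one, div_one, mul_one]
    exact (hB t ht v).trans (gs_mono ha le_rfl (by linarith) v)
  have hn' : (0 : ℝ) < n := by exact_mod_cast hn
  set δ : ℝ := b / (2 * n) with hδ
  have hδ0 : 0 < δ := by positivity
  have hκ := G.kap_nonneg (b := b) hC n
  -- `d ≤ n` steps
  have key : ∀ d : ℕ, d ≤ n → ∀ s ∈ Icc 0 T, ∀ w,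
      (G.lin C γ)^[d] B s w ≤
        gs (a * (G.kap C b n ^ d / d.factorial) * s ^ d) (b - d * δ) w := by
    intro d
    induction d with
    | zero =>
      intro _ s hs w
      simp only [Function.iterate_zero, id_eq, pow_zero, Nat.factorial_zero, Nat.cast_one,
        div_one, mul_one, Nat.cast_zero, zero_mul, sub_zero]
      exact hB s hs w
    | succ d ih =>
      intro hd s hs w
      have hd' : (d : ℝ) + 1 ≤ n := by exact_mod_cast hd
      have hbd : b / 2 ≤ b - d * δ := by
        have h1 : (d : ℝ) * δ ≤ b / 2 := by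
          rw [hδ]
          calc (d : ℝ) * (b / (2 * n)) = (d / n) * (b / 2) := by field_simp
            _ ≤ 1 * (b / 2) := by
                gcongr
                rw [div_le_one hn']
                linarith
            _ = b / 2 := one_mul _
        linarith
      rw [Function.iterate_succ_apply']
      have h2 := G.step (γ := γ) (a := a * (G.kap C b n ^ d / d.factorial)) (b := b - d * δ)
        (d := d) (δ := δ) hs.1 hC (by positivity) (by linarith) (by
          have : 0 ≤ (d : ℝ) * δ := by positivity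
          linarith) hδ0
        (B := (G.lin C γ)^[d] B)
        (fun u hu z => ih (by omega) u ⟨hu.1.le, hu.2.trans hs.2⟩ z) w
      refine h2.trans ?_
      have e1 : b - d * δ - δ = b - (d + 1 : ℕ) * δ := by push_cast; ring
      rw [e1]
      refine gs_mono ?_ ?_ le_rfl w
      · have := G.R_nonneg (b - d * δ)
        have := hs.1
        positivity
      · have hR : G.R (b - d * δ) ≤ G.R (b / 2) := G.R_anti _ _ (by linarith) hbd
        have hR0 := G.R_nonneg (b - d * δ)
        have hs0 := hs.1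
        calc 2 * C * G.R (b - d * δ) * (1 + 1 / Real.sqrt δ) *
              (a * (G.kap C b n ^ d / d.factorial)) * (s ^ (d + 1) / (d + 1))
            ≤ 2 * C * G.R (b / 2) * (1 + 1 / Real.sqrt δ) *
              (a * (G.kap C b n ^ d / d.factorial)) * (s ^ (d + 1) / (d + 1)) := by gcongr
          _ = G.kap C b n * (a * (G.kap C b n ^ d / d.factorial)) * (s ^ (d + 1) / (d + 1)) := by
              rw [Gain.kap]
          _ = a * (G.kap C b n ^ (d + 1) / (d + 1).factorial) * s ^ (d + 1) := by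
              rw [Nat.factorial_succ]
              push_cast
              field_simp
              ring
  have h3 := key n le_rfl t ht v
  refine h3.trans ?_
  have e2 : b - n * δ = b / 2 := by
    rw [hδ]; field_simp; ring
  rw [e2]
  refine gs_mono ?_ ?_ le_rfl v
  · have := ht.1
    positivity
  · unfold Gain.coef
    have ht0 := ht.1
    calc a * (G.kap C b n ^ n / n.factorial) * t ^ n
        ≤ a * (G.kap C b n ^ n / n.factorial) * T ^ n := by
          gcongr
          exact ht.2
      _ = _ := by rw [mul_pow]; ring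

/-- Superexponential smallness of the coefficients. -/
theorem Gain.coef_tendsto {C b T : ℝ} (hC : 0 ≤ C) (hb : 0 < b) (hT : 0 ≤ T) (A : ℝ)
    (hA : 0 ≤ A) : Tendsto (fun n => A ^ n * G.coef C b T n) atTop (𝓝 0) := by
  set κ : ℝ := 2 * C * G.R (b / 2) * (1 + Real.sqrt (2 / b)) * T * A with hκ
  have hR := G.R_nonneg (b / 2)
  have hκ0 : 0 ≤ κ := by positivity
  -- bound `A ^ n * coef n ≤ sqrt ((κ^2 e)^n / n!)`
  have hb1 : ∀ n : ℕ, 1 ≤ n → A ^ n * G.coef C b T n ≤
      Real.sqrt ((κ ^ 2 * Real.exp 1) ^ n / n.factorial) := by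
    intro n hn
    have hn' : (1 : ℝ) ≤ n := by exact_mod_cast hn
    have h1 : G.kap C b n * T * A ≤ κ * Real.sqrt n := by
      unfold Gain.kap
      have h2 : 1 / Real.sqrt (b / (2 * n)) = Real.sqrt (2 / b) * Real.sqrt n := by
        rw [← Real.sqrt_mul (by positivity), one_div, ← Real.sqrt_inv]
        congr 1
        field_simp
      have h3 : 1 ≤ Real.sqrt n := by
        rw [Real.le_sqrt (by norm_num) (by positivity)]
        simpa using hn'
      rw [h2, hκ]
      have h4 : 1 + Real.sqrt (2 / b) * Real.sqrt n ≤ (1 + Real.sqrt (2 / b)) * Real.sqrt n := by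
        nlinarith [Real.sqrt_nonneg (2 / b)]
      calc 2 * C * G.R (b / 2) * (1 + Real.sqrt (2 / b) * Real.sqrt n) * T * A
          ≤ 2 * C * G.R (b / 2) * ((1 + Real.sqrt (2 / b)) * Real.sqrt n) * T * A := by gcongr
        _ = _ := by ring
    have hk0 : 0 ≤ G.kap C b n := G.kap_nonneg hC n
    have h5 : A ^ n * G.coef C b T n ≤ (κ * Real.sqrt n) ^ n / n.factorial := by
      unfold Gain.coef
      calc A ^ n * ((G.kap C b n * T) ^ n / n.factorial)
          = (G.kap C b n * T * A) ^ n / n.factorial := by rw [mul_pow _ A]; ring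
        _ ≤ _ := by
          gcongr
    refine h5.trans ?_
    apply Real.le_sqrt_of_sq_le
    rw [div_pow, ← pow_mul, mul_comm n 2, pow_mul, mul_pow κ, Real.sq_sqrt (by positivity)]
    have h6 : (n : ℝ) ^ n / n.factorial ≤ Real.exp 1 ^ n := by
      have := Real.pow_div_factorial_le_exp (x := (n : ℝ)) (by positivity) n
      rwa [← Real.exp_nat_mul, mul_one]
    have hf : (0 : ℝ) < n.factorial := by positivity
    calc (κ ^ 2 * n) ^ n / (n.factorial : ℝ) ^ 2
        = (κ ^ 2) ^ n * ((n : ℝ) ^ n / n.factorial) / n.factorial := by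
          rw [mul_pow]; field_simp
      _ ≤ (κ ^ 2) ^ n * Real.exp 1 ^ n / n.factorial := by gcongr
      _ = _ := by rw [← mul_pow]
  have h7 : Tendsto (fun n : ℕ => Real.sqrt ((κ ^ 2 * Real.exp 1) ^ n / n.factorial)) atTop
      (𝓝 0) := by
    have := FloorSemiring.tendsto_pow_div_factorial_atTop (κ ^ 2 * Real.exp 1)
    have h8 := (Real.continuous_sqrt.tendsto 0).comp this
    rw [Real.sqrt_zero] at h8
    exact h8
  refine squeeze_zero' (Eventually.of_forall fun n =>
    mul_nonneg (pow_nonneg hA n) (G.coef_nonneg hC hT n)) ?_ h7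
  filter_upwards [eventually_ge_atTop 1] with n hn using hb1 n hn

theorem Gain.coef_summable {C b T : ℝ} (hC : 0 ≤ C) (hb : 0 < b) (hT : 0 ≤ T) :
    Summable (G.coef C b T) := by
  have h1 := G.coef_tendsto hC hb hT 2 (by norm_num)
  have h2 : ∀ᶠ n in atTop, (2 : ℝ) ^ n * G.coef C b T n ≤ 1 :=
    (h1.eventually (ge_mem_nhds (show (0 : ℝ) < 1 by norm_num)))
  have h3 : Summable fun n : ℕ => ((1 : ℝ) / 2) ^ n := summable_geometric_two
  refine h3.of_norm_bounded_eventually_nat ?_
  filter_upwards [h2] with n hn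
  rw [Real.norm_of_nonneg (G.coef_nonneg hC hT n), one_div, inv_pow, ← one_div,
    le_div_iff₀ (by positivity)]
  linarith

variable (D : MildData) {G} {T : ℝ} {f : ℝ → E3 → E3 → ℝ≥0∞}

/-- Pointwise superexponential bound of the remainder. -/
theorem MildData.IsSol.rem_le (h : D.IsSol G T f) {C γ : ℝ} (hC : 0 ≤ C) (hγ : 0 < γ)
    (hT : 0 ≤ T) (hf : ∀ t ∈ Icc 0 T, ∀ x v, f t x v ≤ gs C γ v) (n : ℕ) {t : ℝ}
    (ht : t ∈ Icc 0 T) (x v : E3) :
    D.rem G f n t x v ≤ gs (C * G.coef C γ T n) (γ / 2) v := by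
  have key : ∀ d : ℕ, ∀ s ∈ Icc 0 T, ∀ y w,
      D.rem G f d s y w ≤ (G.lin C γ)^[d] (fun _ => gs C γ) s w := by
    intro d
    induction d with
    | zero =>
      intro s hs y w
      simp only [Function.iterate_zero, id_eq]
      exact tsub_le_self.trans (hf s hs y w)
    | succ d ih =>
      intro s hs y w
      refine (h.rem_succ_le D d hs y w).trans ?_
      rw [Function.iterate_succ_apply']
      refine setLIntegral_mono' measurableSet_Ioc fun u hu => ?_
      have hu' : u ∈ Icc 0 T := ⟨hu.1.le, hu.2.trans hs.2⟩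
      exact add_le_add (G.Q_mono (fun z => ih u hu' _ z) (fun z => hf u hu' _ z) w)
        (G.Q_mono (fun z => hf u hu' _ z) (fun z => ih u hu' _ z) w)
  refine (key n t ht x v).trans ?_
  exact G.lin_iterate_le hC hC hγ le_rfl hT (fun s _ v => le_rfl) n ht v

end Vale.Agent.P119.KE
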