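import Vale.Agent.P119.KE.Fix

/-! `L¹` in the position version of the dependence on the damping. -/

open MeasureTheory Filter Topology Set ProbabilityTheory
open scoped ENNReal NNReal

noncomputable section

namespace Vale.Agent.P119.KE

variable {G : Coll} (P : Wt) {f₀ : E3 → E3 → ℝ≥0∞} {m₀ : Measurable fun p : E3 × E3 => f₀ p.1 p.2}
  {h k : ℝ → E3 → E3 → ℝ≥0∞}

/-- Positive part of the difference of two densities. -/
def pd (h k : ℝ → E3 → E3 → ℝ≥0∞) (s : ℝ) (x v : E3) : ℝ≥0∞ := h s x v - k s x v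

theorem le_add_pd (h k : ℝ → E3 → E3 → ℝ≥0∞) (s : ℝ) (x v : E3) :
    h s x v ≤ k s x v + pd h k s x v := by
  unfold pd
  exact le_add_tsub

theorem jm_pd (mh : JM h) (mk : JM k) : JM (pd h k) := Measurable.sub mh mk

theorem xint_pd_le_add {j : ℝ → E3 → E3 → ℝ≥0∞} (mh : JM h) (mk : JM k) (s : ℝ)
    (v : E3) : xint (pd h j) s v ≤ xint (pd h k) s v + xint (pd k j) s v := by
  unfold xint
  have m1 : Measurable fun x => pd h k s x v :=
    JM.comp (jm_pd mh mk) (a := fun _ : E3 => s) (b := fun x => x) (c := fun _ => v)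
      measurable_const measurable_id measurable_const
  rw [← lintegral_add_left m1]
  exact lintegral_mono fun x => tsub_le_tsub_add_tsub

/-- `x`-integral of a product type Duhamel term, general version. -/
theorem xint_Q_le {A B : ℝ → E3 → E3 → ℝ≥0∞} (mA : JM A) {s : ℝ} {b : E3 → ℝ≥0∞}
    (mb : Measurable b) (hB : ∀ x v, B s x v ≤ b v) (v : E3) :
    ∫⁻ x, G.Q (A s x) (B s x) v ≤ G.Q (xint A s) b v := by
  calc ∫⁻ x, G.Q (A s x) (B s x) v
      ≤ ∫⁻ x : E3, ∫⁻ p : E3 × E3, A s x p.1 * b p.2 ∂(G.K v) :=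
        lintegral_mono fun x => G.Q_mono (fun _ => le_rfl) (fun w => hB x w) v
    _ = ∫⁻ p : E3 × E3, ∫⁻ x : E3, A s x p.1 * b p.2 ∂volume ∂(G.K v) := by
        refine lintegral_lintegral_swap (Measurable.aemeasurable ?_)
        exact (mA.comp measurable_const measurable_fst (by fun_prop)).mul (by fun_prop)
    _ = G.Q (xint A s) b v := by
        unfold Gain.Q xint
        refine lintegral_congr fun p => ?_
        exact lintegral_mul_const _
          (mA.comp measurable_const measurable_id measurable_const)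

theorem xint_Q_le' {A B : ℝ → E3 → E3 → ℝ≥0∞} (mA : JM A) {s : ℝ} {b : E3 → ℝ≥0∞}
    (mb : Measurable b) (hB : ∀ x v, B s x v ≤ b v) (v : E3) :
    ∫⁻ x, G.Q (B s x) (A s x) v ≤ G.Q b (xint A s) v := by
  calc ∫⁻ x, G.Q (B s x) (A s x) v
      ≤ ∫⁻ x : E3, ∫⁻ p : E3 × E3, b p.1 * A s x p.2 ∂(G.K v) :=
        lintegral_mono fun x => G.Q_mono (fun w => hB x w) (fun _ => le_rfl) v
    _ = ∫⁻ p : E3 × E3, ∫⁻ x : E3, b p.1 * A s x p.2 ∂volume ∂(G.K v) := by
        refine lintegral_lintegral_swap (Measurable.aemeasurable ?_)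
        exact Measurable.mul (by fun_prop)
          (mA.comp measurable_const measurable_fst (by fun_prop))
    _ = G.Q b (xint A s) v := by
        unfold Gain.Q xint
        refine lintegral_congr fun p => ?_
        exact lintegral_const_mul _
          (mA.comp measurable_const measurable_id measurable_const)

/-- Swap and shift. -/
theorem xint_time_le {q : ℝ → E3 → ℝ≥0∞} (mq : Measurable fun p : ℝ × E3 => q p.1 p.2)
    {r : ℝ → ℝ≥0∞} {t : ℝ} (v : E3) (hq : ∀ s ∈ Ioc 0 t, ∫⁻ x, q s x ≤ r s) :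
    ∫⁻ x, ∫⁻ s in Ioc 0 t, q s (x - (t - s) • v) ≤ ∫⁻ s in Ioc 0 t, r s := by
  have m1 : Measurable fun p : E3 × ℝ => q p.2 (p.1 - (t - p.2) • v) :=
    Measurable.comp (g := fun p : ℝ × E3 => q p.1 p.2) mq
      (f := fun p : E3 × ℝ => (p.2, p.1 - (t - p.2) • v)) (by fun_prop)
  rw [lintegral_lintegral_swap m1.aemeasurable]
  refine setLIntegral_mono' measurableSet_Ioc fun s hs => ?_
  rw [lintegral_sub_right_eq_self (fun x => q s x) ((t - s) • v)]
  exact hq s hs

/-- One step, `L¹` version. `P` are parameters (smaller exponent) with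
`sup_x |k - h| ≤ W α`, all sums `≤ bg M`, masses `≤ bg M`, datum mass controlled by `P.Dat`. -/
theorem Wt.ldiff_step (mh : JM h) (mk : JM k) {M l α α' : ℝ} (hM : 0 ≤ M) (hl : 0 < l)
    (hα : 0 ≤ α) (hα' : 0 ≤ α') {n₀ : E3 → ℝ≥0∞} (hn₀ : ∀ v, ∫⁻ x, f₀ x v ≤ n₀ v)
    (h0 : P.Dat (fun _ v => n₀ v)) (d : ℕ)
    (hB : ∀ s ∈ Icc 0 P.T, ∀ x v, k s x v ≤ h s x v + W l P.κ P.b α s v)
    (bh : ∀ s ∈ Icc 0 P.T, ∀ x v, G.Psi f₀ m₀ d h mh s x v ≤ P.bg M s v)
    (bk : ∀ s ∈ Icc 0 P.T, ∀ x v, G.Psi f₀ m₀ d k mk s x v ≤ P.bg M s v)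
    (bm : ∀ s ∈ Icc 0 P.T, ∀ v, xint (G.Psi f₀ m₀ d h mh) s v ≤ P.bg M s v)
    (hP : ∀ s ∈ Icc 0 P.T, ∀ v, xint (pd (G.Psi f₀ m₀ d h mh) (G.Psi f₀ m₀ d k mk)) s v ≤
      W l P.κ P.b α' s v) {t : ℝ} (ht : t ∈ Icc 0 P.T) (v : E3) :
    xint (pd (G.Psi f₀ m₀ (d + 1) h mh) (G.Psi f₀ m₀ (d + 1) k mk)) t v ≤
      W l P.κ P.b (G.R (P.b / 2) * P.M2 G M / l * α + 2 * M * G.R (P.b / 2) * th l P.κ * α')
        t v := by
  have hR1 := G.R_nonneg (P.b / 2)
  have hsT : ∀ s ∈ Ioc 0 t, s ∈ Icc 0 P.T := fun s hs => ⟨hs.1.le, hs.2.trans ht.2⟩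
  set β : ℝ≥0∞ := ∫⁻ s in Ioc 0 t, G.nu (W l P.κ P.b α s) v with hβ
  set AA := G.Psi f₀ m₀ d h mh with hAA
  set BB := G.Psi f₀ m₀ d k mk with hBB
  set DD := pd AA BB with hDD
  have jA : JM AA := Coll.jm_Psi d mh
  have jB : JM BB := Coll.jm_Psi d mk
  have jD : JM DD := jm_pd jA jB
  -- damping factors
  have hdamp : ∀ x s, 0 ≤ s → G.damp h s t x v ≤ G.damp k s t x v + β := by
    intro x s hs
    apply en_le_en_add
    have h1 : G.dampArg k s t x v ≤ G.dampArg h s t x v +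
        ∫⁻ τ in Ioc s t, G.nu (W l P.κ P.b α τ) v := by
      unfold Coll.dampArg
      have mm : Measurable fun τ => G.nu (h τ (x - (t - τ) • v)) v :=
        G.measurable_nu (α := ℝ) (h := fun q : ℝ × E3 => h q.1 (x - (t - q.1) • v) q.2)
          (w := fun _ => v) (mh.comp (by fun_prop) (by fun_prop) (by fun_prop)) measurable_const
      rw [← lintegral_add_left mm]
      refine setLIntegral_mono' measurableSet_Ioc fun τ hτ => ?_
      have hτ' : τ ∈ Icc 0 P.T := ⟨hs.trans hτ.1.le, hτ.2.trans ht.2⟩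
      rw [← G.nu_add (mh.slice τ _)]
      exact G.nu_mono (fun w => hB τ hτ' _ w) v
    refine h1.trans (add_le_add le_rfl ?_)
    exact lintegral_mono_set (Ioc_subset_Ioc_left hs)
  -- pointwise bound of the difference
  have hpt : ∀ x, pd (G.Psi f₀ m₀ (d + 1) h mh) (G.Psi f₀ m₀ (d + 1) k mk) t x v ≤
      (∫⁻ s in Ioc 0 t, (G.Q (DD s (x - (t - s) • v)) (AA s (x - (t - s) • v)) v +
        G.Q (BB s (x - (t - s) • v)) (DD s (x - (t - s) • v)) v)) +
      β * (f₀ (x - t • v) v + ∫⁻ s in Ioc 0 t,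
        G.Q (AA s (x - (t - s) • v)) (AA s (x - (t - s) • v)) v) := by
    intro x
    unfold pd
    rw [tsub_le_iff_left, Coll.Psi_succ, Coll.Psi_succ]
    have mQ : ∀ {U V : ℝ → E3 → E3 → ℝ≥0∞}, JM U → JM V → Measurable fun s : ℝ =>
        G.Q (U s (x - (t - s) • v)) (V s (x - (t - s) • v)) v := fun {U V} jU jV =>
      G.measurable_Q (α := ℝ) (h := fun q : ℝ × E3 => U q.1 (x - (t - q.1) • v) q.2)
        (k := fun q : ℝ × E3 => V q.1 (x - (t - q.1) • v) q.2) (w := fun _ => v)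
        (jU.comp (by fun_prop) (by fun_prop) (by fun_prop))
        (jV.comp (by fun_prop) (by fun_prop) (by fun_prop)) measurable_const
    have hgain : ∀ s ∈ Ioc 0 t, G.damp h s t x v *
        G.Q (AA s (x - (t - s) • v)) (AA s (x - (t - s) • v)) v ≤
        (G.damp k s t x v * G.Q (BB s (x - (t - s) • v)) (BB s (x - (t - s) • v)) v +
        (G.Q (DD s (x - (t - s) • v)) (AA s (x - (t - s) • v)) v +
          G.Q (BB s (x - (t - s) • v)) (DD s (x - (t - s) • v)) v)) +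
        β * G.Q (AA s (x - (t - s) • v)) (AA s (x - (t - s) • v)) v := by
      intro s hs
      set y := x - (t - s) • v
      have mA : Measurable (AA s y) := jA.slice s y
      have mB : Measurable (BB s y) := jB.slice s y
      have mD : Measurable (DD s y) := jD.slice s y
      have q1 : G.Q (AA s y) (AA s y) v ≤ G.Q (BB s y) (BB s y) v +
          (G.Q (DD s y) (AA s y) v + G.Q (BB s y) (DD s y) v) := by
        calc G.Q (AA s y) (AA s y) v ≤ G.Q (fun w => BB s y w + DD s y w) (AA s y) v :=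
              G.Q_mono (fun w => le_add_pd AA BB s y w) (fun _ => le_rfl) v
          _ = G.Q (BB s y) (AA s y) v + G.Q (DD s y) (AA s y) v := G.Q_add_left mB mA v
          _ ≤ G.Q (BB s y) (fun w => BB s y w + DD s y w) v + G.Q (DD s y) (AA s y) v :=
              add_le_add (G.Q_mono (fun _ => le_rfl) (fun w => le_add_pd AA BB s y w) v) le_rfl
          _ = (G.Q (BB s y) (BB s y) v + G.Q (BB s y) (DD s y) v) + G.Q (DD s y) (AA s y) v := by
              rw [G.Q_add_right mB mB]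
          _ = _ := by ring
      calc G.damp h s t x v * G.Q (AA s y) (AA s y) v
          ≤ (G.damp k s t x v + β) * G.Q (AA s y) (AA s y) v :=
            mul_le_mul_left (hdamp x s hs.1.le) _
        _ = G.damp k s t x v * G.Q (AA s y) (AA s y) v + β * G.Q (AA s y) (AA s y) v :=
            add_mul _ _ _
        _ ≤ G.damp k s t x v * (G.Q (BB s y) (BB s y) v +
            (G.Q (DD s y) (AA s y) v + G.Q (BB s y) (DD s y) v)) +
            β * G.Q (AA s y) (AA s y) v := add_le_add (mul_le_mul_right q1 _) le_rfl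
        _ ≤ _ := by
            rw [mul_add]
            gcongr
            exact mul_le_of_le_one_left zero_le (en_le_one _)
    calc f₀ (x - t • v) v * G.damp h 0 t x v + ∫⁻ s in Ioc 0 t, G.damp h s t x v *
        G.Q (AA s (x - (t - s) • v)) (AA s (x - (t - s) • v)) v
        ≤ f₀ (x - t • v) v * (G.damp k 0 t x v + β) + ∫⁻ s in Ioc 0 t,
          ((G.damp k s t x v * G.Q (BB s (x - (t - s) • v)) (BB s (x - (t - s) • v)) v +
          (G.Q (DD s (x - (t - s) • v)) (AA s (x - (t - s) • v)) v +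
            G.Q (BB s (x - (t - s) • v)) (DD s (x - (t - s) • v)) v)) +
          β * G.Q (AA s (x - (t - s) • v)) (AA s (x - (t - s) • v)) v) :=
          add_le_add (mul_le_mul_right (hdamp x 0 le_rfl) _)
            (setLIntegral_mono' measurableSet_Ioc hgain)
      _ = _ := by
          have mDA : Measurable fun s => G.Q (DD s (x - (t - s) • v)) (AA s (x - (t - s) • v)) v +
            G.Q (BB s (x - (t - s) • v)) (DD s (x - (t - s) • v)) v := (mQ jD jA).add (mQ jB jD)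
          rw [lintegral_add_right _ ((mQ jA jA).const_mul β),
            lintegral_add_right _ mDA, lintegral_const_mul _ (mQ jA jA), ← hBB]
          ring
  -- integrate
  have mQ2 : ∀ {U V : ℝ → E3 → E3 → ℝ≥0∞}, JM U → JM V → Measurable fun p : ℝ × E3 =>
      G.Q (U p.1 p.2) (V p.1 p.2) v := fun {U V} jU jV =>
    G.measurable_Q (α := ℝ × E3) (h := fun q : (ℝ × E3) × E3 => U q.1.1 q.1.2 q.2)
      (k := fun q : (ℝ × E3) × E3 => V q.1.1 q.1.2 q.2) (w := fun _ => v)
      (jU.comp (by fun_prop) (by fun_prop) (by fun_prop))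
      (jV.comp (by fun_prop) (by fun_prop) (by fun_prop)) measurable_const
  have mbg : ∀ s, Measurable (P.bg M s) := fun s => measurable_gs _ _
  have i1 : ∫⁻ x, ∫⁻ s in Ioc 0 t, (G.Q (DD s (x - (t - s) • v)) (AA s (x - (t - s) • v)) v +
        G.Q (BB s (x - (t - s) • v)) (DD s (x - (t - s) • v)) v) ≤
      ∫⁻ s in Ioc 0 t, (G.Q (W l P.κ P.b α' s) (P.bg M s) v +
        G.Q (P.bg M s) (W l P.κ P.b α' s) v) := by
    refine xint_time_le (q := fun s x => G.Q (DD s x) (AA s x) v + G.Q (BB s x) (DD s x) v)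
      ((mQ2 jD jA).add (mQ2 jB jD)) v fun s hs => ?_
    have m3 : Measurable fun x => G.Q (DD s x) (AA s x) v :=
      (mQ2 jD jA).comp (f := fun x : E3 => (s, x)) (by fun_prop)
    rw [lintegral_add_left m3]
    refine add_le_add ?_ ?_
    · exact (xint_Q_le (G := G) jD (mbg s) (fun x w => bh s (hsT s hs) x w) v).trans
        (G.Q_mono (fun w => hP s (hsT s hs) w) (fun _ => le_rfl) v)
    · exact (xint_Q_le' (G := G) jD (mbg s) (fun x w => bk s (hsT s hs) x w) v).trans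
        (G.Q_mono (fun _ => le_rfl) (fun w => hP s (hsT s hs) w) v)
  have i2 : ∫⁻ x, (f₀ (x - t • v) v + ∫⁻ s in Ioc 0 t,
        G.Q (AA s (x - (t - s) • v)) (AA s (x - (t - s) • v)) v) ≤
      n₀ v + ∫⁻ s in Ioc 0 t, G.Q (P.bg M s) (P.bg M s) v := by
    have m4 : Measurable fun x => f₀ (x - t • v) v :=
      Measurable.comp (g := fun p : E3 × E3 => f₀ p.1 p.2) m₀
        (f := fun x : E3 => (x - t • v, v)) (by fun_prop)
    rw [lintegral_add_left m4, lintegral_sub_right_eq_self (fun x => f₀ x v) (t • v)]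
    refine add_le_add (hn₀ v) ?_
    refine xint_time_le (q := fun s x => G.Q (AA s x) (AA s x) v) (mQ2 jA jA) v fun s hs => ?_
    exact (xint_Q_le (G := G) jA (mbg s) (fun x w => bh s (hsT s hs) x w) v).trans
      (G.Q_mono (fun w => bm s (hsT s hs) w) (fun _ => le_rfl) v)
  have m5 : Measurable fun x => ∫⁻ s in Ioc 0 t,
      (G.Q (DD s (x - (t - s) • v)) (AA s (x - (t - s) • v)) v +
        G.Q (BB s (x - (t - s) • v)) (DD s (x - (t - s) • v)) v) := by
    have m6 : Measurable fun p : E3 × ℝ =>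
        G.Q (DD p.2 (p.1 - (t - p.2) • v)) (AA p.2 (p.1 - (t - p.2) • v)) v +
        G.Q (BB p.2 (p.1 - (t - p.2) • v)) (DD p.2 (p.1 - (t - p.2) • v)) v :=
      ((mQ2 jD jA).add (mQ2 jB jD)).comp (f := fun p : E3 × ℝ => (p.2, p.1 - (t - p.2) • v))
        (by fun_prop)
    exact Measurable.lintegral_prod_right' (ν := (volume : Measure ℝ).restrict (Ioc 0 t)) m6
  calc xint (pd (G.Psi f₀ m₀ (d + 1) h mh) (G.Psi f₀ m₀ (d + 1) k mk)) t v
      ≤ ∫⁻ x, ((∫⁻ s in Ioc 0 t, (G.Q (DD s (x - (t - s) • v)) (AA s (x - (t - s) • v)) v +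
        G.Q (BB s (x - (t - s) • v)) (DD s (x - (t - s) • v)) v)) +
      β * (f₀ (x - t • v) v + ∫⁻ s in Ioc 0 t,
        G.Q (AA s (x - (t - s) • v)) (AA s (x - (t - s) • v)) v)) := lintegral_mono hpt
    _ = (∫⁻ x, ∫⁻ s in Ioc 0 t, (G.Q (DD s (x - (t - s) • v)) (AA s (x - (t - s) • v)) v +
        G.Q (BB s (x - (t - s) • v)) (DD s (x - (t - s) • v)) v)) +
      ∫⁻ x, β * (f₀ (x - t • v) v + ∫⁻ s in Ioc 0 t,
        G.Q (AA s (x - (t - s) • v)) (AA s (x - (t - s) • v)) v) := lintegral_add_left m5 _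
    _ = (∫⁻ x, ∫⁻ s in Ioc 0 t, (G.Q (DD s (x - (t - s) • v)) (AA s (x - (t - s) • v)) v +
        G.Q (BB s (x - (t - s) • v)) (DD s (x - (t - s) • v)) v)) +
      β * ∫⁻ x, (f₀ (x - t • v) v + ∫⁻ s in Ioc 0 t,
        G.Q (AA s (x - (t - s) • v)) (AA s (x - (t - s) • v)) v) := by
        congr 1
        refine lintegral_const_mul _ ?_
        refine Measurable.add (Measurable.comp (g := fun p : E3 × E3 => f₀ p.1 p.2) m₀
          (f := fun x : E3 => (x - t • v, v)) (by fun_prop)) ?_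
        exact Measurable.lintegral_prod_right' (ν := (volume : Measure ℝ).restrict (Ioc 0 t))
          ((mQ2 jA jA).comp (f := fun p : E3 × ℝ => (p.2, p.1 - (t - p.2) • v)) (by fun_prop))
    _ ≤ W l P.κ P.b (2 * M * G.R (P.b / 2) * th l P.κ * α') t v +
        W l P.κ P.b (G.R (P.b / 2) * P.M2 G M / l * α) t v := by
        refine add_le_add (i1.trans (P.gain_part (G := G) hM hα' hl ht v)) ?_
        exact (mul_le_mul_right i2 _).trans (P.loss_part hM hα hl h0 ht 0 v)
    _ = _ := by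
        have hM2 := P.M2_nonneg (G := G) (M := M)
        have hth := th_nonneg (κ := P.κ) hl
        rw [W_add (by positivity) (by positivity), add_comm]

/-- `L¹` contraction along the depths. -/
theorem Wt.lcontract (mh : JM h) (mk : JM k) {M l α : ℝ} (A : P.Adm G M l) (hα : 0 ≤ α)
    {n₀ : E3 → ℝ≥0∞} (hn₀ : ∀ v, ∫⁻ x, f₀ x v ≤ n₀ v) (h0 : P.Dat (fun _ v => n₀ v))
    (hB : P.Close l α h k)
    (bh : ∀ d, ∀ s ∈ Icc 0 P.T, ∀ x v, G.Psi f₀ m₀ d h mh s x v ≤ P.bg M s v)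
    (bk : ∀ d, ∀ s ∈ Icc 0 P.T, ∀ x v, G.Psi f₀ m₀ d k mk s x v ≤ P.bg M s v)
    (bm : ∀ d, ∀ s ∈ Icc 0 P.T, ∀ v, xint (G.Psi f₀ m₀ d h mh) s v ≤ P.bg M s v) (d : ℕ) :
    ∀ s ∈ Icc 0 P.T, ∀ v, xint (pd (G.Psi f₀ m₀ d h mh) (G.Psi f₀ m₀ d k mk)) s v ≤
      W l P.κ P.b (α / 3) s v := by
  induction d with
  | zero =>
    intro s _ v
    simp [xint, pd, Coll.Psi_zero]
  | succ d ih =>
    intro s hs v
    have hcoef : G.R (P.b / 2) * P.M2 G M / l * α +
        2 * M * G.R (P.b / 2) * th l P.κ * (α / 3) ≤ α / 3 := by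
      have h1 := mul_le_mul_of_nonneg_right A.loss hα
      have h2 := mul_le_mul_of_nonneg_right A.gain (show 0 ≤ α / 3 by positivity)
      linarith
    have hpos : 0 ≤ G.R (P.b / 2) * P.M2 G M / l * α +
        2 * M * G.R (P.b / 2) * th l P.κ * (α / 3) := by
      have := G.R_nonneg (P.b / 2)
      have := P.M2_nonneg (G := G) (M := M)
      have := A.l0
      have := A.M0
      have := th_nonneg (κ := P.κ) A.l0
      positivity
    exact (P.ldiff_step mh mk A.M0 A.l0 hα (by positivity) hn₀ h0 d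
      (fun s hs x v => (hB s hs x v).2) (bh d) (bk d) (bm d) ih hs v).trans
      (W_mono hpos hcoef s v)

end Vale.Agent.P119.KE
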