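import Vale.Agent.P119.KE.Iter

/-! `L¹` in the position: mass bounds and superexponential decay of the remainders. -/

open MeasureTheory Filter Topology Set ProbabilityTheory
open scoped ENNReal NNReal

noncomputable section

namespace Vale.Agent.P119.KE

variable {G : Gain} (D : MildData) {T : ℝ} {f : ℝ → E3 → E3 → ℝ≥0∞}

/-- Integral over the positions. -/
def xint (h : ℝ → E3 → E3 → ℝ≥0∞) (t : ℝ) (v : E3) : ℝ≥0∞ := ∫⁻ x, h t x v

theorem gs_tendsto_zero {a : ℕ → ℝ} (ha : Tendsto a atTop (𝓝 0)) (b : ℝ) (v : E3) :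
    Tendsto (fun n => gs (a n) b v) atTop (𝓝 0) := by
  unfold gs
  have h1 : Tendsto (fun n => a n * Real.exp (-b * ‖v‖ ^ 2)) atTop (𝓝 0) := by
    have := ha.mul_const (Real.exp (-b * ‖v‖ ^ 2))
    rwa [zero_mul] at this
  have h2 := ENNReal.tendsto_ofReal h1
  rwa [ENNReal.ofReal_zero] at h2

theorem Gain.coef_tendsto_zero {C b T : ℝ} (hC : 0 ≤ C) (hb : 0 < b) (hT : 0 ≤ T) :
    Tendsto (G.coef C b T) atTop (𝓝 0) := by
  simpa using G.coef_tendsto hC hb hT 1 zero_le_one

/-- `f` is the supremum of the iterates. -/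
theorem MildData.IsSol.iSup_pic (h : D.IsSol G T f) {C γ : ℝ} (hC : 0 ≤ C) (hγ : 0 < γ)
    (hT : 0 ≤ T) (hf : ∀ t ∈ Icc 0 T, ∀ x v, f t x v ≤ gs C γ v) {t : ℝ}
    (ht : t ∈ Icc 0 T) (x v : E3) : ⨆ n, D.pic G n t x v = f t x v := by
  apply le_antisymm (iSup_le fun n => h.pic_le D n ht x v)
  have h1 : ∀ n, f t x v ≤ (⨆ n, D.pic G n t x v) + gs (C * G.coef C γ T n) (γ / 2) v := by
    intro n
    rw [← h.pic_add_rem D n ht x v]
    exact add_le_add (le_iSup (fun n => D.pic G n t x v) n) (h.rem_le D hC hγ hT hf n ht x v)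
  have h2 : Tendsto (fun n => (⨆ n, D.pic G n t x v) + gs (C * G.coef C γ T n) (γ / 2) v) atTop
      (𝓝 ((⨆ n, D.pic G n t x v) + 0)) := by
    refine tendsto_const_nhds.add (gs_tendsto_zero ?_ _ v)
    simpa using (G.coef_tendsto_zero hC hγ hT).const_mul C
  rw [add_zero] at h2
  exact ge_of_tendsto' h2 h1

/-- Integration in `x` of a Duhamel type bound. -/
theorem xint_duh_le {h k : ℝ → E3 → E3 → ℝ≥0∞} (mh : JM h) (mk : JM k) {C γ t : ℝ}
    (hk : ∀ s ∈ Ioc 0 t, ∀ x v, k s x v ≤ gs C γ v) (v : E3) :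
    ∫⁻ x, ∫⁻ s in Ioc 0 t, (G.Q (h s (x - (t - s) • v)) (k s (x - (t - s) • v)) v +
        G.Q (k s (x - (t - s) • v)) (h s (x - (t - s) • v)) v) ≤
      G.lin C γ (xint h) t v := by
  have m1 : Measurable fun q : E3 × ℝ =>
      G.Q (h q.2 (q.1 - (t - q.2) • v)) (k q.2 (q.1 - (t - q.2) • v)) v :=
    G.measurable_Q (h := fun q : (E3 × ℝ) × E3 => h q.1.2 (q.1.1 - (t - q.1.2) • v) q.2)
      (k := fun q : (E3 × ℝ) × E3 => k q.1.2 (q.1.1 - (t - q.1.2) • v) q.2) (w := fun _ => v)
      (mh.comp (by fun_prop) (by fun_prop) (by fun_prop))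
      (mk.comp (by fun_prop) (by fun_prop) (by fun_prop)) measurable_const
  have m2 : Measurable fun q : E3 × ℝ =>
      G.Q (k q.2 (q.1 - (t - q.2) • v)) (h q.2 (q.1 - (t - q.2) • v)) v :=
    G.measurable_Q (h := fun q : (E3 × ℝ) × E3 => k q.1.2 (q.1.1 - (t - q.1.2) • v) q.2)
      (k := fun q : (E3 × ℝ) × E3 => h q.1.2 (q.1.1 - (t - q.1.2) • v) q.2) (w := fun _ => v)
      (mk.comp (by fun_prop) (by fun_prop) (by fun_prop))
      (mh.comp (by fun_prop) (by fun_prop) (by fun_prop)) measurable_const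
  rw [lintegral_lintegral_swap (m1.add m2).aemeasurable]
  refine setLIntegral_mono' measurableSet_Ioc fun s hs => ?_
  have e1 : ∫⁻ x, (G.Q (h s (x - (t - s) • v)) (k s (x - (t - s) • v)) v +
        G.Q (k s (x - (t - s) • v)) (h s (x - (t - s) • v)) v) =
      ∫⁻ x, (G.Q (h s x) (k s x) v + G.Q (k s x) (h s x) v) :=
    lintegral_sub_right_eq_self (fun x => G.Q (h s x) (k s x) v + G.Q (k s x) (h s x) v)
      ((t - s) • v)
  rw [e1]
  have n1 : Measurable fun x => G.Q (h s x) (k s x) v :=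
    G.measurable_Q (h := fun q : E3 × E3 => h s q.1 q.2)
      (k := fun q : E3 × E3 => k s q.1 q.2) (w := fun _ => v)
      (mh.comp (by fun_prop) (by fun_prop) (by fun_prop))
      (mk.comp (by fun_prop) (by fun_prop) (by fun_prop)) measurable_const
  rw [lintegral_add_left n1]
  refine add_le_add ?_ ?_
  · calc ∫⁻ x, G.Q (h s x) (k s x) v
        ≤ ∫⁻ x : E3, ∫⁻ p : E3 × E3, h s x p.1 * gs C γ p.2 ∂(G.K v) :=
          lintegral_mono fun x => G.Q_mono (fun _ => le_rfl) (fun w => hk s hs x w) v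
      _ = ∫⁻ p : E3 × E3, ∫⁻ x : E3, h s x p.1 * gs C γ p.2 ∂volume ∂(G.K v) := by
          refine lintegral_lintegral_swap (Measurable.aemeasurable ?_)
          exact (mh.comp measurable_const measurable_fst (by fun_prop)).mul (by fun_prop)
      _ = G.Q (xint h s) (gs C γ) v := by
          unfold Gain.Q xint
          refine lintegral_congr fun p => ?_
          exact lintegral_mul_const _
            (mh.comp measurable_const measurable_id measurable_const)
  · calc ∫⁻ x, G.Q (k s x) (h s x) v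
        ≤ ∫⁻ x : E3, ∫⁻ p : E3 × E3, gs C γ p.1 * h s x p.2 ∂(G.K v) :=
          lintegral_mono fun x => G.Q_mono (fun w => hk s hs x w) (fun _ => le_rfl) v
      _ = ∫⁻ p : E3 × E3, ∫⁻ x : E3, gs C γ p.1 * h s x p.2 ∂volume ∂(G.K v) := by
          refine lintegral_lintegral_swap (Measurable.aemeasurable ?_)
          exact Measurable.mul (by fun_prop)
            (mh.comp measurable_const measurable_fst (by fun_prop))
      _ = G.Q (gs C γ) (xint h s) v := by
          unfold Gain.Q xint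
          refine lintegral_congr fun p => ?_
          exact lintegral_const_mul _
            (mh.comp measurable_const measurable_id measurable_const)

/-- Joint measurability in `(s, v)`. -/
def JM2 (B : ℝ → E3 → ℝ≥0∞) : Prop := Measurable fun p : ℝ × E3 => B p.1 p.2

theorem JM2.comp {B : ℝ → E3 → ℝ≥0∞} (mB : JM2 B) {α : Type*} [MeasurableSpace α]
    {a : α → ℝ} {c : α → E3} (ha : Measurable a) (hc : Measurable c) :
    Measurable fun q => B (a q) (c q) :=
  Measurable.comp (g := fun p : ℝ × E3 => B p.1 p.2) mB (ha.prodMk hc)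

theorem JM2.lin {B : ℝ → E3 → ℝ≥0∞} (mB : JM2 B) (C γ : ℝ) : JM2 (G.lin C γ B) := by
  have m1 : Measurable fun q : ℝ × E3 =>
      G.Q (B q.1) (gs C γ) q.2 + G.Q (gs C γ) (B q.1) q.2 := by
    refine Measurable.add ?_ ?_
    · exact G.measurable_Q (h := fun q : (ℝ × E3) × E3 => B q.1.1 q.2)
        (k := fun q => gs C γ q.2) (w := fun q => q.2) (mB.comp (by fun_prop) (by fun_prop))
        (by fun_prop) measurable_snd
    · exact G.measurable_Q (h := fun q : (ℝ × E3) × E3 => gs C γ q.2)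
        (k := fun q => B q.1.1 q.2) (w := fun q => q.2) (by fun_prop)
        (mB.comp (by fun_prop) (by fun_prop)) measurable_snd
  have m2 : Measurable fun q : (ℝ × E3) × ℝ => (Ioc 0 q.1.1).indicator (fun s =>
      G.Q (B s) (gs C γ) q.1.2 + G.Q (gs C γ) (B s) q.1.2) q.2 := by
    have h2 : (fun q : (ℝ × E3) × ℝ => (Ioc 0 q.1.1).indicator (fun s =>
      G.Q (B s) (gs C γ) q.1.2 + G.Q (gs C γ) (B s) q.1.2) q.2) =
        {q : (ℝ × E3) × ℝ | 0 < q.2 ∧ q.2 ≤ q.1.1}.indicator (fun q =>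
          G.Q (B q.2) (gs C γ) q.1.2 + G.Q (gs C γ) (B q.2) q.1.2) := by
      ext q
      by_cases hq : 0 < q.2 ∧ q.2 ≤ q.1.1
      · rw [indicator_of_mem (show q.2 ∈ Ioc 0 q.1.1 from hq), indicator_of_mem (by exact hq)]
      · rw [indicator_of_notMem (show q.2 ∉ Ioc 0 q.1.1 from hq),
          indicator_of_notMem (by exact hq)]
    rw [h2]
    refine Measurable.indicator ?_ ?_
    · exact m1.comp (g := fun q : ℝ × E3 =>
        G.Q (B q.1) (gs C γ) q.2 + G.Q (gs C γ) (B q.1) q.2)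
        (f := fun q : (ℝ × E3) × ℝ => (q.2, q.1.2)) (by fun_prop)
    · exact (measurableSet_lt measurable_const measurable_snd).inter
        (measurableSet_le measurable_snd (by fun_prop))
  have h3 := Measurable.lintegral_prod_right' (ν := (volume : Measure ℝ)) m2
  unfold JM2 Gain.lin
  simp_rw [lintegral_indicator measurableSet_Ioc] at h3
  exact h3

theorem JM2.lin_add {B B' : ℝ → E3 → ℝ≥0∞} (mB : JM2 B) (mB' : JM2 B') (C γ t : ℝ) (v : E3) :
    G.lin C γ (fun s w => B s w + B' s w) t v = G.lin C γ B t v + G.lin C γ B' t v := by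
  unfold Gain.lin
  have m1 : Measurable fun s => G.Q (B s) (gs C γ) v + G.Q (gs C γ) (B s) v := by
    refine Measurable.add ?_ ?_
    · exact G.measurable_Q (h := fun q : ℝ × E3 => B q.1 q.2)
        (k := fun q => gs C γ q.2) (w := fun _ => v) (mB.comp (by fun_prop) (by fun_prop))
        (by fun_prop) measurable_const
    · exact G.measurable_Q (h := fun q : ℝ × E3 => gs C γ q.2)
        (k := fun q => B q.1 q.2) (w := fun _ => v) (by fun_prop)
        (mB.comp (by fun_prop) (by fun_prop)) measurable_const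
  rw [← lintegral_add_left m1]
  refine lintegral_congr fun s => ?_
  have n1 : Measurable (B s) := mB.comp measurable_const measurable_id
  have n2 : Measurable (B' s) := mB'.comp measurable_const measurable_id
  rw [G.Q_add_left n1 (measurable_gs C γ), G.Q_add_right (measurable_gs C γ) n1]
  ring

theorem JM2.iterate_lin {B : ℝ → E3 → ℝ≥0∞} (mB : JM2 B) (C γ : ℝ) (k : ℕ) :
    JM2 ((G.lin C γ)^[k] B) := by
  induction k with
  | zero => exact mB
  | succ k ih =>
    rw [Function.iterate_succ_apply']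
    exact JM2.lin ih C γ

/-- The `x`-integrated remainders. -/
theorem MildData.IsSol.xint_rem_le (h : D.IsSol G T f) {C γ C₁ b : ℝ} (hC : 0 ≤ C)
    (hT : 0 ≤ T) (hb : 0 < b) (hbγ : b ≤ γ) (hC₁ : 0 ≤ C₁)
    (hf : ∀ t ∈ Icc 0 T, ∀ x v, f t x v ≤ gs C γ v)
    (hm : ∀ t ∈ Icc 0 T, ∀ v, xint f t v ≤ gs C₁ b v) (n : ℕ) {t : ℝ}
    (ht : t ∈ Icc 0 T) (v : E3) :
    xint (D.rem G f n) t v ≤ gs (C₁ * G.coef C b T n) (b / 2) v := by
  have key : ∀ d : ℕ, ∀ s ∈ Icc 0 T, ∀ w,
      xint (D.rem G f d) s w ≤ (G.lin C γ)^[d] (fun _ => gs C₁ b) s w := by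
    intro d
    induction d with
    | zero =>
      intro s hs w
      simp only [Function.iterate_zero, id_eq]
      exact (lintegral_mono fun x => tsub_le_self).trans (hm s hs w)
    | succ d ih =>
      intro s hs w
      have hs' : ∀ u ∈ Ioc 0 s, u ∈ Icc 0 T := fun u hu => ⟨hu.1.le, hu.2.trans hs.2⟩
      calc xint (D.rem G f (d + 1)) s w
          ≤ ∫⁻ x, ∫⁻ u in Ioc 0 s, (G.Q (D.rem G f d u (x - (s - u) • w))
              (f u (x - (s - u) • w)) w + G.Q (f u (x - (s - u) • w))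
              (D.rem G f d u (x - (s - u) • w)) w) :=
            lintegral_mono fun x => h.rem_succ_le D d hs x w
        _ ≤ G.lin C γ (xint (D.rem G f d)) s w :=
            xint_duh_le (h.jm_rem D d) h.jm (fun u hu x z => hf u (hs' u hu) x z) w
        _ ≤ _ := by
            rw [Function.iterate_succ_apply']
            exact G.lin_mono (fun u hu z => ih u (hs' u hu) z) w
  refine (key n t ht v).trans ?_
  exact G.lin_iterate_le hC hC₁ hb hbγ hT (fun s _ v => le_rfl) n ht v

theorem gs_sum {a : ℕ → ℝ} (ha : ∀ n, 0 ≤ a n) (b : ℝ) (v : E3) (d : ℕ) :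
    ∑ k ∈ Finset.range d, gs (a k) b v = gs (∑ k ∈ Finset.range d, a k) b v := by
  unfold gs
  rw [← ENNReal.ofReal_sum_of_nonneg fun k _ => mul_nonneg (ha k) (Real.exp_pos _).le,
    Finset.sum_mul]

/-- Mass bound of the iterates. -/
theorem MildData.xint_pic_le {C γ C₀ b : ℝ} (hC : 0 ≤ C)
    (hT : 0 ≤ T) (hb : 0 < b) (hbγ : b ≤ γ) (hC₀ : 0 ≤ C₀)
    (hp : ∀ d, ∀ t ∈ Icc 0 T, ∀ x v, D.pic G d t x v ≤ gs C γ v)
    (hm : ∀ t ∈ Icc 0 T, ∀ v, xint D.g₀ t v ≤ gs C₀ b v) (d : ℕ) {t : ℝ}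
    (ht : t ∈ Icc 0 T) (v : E3) :
    xint (D.pic G d) t v ≤ gs (C₀ * ∑' n, G.coef C b T n) (b / 2) v := by
  have key : ∀ d : ℕ, ∀ s ∈ Icc 0 T, ∀ w, xint (D.pic G d) s w ≤
      ∑ k ∈ Finset.range d, (G.lin C γ)^[k] (fun _ => gs C₀ b) s w := by
    intro d
    induction d with
    | zero =>
      intro s hs w
      simp [xint, MildData.pic]
    | succ d ih =>
      intro s hs w
      have hs' : ∀ u ∈ Ioc 0 s, u ∈ Icc 0 T := fun u hu => ⟨hu.1.le, hu.2.trans hs.2⟩
      have h1 : xint (D.pic G (d + 1)) s w ≤ xint D.g₀ s w + G.lin C γ (xint (D.pic G d)) s w := by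
        unfold xint
        simp only [MildData.pic]
        have mg0 : Measurable fun x => D.g₀ s x w := JM.comp (h := D.g₀) D.mg
          (a := fun _ : E3 => s) (b := fun x => x) (c := fun _ => w)
          measurable_const measurable_id measurable_const
        rw [lintegral_add_left mg0]
        refine add_le_add le_rfl ?_
        refine le_trans (lintegral_mono fun x => ?_)
          (xint_duh_le (G := G) (C := C) (γ := γ) (t := s) (D.jm_pic d) (D.jm_pic d)
            (fun u hu x z => hp d u (hs' u hu) x z) w)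
        refine setLIntegral_mono' measurableSet_Ioc fun u hu => ?_
        calc D.S u s x w * G.Q (D.pic G d u (x - (s - u) • w)) (D.pic G d u (x - (s - u) • w)) w
            ≤ 1 * G.Q (D.pic G d u (x - (s - u) • w)) (D.pic G d u (x - (s - u) • w)) w :=
              mul_le_mul_left (D.S_le _ _ _ _) _
          _ ≤ _ := by rw [one_mul]; exact le_self_add
      refine h1.trans ?_
      rw [Finset.sum_range_succ']
      simp only [Function.iterate_zero, id_eq]
      rw [add_comm]
      refine add_le_add ?_ (hm s hs w)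
      refine (G.lin_mono (fun u hu z => ih u (hs' u hu) z) w).trans ?_
      -- additivity of `lin`
      have mB : JM2 (fun _ : ℝ => gs C₀ b) := (measurable_gs C₀ b).comp measurable_snd
      have hadd : ∀ e : ℕ, G.lin C γ (fun u z =>
          ∑ k ∈ Finset.range e, (G.lin C γ)^[k] (fun _ => gs C₀ b) u z) s w =
          ∑ k ∈ Finset.range e, (G.lin C γ)^[k + 1] (fun _ => gs C₀ b) s w := by
        intro e
        induction e with
        | zero => simp [Gain.lin, Gain.Q]
        | succ e ihe =>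
          simp_rw [Finset.sum_range_succ]
          rw [JM2.lin_add, ihe, Function.iterate_succ_apply']
          · exact Finset.measurable_sum _ fun k _ => JM2.iterate_lin (G := G) mB C γ k
          · exact JM2.iterate_lin mB C γ e
      exact (hadd d).le
  refine (key d t ht v).trans ?_
  calc ∑ k ∈ Finset.range d, (G.lin C γ)^[k] (fun _ => gs C₀ b) t v
      ≤ ∑ k ∈ Finset.range d, gs (C₀ * G.coef C b T k) (b / 2) v :=
        Finset.sum_le_sum fun k _ =>
          G.lin_iterate_le hC hC₀ hb hbγ hT (fun s _ v => le_rfl) k ht v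
    _ = gs (∑ k ∈ Finset.range d, C₀ * G.coef C b T k) (b / 2) v :=
        gs_sum (fun n => mul_nonneg hC₀ (G.coef_nonneg hC hT n)) _ _ _
    _ ≤ _ := by
        refine gs_mono (Finset.sum_nonneg fun n _ => mul_nonneg hC₀ (G.coef_nonneg hC hT n))
          ?_ le_rfl v
        rw [← Finset.mul_sum]
        exact mul_le_mul_of_nonneg_left ((G.coef_summable hC hb hT).sum_le_tsum _
          fun n _ => G.coef_nonneg hC hT n) hC₀

/-- Mass bound of the solution. -/
theorem MildData.IsSol.xint_le (h : D.IsSol G T f) {C γ C₀ b : ℝ} (hC : 0 ≤ C)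
    (hT : 0 ≤ T) (hb : 0 < b) (hbγ : b ≤ γ) (hC₀ : 0 ≤ C₀)
    (hf : ∀ t ∈ Icc 0 T, ∀ x v, f t x v ≤ gs C γ v)
    (hm : ∀ t ∈ Icc 0 T, ∀ v, xint D.g₀ t v ≤ gs C₀ b v) {t : ℝ}
    (ht : t ∈ Icc 0 T) (v : E3) :
    xint f t v ≤ gs (C₀ * ∑' n, G.coef C b T n) (b / 2) v := by
  unfold xint
  have h1 : ∀ x, f t x v = ⨆ n, D.pic G n t x v := fun x =>
    (h.iSup_pic D hC (hb.trans_le hbγ) hT hf ht x v).symm
  simp_rw [h1]
  rw [lintegral_iSup (fun n => JM.comp (D.jm_pic n) (a := fun _ : E3 => t) (b := fun x => x)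
    (c := fun _ => v) measurable_const measurable_id measurable_const)
    (fun m n hmn x => D.pic_mono' hmn t x v)]
  exact iSup_le fun n => D.xint_pic_le (G := G) hC hT hb hbγ hC₀
    (fun d s hs x w => (h.pic_le D d hs x w).trans (hf s hs x w)) hm n ht v

end Vale.Agent.P119.KE
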