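import Vale.Agent.P119.KE.Par

/-! Main statement about the gas truncated by depth at the kinetic level. -/

open MeasureTheory Filter Topology Set ProbabilityTheory
open scoped ENNReal NNReal

noncomputable section

namespace Vale.Agent.P119.KE

variable {G : Coll}

theorem depth_consts {B B' r s r' s' : ℝ} (hB : 1 ≤ B) (hB' : 1 ≤ B') (hr : 0 ≤ r) (hs : 0 ≤ s)
    (hr' : 0 ≤ r') (hs' : 0 ≤ s') :
    B * r ≤ 2 * (B * B') * (r + s + (r' + s')) ∧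
    B * r + r' + B * r ≤ 2 * (B * B') * (r + s + (r' + s')) ∧
    s + B' * (B * r) ≤ 2 * (B * B') * (r + s + (r' + s')) ∧
    B' * (B * r) ≤ 2 * (B * B') * (r + s + (r' + s')) ∧
    B' * (B * r) + (s' + B' * (B * r)) ≤ 2 * (B * B') * (r + s + (r' + s')) := by
  have hBB : 1 ≤ B * B' := by nlinarith
  have h1 : B * r ≤ B * B' * r := by
    have : 0 ≤ B * r := by positivity
    nlinarith
  have h2 : ∀ a : ℝ, 0 ≤ a → a ≤ B * B' * a := fun a ha => by nlinarith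
  have e1 := h2 s hs
  have e2 := h2 s' hs'
  have e3 := h2 r' hr'
  have e4 := h2 r hr
  have e5 : B' * (B * r) = B * B' * r := by ring
  have e6 : 2 * (B * B') * (r + s + (r' + s')) =
      2 * (B * B' * r) + 2 * (B * B' * s) + 2 * (B * B' * r') + 2 * (B * B' * s') := by ring
  rw [e5, e6]
  refine ⟨?_, ?_, ?_, ?_, ?_⟩ <;> linarith

/-- The error at depth `n`. -/
def errSeq (B B' : ℝ) (ρ σ : ℕ → ℝ) (n : ℕ) : ℝ :=
  2 * (B * B') * (ρ n + σ n + (ρ (n - 1) + σ (n - 1)))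

theorem errSeq_nonneg {B B' : ℝ} (hB : 1 ≤ B) (hB' : 1 ≤ B') {ρ σ : ℕ → ℝ} (hρ : ∀ n, 0 ≤ ρ n)
    (hσ : ∀ n, 0 ≤ σ n) (n : ℕ) : 0 ≤ errSeq B B' ρ σ n := by
  unfold errSeq
  have := hρ n; have := hσ n; have := hρ (n - 1); have := hσ (n - 1)
  positivity

theorem errSeq_tendsto (B B' : ℝ) {ρ σ : ℕ → ℝ}
    (hρ : ∀ A : ℝ, 0 ≤ A → Tendsto (fun n => A ^ n * ρ n) atTop (𝓝 0))
    (hσ : ∀ A : ℝ, 0 ≤ A → Tendsto (fun n => A ^ n * σ n) atTop (𝓝 0)) (A : ℝ) (hA : 0 ≤ A) :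
    Tendsto (fun n => A ^ n * errSeq B B' ρ σ n) atTop (𝓝 0) := by
  have h1 := (((hρ A hA).add (hσ A hA)).add
    ((pow_mul_pred_tendsto hρ hA).add (pow_mul_pred_tendsto hσ hA))).const_mul (2 * (B * B'))
  simp only [add_zero, mul_zero] at h1
  refine h1.congr fun n => ?_
  unfold errSeq
  ring

/-- **The density of the gas truncated at depth `L`.** -/
theorem depth_gas {T C γ C₀ : ℝ} (hT : 0 ≤ T) (hγ : 0 < γ) (hC : 0 ≤ C) (hC₀ : 0 ≤ C₀)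
    {f₀ : E3 → E3 → ℝ≥0∞} {m₀ : Measurable fun p : E3 × E3 => f₀ p.1 p.2}
    {f : ℝ → E3 → E3 → ℝ≥0∞} (hf : G.Mild f₀ m₀ T f)
    (hfC : ∀ t ∈ Icc 0 T, ∀ x v, f t x v ≤ gs C γ v) (hf0 : ∀ x v, f₀ x v ≤ gs C γ v)
    (hm : ∀ v, ∫⁻ x, f₀ x v ≤ gs C₀ γ v) :
    ∃ (M b : ℝ) (e : ℕ → ℝ), 0 ≤ M ∧ 0 < b ∧ (∀ n, 0 ≤ e n) ∧
      (∀ A : ℝ, 0 ≤ A → Tendsto (fun n => A ^ n * e n) atTop (𝓝 0)) ∧
      ∀ᶠ L in atTop, ∃ u : Dn,
        (∀ s ∈ Icc 0 T, ∀ x v, G.Psi f₀ m₀ L u.1 u.2 s x v = u.1 s x v) ∧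
        (∀ d, ∀ s ∈ Icc 0 T, ∀ x v, G.Psi f₀ m₀ d u.1 u.2 s x v ≤ gs M b v) ∧
        (∀ d, ∀ s ∈ Icc 0 T, ∀ v, xint (G.Psi f₀ m₀ d u.1 u.2) s v ≤ gs M b v) ∧
        (∀ s ∈ Icc 0 T, ∀ x v, f s x v ≤ u.1 s x v + gs (e L) b v ∧
          u.1 s x v ≤ f s x v + gs (e L) b v ∧
          u.1 s x v ≤ G.Psi f₀ m₀ (L - 1) u.1 u.2 s x v + gs (e L) b v) ∧
        (∀ s ∈ Icc 0 T, ∀ v, xint (pd f u.1) s v ≤ gs (e L) b v ∧
          xint (pd u.1 f) s v ≤ gs (e L) b v ∧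
          xint (pd u.1 (G.Psi f₀ m₀ (L - 1) u.1 u.2)) s v ≤ gs (e L) b v) := by
  obtain ⟨mf, hsol⟩ := hf
  obtain ⟨B, hB, hev⟩ := sup_part (G := G) (m₀ := m₀) hT hγ hC mf hsol hfC hf0
  obtain ⟨C₁, hC₁⟩ : ∃ C₁, C₁ = C₀ * ∑' n, G.coef (C + 1) (γ / 4) T n := ⟨_, rfl⟩
  have hC₁0 : 0 ≤ C₁ :=
    hC₁ ▸ mul_nonneg hC₀ (tsum_nonneg fun n => G.coef_nonneg (by positivity) hT n)
  obtain ⟨M, hM⟩ : ∃ M, M = C + 1 + C₁ := ⟨_, rfl⟩
  have hM0 : 0 ≤ M := by rw [hM]; positivity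
  obtain ⟨B', hB', hl1⟩ := l1_part G (m₀ := m₀) hT hγ hC₀ hM0 hm
  obtain ⟨C₂, hC₂⟩ : ∃ C₂, C₂ = C₀ * ∑' n, G.coef C γ T n := ⟨_, rfl⟩
  have hC₂0 : 0 ≤ C₂ := hC₂ ▸ mul_nonneg hC₀ (tsum_nonneg fun n => G.coef_nonneg hC hT n)
  obtain ⟨ρ, hρ⟩ : ∃ ρ : ℕ → ℝ, ∀ n, ρ n = C * G.coef C γ T n := ⟨_, fun _ => rfl⟩
  obtain ⟨σ, hσ⟩ : ∃ σ : ℕ → ℝ, ∀ n, σ n = C₂ * G.coef C (γ / 2) T n := ⟨_, fun _ => rfl⟩
  have hρ0 : ∀ n, 0 ≤ ρ n := fun n => hρ n ▸ mul_nonneg hC (G.coef_nonneg hC hT n)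
  have hσ0 : ∀ n, 0 ≤ σ n := fun n => hσ n ▸ mul_nonneg hC₂0 (G.coef_nonneg hC hT n)
  have hρt : ∀ A : ℝ, 0 ≤ A → Tendsto (fun n => A ^ n * ρ n) atTop (𝓝 0) := fun A hA => by
    have h1 := (G.coef_tendsto hC hγ hT A hA).const_mul C
    rw [mul_zero] at h1
    refine h1.congr fun n => ?_
    rw [hρ]
    ring
  have hσt : ∀ A : ℝ, 0 ≤ A → Tendsto (fun n => A ^ n * σ n) atTop (𝓝 0) := fun A hA => by
    have h1 := (G.coef_tendsto (b := γ / 2) hC (by positivity) hT A hA).const_mul C₂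
    rw [mul_zero] at h1
    refine h1.congr fun n => ?_
    rw [hσ]
    ring
  refine ⟨M, γ / 16, errSeq B B' ρ σ, hM0, by positivity, errSeq_nonneg hB hB' hρ0 hσ0,
    errSeq_tendsto B B' hρt hσt, ?_⟩
  filter_upwards [hev] with L hL
  obtain ⟨u, hfix, hbd, hcl, hcld⟩ := hL
  rw [← hρ] at hcl hcld
  obtain ⟨E, hE⟩ : ∃ E, E = errSeq B B' ρ σ L := ⟨_, rfl⟩
  obtain ⟨k1, k3, k2, k2', k4⟩ := depth_consts hB hB' (hρ0 L) (hσ0 L) (hρ0 (L - 1))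
    (hσ0 (L - 1))
  change _ ≤ errSeq B B' ρ σ L at k1 k2 k2' k3 k4
  rw [← hE] at k1 k2 k2' k3 k4 ⊢
  have r0 := hρ0 L
  have r1 := hρ0 (L - 1)
  have s0 := hσ0 L
  have s1 := hσ0 (L - 1)
  have hB0 : 0 ≤ B := by linarith
  have hB0' : 0 ≤ B' := by linarith
  have hFle : ∀ d, ∀ s ∈ Icc 0 T, ∀ x v, G.Psi f₀ m₀ d f mf s x v ≤ f s x v :=
    fun d s hs x v => hsol.pic_le _ d hs x v
  have hsupf : ∀ d, ∀ s ∈ Icc 0 T, ∀ x v, G.Psi f₀ m₀ d f mf s x v ≤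
      gs (C + 1) (γ / 4) v := fun d s hs x v =>
    ((hFle d s hs x v).trans (hfC s hs x v)).trans
      (gs_mono hC (by linarith) (by linarith) v)
  have hmu := mass_part G (m₀ := m₀) hT hγ hC₀ (by positivity) hm u hbd
  have hmf := mass_part G (m₀ := m₀) hT hγ hC₀ (by positivity) hm ⟨f, mf⟩ hsupf
  rw [← hC₁] at hmu hmf
  have to1 : ∀ v, gs (C + 1) (γ / 4) v ≤ gs M (γ / 8) v := fun v =>
    gs_mono (by positivity) (by linarith) (by linarith) v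
  have to2 : ∀ v, gs C₁ (γ / 8) v ≤ gs M (γ / 8) v := fun v =>
    gs_mono hC₁0 (by linarith) le_rfl v
  have to3 : ∀ v, gs M (γ / 8) v ≤ gs M (γ / 16) v := fun v =>
    gs_mono hM0 le_rfl (by linarith) v
  have huf := hl1 u ⟨f, mf⟩ (B * ρ L) (by positivity)
    (fun s hs x v => ⟨(hcl s hs x v).2, (hcl s hs x v).1⟩)
    (fun d s hs x v => (hbd d s hs x v).trans (to1 v))
    (fun d s hs x v => (hsupf d s hs x v).trans (to1 v))
    (fun d s hs v => (hmu d s hs v).trans (to2 v))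
  have hfu := hl1 ⟨f, mf⟩ u (B * ρ L) (by positivity) hcl
    (fun d s hs x v => (hsupf d s hs x v).trans (to1 v))
    (fun d s hs x v => (hbd d s hs x v).trans (to1 v))
    (fun d s hs v => (hmf d s hs v).trans (to2 v))
  have hxf : ∀ t ∈ Icc 0 T, ∀ v, xint f t v ≤ gs C₂ (γ / 2) v := fun t ht v => by
    rw [hC₂]
    exact hsol.xint_le _ (b := γ) hC hT hγ le_rfl hC₀ hfC
      (fun t _ v => xint_data_le hm ⟨f, mf⟩ t v) ht v
  have hxrem : ∀ n, ∀ t ∈ Icc 0 T, ∀ v,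
      xint (pd f (G.Psi f₀ m₀ n f mf)) t v ≤ gs (σ n) (γ / 16) v := by
    intro n t ht v
    have h1 := hsol.xint_rem_le _ (b := γ / 2) hC hT (by positivity) (by linarith) hC₂0 hfC hxf n
      ht v
    rw [← hσ] at h1
    exact h1.trans (gs_mono (hσ0 n) le_rfl (by linarith) v)
  have hcomp : ∀ s ∈ Icc 0 T, ∀ v, xint (pd u.1 f) s v ≤ gs (B' * (B * ρ L)) (γ / 16) v := by
    intro s hs v
    have e1 : xint (pd u.1 f) s v ≤
        xint (pd (G.Psi f₀ m₀ L u.1 u.2) (G.Psi f₀ m₀ L f mf)) s v := by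
      refine lintegral_mono fun x => ?_
      unfold pd
      rw [hfix s hs x v]
      exact tsub_le_tsub_left (hFle L s hs x v) _
    exact e1.trans (huf L s hs v)
  refine ⟨u, hfix, fun d s hs x v => (hbd d s hs x v).trans ((to1 v).trans (to3 v)),
    fun d s hs v => (hmu d s hs v).trans ((to2 v).trans (to3 v)),
    fun s hs x v => ⟨?_, ?_, ?_⟩, fun s hs v => ⟨?_, ?_, ?_⟩⟩
  · exact (hcl s hs x v).1.trans (add_le_add le_rfl (gs_mono (by positivity) k1 (by linarith) v))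
  · exact (hcl s hs x v).2.trans (add_le_add le_rfl (gs_mono (by positivity) k1 (by linarith) v))
  · have i1 := (hcl s hs x v).2
    have i2 : f s x v ≤ G.Psi f₀ m₀ (L - 1) f mf s x v + gs (ρ (L - 1)) (γ / 16) v := by
      have h1 := hsol.pic_add_rem _ (L - 1) hs x v
      have h2 := hsol.rem_le _ hC hγ hT hfC (L - 1) hs x v
      rw [← hρ] at h2
      rw [← h1]
      exact add_le_add le_rfl (h2.trans (gs_mono r1 le_rfl (by linarith) v))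
    have i3 := (hcld (L - 1) s hs x v).1
    have i4 : gs (B * ρ L) (γ / 4) v ≤ gs (B * ρ L) (γ / 16) v :=
      gs_mono (by positivity) le_rfl (by linarith) v
    calc u.1 s x v ≤ f s x v + gs (B * ρ L) (γ / 16) v := i1.trans (add_le_add le_rfl i4)
      _ ≤ ((G.Psi f₀ m₀ (L - 1) u.1 u.2 s x v + gs (B * ρ L) (γ / 16) v) +
          gs (ρ (L - 1)) (γ / 16) v) + gs (B * ρ L) (γ / 16) v :=
          add_le_add (i2.trans (add_le_add (i3.trans (add_le_add le_rfl i4)) le_rfl)) le_rfl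
      _ = G.Psi f₀ m₀ (L - 1) u.1 u.2 s x v + (gs (B * ρ L) (γ / 16) v +
          gs (ρ (L - 1)) (γ / 16) v + gs (B * ρ L) (γ / 16) v) := by ring
      _ ≤ _ := by
          refine add_le_add le_rfl ?_
          rw [gs_add (by positivity) r1, gs_add (by positivity) (by positivity)]
          exact gs_mono (by positivity) k3 le_rfl v
  · have e1 : xint (pd f u.1) s v = xint (pd f (G.Psi f₀ m₀ L u.1 u.2)) s v := by
      refine lintegral_congr fun x => ?_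
      unfold pd
      rw [hfix s hs x v]
    rw [e1]
    refine (xint_pd_le_add (h := f) (k := G.Psi f₀ m₀ L f mf)
      (j := G.Psi f₀ m₀ L u.1 u.2) mf (Coll.jm_Psi L mf) s v).trans ?_
    refine (add_le_add (hxrem L s hs v) (hfu L s hs v)).trans ?_
    rw [gs_add s0 (by positivity)]
    exact gs_mono (by positivity) k2 le_rfl v
  · exact (hcomp s hs v).trans (gs_mono (by positivity) k2' le_rfl v)
  · have i1 := xint_pd_le_add (j := G.Psi f₀ m₀ (L - 1) u.1 u.2) u.2 mf s v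
    have i2 := xint_pd_le_add (h := f) (k := G.Psi f₀ m₀ (L - 1) f mf)
      (j := G.Psi f₀ m₀ (L - 1) u.1 u.2) mf (Coll.jm_Psi (L - 1) mf) s v
    refine i1.trans ((add_le_add (hcomp s hs v) (i2.trans (add_le_add (hxrem (L - 1) s hs v)
      (hfu (L - 1) s hs v)))).trans ?_)
    rw [gs_add s1 (by positivity), gs_add (by positivity) (by positivity)]
    exact gs_mono (by positivity) k4 le_rfl v

end Vale.Agent.P119.KE
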