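import Vale.Agent.P119.KE.Datum
import Vale.Agent.P119.KT.Tree
import Vale.Agent.P119.KU.Scat7

/-! The gain term in the backward parameters of the tree measure. -/

open MeasureTheory Filter Topology Set ProbabilityTheory
open scoped ENNReal NNReal RealInnerProductSpace

noncomputable section

namespace Vale.Agent.P119.KE

open Vale.Agent.P119.KU Vale.Agent.P119.KT

variable {Φ : E3 → ℝ}

theorem fr_sub_eq_free (V : E3) (b : E2) (s : ℝ) :
    ((fr V b - s • V, V) : Ph) = KU.free (-s) (fr V b, V) := by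
  unfold KU.free
  ext1
  · simp [sub_eq_add_neg]
  · rfl

/-- Frames and the kernel of impact vectors. -/
theorem lintegral_fr {V : E3} (hV : V ≠ 0) {F : E3 → ℝ≥0∞} (hF : Measurable F) :
    ∫⁻ b in {b : E2 | ‖b‖ < 1}, F (fr V b) = ∫⁻ ρ, F ρ ∂(kappa V) := by
  have hball : MeasurableSet {b : E2 | ‖b‖ < 1} := measurableSet_lt (by fun_prop) (by fun_prop)
  have h1 := lintegral_kappa V hF
  have hm : Measurable (fun x : E3 => (cylAt V).indicator (fun x => F (perp (x, V))) x) :=
    (hF.comp (measurable_perp_left V)).indicator (measurableSet_cylAt V)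
  rw [← lintegral_indicator (measurableSet_cylAt V), lintegral_frame hV hm] at h1
  have h2 := (ENNReal.mul_right_inj (by simpa using hV) enorm_ne_top).1 h1
  rw [h2]
  have h3 : ∀ s : ℝ, ∫⁻ b : E2, (cylAt V).indicator (fun x => F (perp (x, V))) (fr V b - s • V) =
      (Ioc (-1 : ℝ) 0).indicator (fun _ => ∫⁻ b in {b : E2 | ‖b‖ < 1}, F (fr V b)) s := by
    intro s
    have hcrd : ∀ b : E2, crd ((fr V b - s • V, V) : Ph) = -s := fun b => by
      rw [fr_sub_eq_free, crd_free hV, crd_of_inner (inner_fr b), zero_add]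
    have hperp : ∀ b : E2, perp ((fr V b - s • V, V) : Ph) = fr V b := fun b => by
      rw [fr_sub_eq_free, perp_free, perp_of_inner (inner_fr b)]
    have hiff : ∀ b : E2, fr V b - s • V ∈ cylAt V ↔ s ∈ Ioc (-1 : ℝ) 0 ∧ ‖b‖ < 1 := by
      intro b
      simp only [cylAt, cyl, mem_preimage, mem_ofPred_eq, hcrd, hperp, norm_fr]
      constructor
      · rintro ⟨_, h1, h2, h3⟩
        exact ⟨⟨by linarith, by linarith⟩, h3⟩
      · rintro ⟨⟨h1, h2⟩, h3⟩
        exact ⟨hV, by linarith, by linarith, h3⟩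
    by_cases hs : s ∈ Ioc (-1 : ℝ) 0
    · rw [indicator_of_mem hs, ← lintegral_indicator hball]
      refine lintegral_congr fun b => ?_
      by_cases hb : ‖b‖ < 1
      · rw [indicator_of_mem ((hiff b).2 ⟨hs, hb⟩), indicator_of_mem (by exact hb), hperp]
      · rw [indicator_of_notMem (fun h => hb ((hiff b).1 h).2),
          indicator_of_notMem (by exact hb)]
    · rw [indicator_of_notMem hs]
      have : ∀ b : E2, (cylAt V).indicator (fun x => F (perp (x, V))) (fr V b - s • V) = 0 :=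
        fun b => indicator_of_notMem (fun h => hs ((hiff b).1 h).1) _
      simp [this]
  simp_rw [h3]
  rw [lintegral_indicator measurableSet_Ioc, setLIntegral_const, Real.volume_Ioc]
  simp

/-- The incoming relative velocity at a node. -/
theorem inRel_snd (hΦ : IsPotential Φ) (v : E3) (q : ND) (h : v - q.2.1 ≠ 0) :
    (inRel Φ v q).2 = outVel Φ (v - q.2.1) (-fr (v - q.2.1) q.2.2) := by
  obtain ⟨V, hV⟩ : ∃ V, V = v - q.2.1 := ⟨_, rfl⟩
  have h1 : outRel v q = (fr V q.2.2, V) := by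
    ext1
    · rw [outRel_fst, hV]
    · rw [outRel_snd, hV]
  rw [inRel_def, h1, ← hV]
  rw [← hV] at h
  have h2 : scatI Φ (fr V q.2.2, V) = rev (scat Φ (fr V q.2.2, -V)) := rfl
  rw [h2]
  have h3 : (rev (scat Φ (fr V q.2.2, -V))).2 = -(scat Φ (fr V q.2.2, -V)).2 := rfl
  rw [h3, ← outVel_eq hΦ _ (neg_ne_zero.2 h)]
  have h4 := outVel_map hΦ parity h (-fr V q.2.2)
  rw [parity_apply, parity_apply, parity_apply, neg_neg] at h4
  rw [h4, neg_neg]

theorem inVel_eq (hΦ : IsPotential Φ) (v : E3) (q : ND) (h : v - q.2.1 ≠ 0) :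
    inVel Φ v q = (postV Φ v q.2.1 (-fr (v - q.2.1) q.2.2),
      postW Φ v q.2.1 (-fr (v - q.2.1) q.2.2)) := by
  rw [inVel_def, inRel_snd hΦ v q h, outRel_snd]
  unfold postV postW
  ext1
  · simp only
    module
  · simp only
    module

theorem measurable_fr_right (V : E3) : Measurable fun b : E2 => fr V b := by
  have h1 : Measurable fun b : E2 => ((V, b) : E3 × E2) := measurable_prodMk_left
  have h2 := measurable_fr.comp h1
  exact h2

theorem map_fr {V : E3} (hV : V ≠ 0) :
    ((volume : Measure E2).restrict {b | ‖b‖ < 1}).map (fr V) = kappa V := by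
  refine Measure.ext_of_lintegral _ fun F hF => ?_
  rw [lintegral_map hF (measurable_fr_right V)]
  exact lintegral_fr hV hF

theorem ae_frame {V : E3} (hV : V ≠ 0) {P : E3 → Prop} (h : ∀ᵐ ρ ∂(kappa V), P ρ) :
    ∀ᵐ b ∂((volume : Measure E2).restrict {b | ‖b‖ < 1}), P (fr V b) := by
  rw [← map_fr hV] at h
  exact ae_of_ae_map (measurable_fr_right V).aemeasurable h

theorem ae_sub_ne (v : E3) : ∀ᵐ w : E3, v - w ≠ 0 := by
  have : ∀ᵐ w : E3, w ≠ v := by
    rw [ae_iff]
    simp
  filter_upwards [this] with w hw h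
  exact hw (sub_eq_zero.1 h).symm

theorem ae_exits_frame (hΦ : IsPotential Φ) (v : E3) :
    ∀ᵐ w : E3, v - w ≠ 0 ∧ ∀ᵐ b ∂((volume : Measure E2).restrict {b | ‖b‖ < 1}),
      Exits Φ (fr (v - w) b, -(v - w)) := by
  have h2 : ∀ᵐ w : E3, ∀ᵐ ρ ∂(kappa (w - v)), Exits Φ (ρ, w - v) :=
    (measurePreserving_sub_right (volume : Measure E3) v).quasiMeasurePreserving.ae
      (ae_exits_kappa hΦ)
  filter_upwards [h2, ae_sub_ne v] with w hw hw0
  refine ⟨hw0, ?_⟩
  have e : kappa (w - v) = kappa (v - w) := by rw [← kappa_neg (w - v), neg_sub]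
  rw [e] at hw
  have h3 := ae_frame hw0 hw
  rw [neg_sub]
  exact h3

/-- The gain term through the kernel of impact vectors. -/
theorem gainOf_Q_kappa (hΦ : IsPotential Φ) {h k : E3 → ℝ≥0∞} (mh : Measurable h)
    (mk : Measurable k) (v : E3) : (K1.gainOf hΦ).Q h k v =
      ∫⁻ w, ‖v - w‖ₑ * ∫⁻ ρ, h (postV Φ v w ρ) * k (postW Φ v w ρ) ∂(kappa (v - w)) := by
  rw [K1.gainOf_Q hΦ mh mk]
  refine lintegral_congr fun w => ?_
  rw [lintegral_const_mul' _ _ enorm_ne_top]
  by_cases hw : v - w = 0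
  · rw [hw, enorm_zero, zero_mul, zero_mul]
  congr 1
  have e : (kappa (v - w)) = (μHE[2] : Measure E3).restrict (K1.disc (v - w)) :=
    kappa_eq_hausdorff hw
  rw [e, K1.lintegral_disc hw]
  refine lintegral_congr fun ξ => ?_
  unfold postV postW K1.post
  simp only
  rw [K1.relOut_eq hΦ hw]

theorem measurable_post_prod (hΦ : IsPotential Φ) {h k : E3 → ℝ≥0∞} (mh : Measurable h)
    (mk : Measurable k) (v w : E3) :
    Measurable fun ρ => h (postV Φ v w ρ) * k (postW Φ v w ρ) := by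
  have m0 : Measurable fun ρ : E3 => outVel Φ (v - w) ρ :=
    (measurable_outVel hΦ).comp measurable_prodMk_left
  have m1 : Measurable fun ρ => postV Φ v w ρ := by
    unfold postV
    fun_prop
  have m2 : Measurable fun ρ => postW Φ v w ρ := by
    unfold postW
    fun_prop
  exact (mh.comp m1).mul (mk.comp m2)

/-- **The gain term in backward parameters.** -/
theorem lintegral_node_Q (hΦ : IsPotential Φ) {h k : E3 → ℝ≥0∞} (mh : Measurable h)
    (mk : Measurable k) (v : E3) (s : ℝ) :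
    ∫⁻ w, ∫⁻ b in {b : E2 | ‖b‖ < 1}, nw Φ v (s, w, b) *
      (h (inVel Φ v (s, w, b)).1 * k (inVel Φ v (s, w, b)).2) = (K1.gainOf hΦ).Q h k v := by
  have hball : MeasurableSet {b : E2 | ‖b‖ < 1} := measurableSet_lt (by fun_prop) (by fun_prop)
  rw [gainOf_Q_kappa hΦ mh mk]
  refine lintegral_congr_ae ?_
  filter_upwards [ae_exits_frame hΦ v] with w hw
  obtain ⟨hw0, hex⟩ := hw
  have mF := measurable_post_prod hΦ mh mk v w
  have h1 : ∫⁻ b in {b : E2 | ‖b‖ < 1}, nw Φ v (s, w, b) *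
      (h (inVel Φ v (s, w, b)).1 * k (inVel Φ v (s, w, b)).2) =
      ∫⁻ b in {b : E2 | ‖b‖ < 1}, ‖v - w‖ₑ * (h (postV Φ v w (-fr (v - w) b)) *
        k (postW Φ v w (-fr (v - w) b))) := by
    refine lintegral_congr_ae ?_
    filter_upwards [hex, ae_restrict_mem hball] with b hb hb1
    have hg : ((s, w, b) : ND) ∈ gn Φ v := by
      refine ⟨hw0, hb1, ?_⟩
      have e : rev (outRel v (s, w, b)) = (fr (v - w) b, -(v - w)) := by
        have e1 : outRel v (s, w, b) = (fr (v - w) b, v - w) := by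
          ext1
          · rw [outRel_fst]
          · rw [outRel_snd]
        rw [e1]
        rfl
      rw [e]
      exact hb
    rw [nw_of_mem hg, inVel_eq hΦ v (s, w, b) hw0]
  rw [h1, lintegral_const_mul' _ _ enorm_ne_top]
  congr 1
  have mN : Measurable fun ρ : E3 => h (postV Φ v w (-ρ)) * k (postW Φ v w (-ρ)) :=
    mF.comp measurable_neg
  rw [lintegral_fr hw0 mN, lintegral_kappa_neg (v - w) mF]

end Vale.Agent.P119.KE
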