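import Vale.Agent.P119.KE.Order

/-! The closed system with a bound of the three unknowns (contaminated, touch, felt). -/

open MeasureTheory Filter Topology Set
open scoped ENNReal NNReal

noncomputable section

namespace Vale.Agent.P119.KE

/-- **The closed system of the feedback block**, with a bound of the three unknowns. `D` contaminated density, `Θ` touch probability
of a fresh line, `F` felt density; the index is the stopping level. All constants `C` must be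
uniform in the truncation, only `κ` and `c` may depend on it. -/
theorem closed_system_all {T C κ c M : ℝ} (hC : 0 ≤ C) (hκ : 0 ≤ κ) (hc : 0 ≤ c) (hM : 0 ≤ M)
    (hκC : κ * (96 * (C + 1)) ≤ 1) {D Θ F : ℕ → ℝ → ℝ≥0∞} {n : ℕ}
    (hΘ : ∀ i < n, ∀ t ∈ Icc 0 T, Θ i t ≤ ENNReal.ofReal c +
      ENNReal.ofReal C * (∫⁻ s in Icc 0 t, (D (i + 1) s + F (i + 1) s)) +
      ENNReal.ofReal κ * (D (i + 1) t + Θ (i + 1) t + F (i + 1) t))
    (hF : ∀ i < n, ∀ t ∈ Icc 0 T, F i t ≤ ENNReal.ofReal c + ENNReal.ofReal C * Θ (i + 1) t +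
      ENNReal.ofReal κ * (D (i + 1) t + Θ (i + 1) t + F (i + 1) t))
    (hD : ∀ i < n, ∀ t ∈ Icc 0 T, D i t ≤ ENNReal.ofReal c +
      ENNReal.ofReal C * (∫⁻ s in Icc 0 t, (D (i + 1) s + Θ (i + 1) s)) +
      ENNReal.ofReal κ * (D (i + 1) t + Θ (i + 1) t + F (i + 1) t))
    (bD : ∀ t ∈ Icc 0 T, D n t ≤ ENNReal.ofReal M) (bΘ : ∀ t ∈ Icc 0 T, Θ n t ≤ ENNReal.ofReal M)
    (bF : ∀ t ∈ Icc 0 T, F n t ≤ ENNReal.ofReal M) :
    ∀ t ∈ Icc 0 T, D 0 t + Θ 0 t + F 0 t ≤ ENNReal.ofReal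
      (4 * (C + 1) * ((6 * c + (1 / 2) ^ n * (3 * M)) * Real.exp (64 * (C + 1) ^ 2 * t))) := by
  obtain ⟨w, hw⟩ : ∃ w, w = 1 / (4 * (C + 1)) := ⟨_, rfl⟩
  have hw0 : 0 < w := by rw [hw]; positivity
  have hw1 : w ≤ 1 := by
    rw [hw, div_le_one (by positivity)]
    linarith
  have hwC : w * C ≤ 1 / 4 := by
    rw [hw, div_mul_eq_mul_div, div_le_iff₀ (by positivity)]
    linarith
  have hwi : 1 / w = 4 * (C + 1) := by rw [hw, one_div_one_div]
  obtain ⟨X, hX⟩ : ∃ X : ℕ → ℝ → ℝ≥0∞, ∀ i t, X i t = D i t + Θ i t + ENNReal.ofReal w * F i t :=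
    ⟨_, fun _ _ => rfl⟩
  -- all the unknowns are controlled by `X / w`
  have hall : ∀ i t, D i t + Θ i t + F i t ≤ ENNReal.ofReal (4 * (C + 1)) * X i t := by
    intro i t
    have h1 : (1 : ℝ≥0∞) ≤ ENNReal.ofReal (4 * (C + 1)) := by
      rw [ENNReal.one_le_ofReal]; linarith
    have h2 : ENNReal.ofReal (4 * (C + 1)) * (ENNReal.ofReal w * F i t) = F i t := by
      rw [← mul_assoc, ← ENNReal.ofReal_mul (by positivity), ← hwi, one_div,
        inv_mul_cancel₀ hw0.ne', ENNReal.ofReal_one, one_mul]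
    rw [hX, mul_add, h2]
    gcongr
    exact le_mul_of_one_le_left zero_le h1
  have hstep : ∀ i < n, ∀ t ∈ Icc 0 T, X i t ≤ ENNReal.ofReal (3 * c) +
      ENNReal.ofReal (8 * (C + 1) ^ 2) * (∫⁻ s in Icc 0 t, X (i + 1) s) +
      ENNReal.ofReal (1 / 4 + 12 * (C + 1) * κ) * X (i + 1) t := by
    intro i hi t ht
    obtain ⟨R, hR⟩ : ∃ R, R = ENNReal.ofReal κ * (D (i + 1) t + Θ (i + 1) t + F (i + 1) t) :=
      ⟨_, rfl⟩
    have hRle : R ≤ ENNReal.ofReal (4 * (C + 1) * κ) * X (i + 1) t := by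
      rw [hR]
      calc _ ≤ ENNReal.ofReal κ * (ENNReal.ofReal (4 * (C + 1)) * X (i + 1) t) :=
            mul_le_mul_right (hall _ _) _
        _ = _ := by
            rw [← mul_assoc, ← ENNReal.ofReal_mul hκ, mul_comm κ]
    have h1 := hD i hi t ht
    have h2 := hΘ i hi t ht
    have h3 := hF i hi t ht
    rw [← hR] at h1 h2 h3
    have hI1 : ∫⁻ s in Icc 0 t, (D (i + 1) s + Θ (i + 1) s) ≤
        ENNReal.ofReal (4 * (C + 1)) * ∫⁻ s in Icc 0 t, X (i + 1) s := by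
      rw [← lintegral_const_mul' _ _ ENNReal.ofReal_ne_top]
      exact lintegral_mono fun s => le_self_add.trans (hall (i + 1) s)
    have hI2 : ∫⁻ s in Icc 0 t, (D (i + 1) s + F (i + 1) s) ≤
        ENNReal.ofReal (4 * (C + 1)) * ∫⁻ s in Icc 0 t, X (i + 1) s := by
      rw [← lintegral_const_mul' _ _ ENNReal.ofReal_ne_top]
      refine lintegral_mono fun s => le_trans ?_ (hall (i + 1) s)
      gcongr
      exact le_self_add
    have hI : ENNReal.ofReal C * (ENNReal.ofReal (4 * (C + 1)) * ∫⁻ s in Icc 0 t, X (i + 1) s) ≤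
        ENNReal.ofReal (4 * (C + 1) ^ 2) * ∫⁻ s in Icc 0 t, X (i + 1) s := by
      rw [← mul_assoc, ← ENNReal.ofReal_mul hC]
      exact mul_le_mul_left (ENNReal.ofReal_le_ofReal (by nlinarith)) _
    have h3' : ENNReal.ofReal w * F i t ≤ ENNReal.ofReal c + ENNReal.ofReal (1 / 4) * X (i + 1) t
        + R := by
      calc ENNReal.ofReal w * F i t
          ≤ ENNReal.ofReal w * (ENNReal.ofReal c + ENNReal.ofReal C * Θ (i + 1) t + R) :=
            mul_le_mul_right h3 _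
        _ = ENNReal.ofReal w * ENNReal.ofReal c + ENNReal.ofReal (w * C) * Θ (i + 1) t +
            ENNReal.ofReal w * R := by
            rw [ENNReal.ofReal_mul hw0.le]
            ring
        _ ≤ 1 * ENNReal.ofReal c + ENNReal.ofReal (1 / 4) * X (i + 1) t + 1 * R := by
            have hw1' : ENNReal.ofReal w ≤ 1 := by
              rw [ENNReal.ofReal_le_one]; exact hw1
            gcongr
            rw [hX]
            exact le_add_right (le_add_left le_rfl)
        _ = _ := by rw [one_mul, one_mul]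
    rw [hX]
    calc D i t + Θ i t + ENNReal.ofReal w * F i t
        ≤ (ENNReal.ofReal c + ENNReal.ofReal (4 * (C + 1) ^ 2) * (∫⁻ s in Icc 0 t, X (i + 1) s)
            + R) +
          (ENNReal.ofReal c + ENNReal.ofReal (4 * (C + 1) ^ 2) * (∫⁻ s in Icc 0 t, X (i + 1) s)
            + R) +
          (ENNReal.ofReal c + ENNReal.ofReal (1 / 4) * X (i + 1) t + R) := by
          refine add_le_add (add_le_add (h1.trans ?_) (h2.trans ?_)) h3'
          · exact add_le_add (add_le_add le_rfl ((mul_le_mul_right hI1 _).trans hI)) le_rfl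
          · exact add_le_add (add_le_add le_rfl ((mul_le_mul_right hI2 _).trans hI)) le_rfl
      _ = (ENNReal.ofReal c + ENNReal.ofReal c + ENNReal.ofReal c) +
          (ENNReal.ofReal (4 * (C + 1) ^ 2) + ENNReal.ofReal (4 * (C + 1) ^ 2)) *
            (∫⁻ s in Icc 0 t, X (i + 1) s) +
          (ENNReal.ofReal (1 / 4) * X (i + 1) t + (R + R + R)) := by ring
      _ ≤ (ENNReal.ofReal c + ENNReal.ofReal c + ENNReal.ofReal c) +
          (ENNReal.ofReal (4 * (C + 1) ^ 2) + ENNReal.ofReal (4 * (C + 1) ^ 2)) *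
            (∫⁻ s in Icc 0 t, X (i + 1) s) +
          (ENNReal.ofReal (1 / 4) * X (i + 1) t +
            (ENNReal.ofReal (4 * (C + 1) * κ) * X (i + 1) t +
            ENNReal.ofReal (4 * (C + 1) * κ) * X (i + 1) t +
            ENNReal.ofReal (4 * (C + 1) * κ) * X (i + 1) t)) := by gcongr
      _ = _ := by
          have q1 : ENNReal.ofReal c + ENNReal.ofReal c + ENNReal.ofReal c =
              ENNReal.ofReal (3 * c) := by
            rw [← ENNReal.ofReal_add hc hc, ← ENNReal.ofReal_add (by positivity) hc]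
            congr 1
            ring
          have q2 : ENNReal.ofReal (4 * (C + 1) ^ 2) + ENNReal.ofReal (4 * (C + 1) ^ 2) =
              ENNReal.ofReal (8 * (C + 1) ^ 2) := by
            rw [← ENNReal.ofReal_add (by positivity) (by positivity)]
            congr 1
            ring
          have q3 : ENNReal.ofReal (1 / 4 + 12 * (C + 1) * κ) = ENNReal.ofReal (1 / 4) +
              (ENNReal.ofReal (4 * (C + 1) * κ) + ENNReal.ofReal (4 * (C + 1) * κ) +
                ENNReal.ofReal (4 * (C + 1) * κ)) := by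
            rw [← ENNReal.ofReal_add (by positivity) (by positivity),
              ← ENNReal.ofReal_add (by positivity) (by positivity),
              ← ENNReal.ofReal_add (by positivity) (by positivity)]
            congr 1
            ring
          rw [q1, q2, q3]
          ring
  have hbd : ∀ t ∈ Icc 0 T, X n t ≤ ENNReal.ofReal (3 * M) := by
    intro t ht
    rw [hX]
    have hw1' : ENNReal.ofReal w ≤ 1 := by
      rw [ENNReal.ofReal_le_one]; exact hw1
    calc D n t + Θ n t + ENNReal.ofReal w * F n t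
        ≤ ENNReal.ofReal M + ENNReal.ofReal M + 1 * ENNReal.ofReal M := by
          gcongr
          · exact bD t ht
          · exact bΘ t ht
          · exact bF t ht
      _ = _ := by
          rw [one_mul, ← ENNReal.ofReal_add hM hM, ← ENNReal.ofReal_add (by positivity) hM]
          congr 1
          ring
  intro t ht
  have hfin := closed_chain (A := 8 * (C + 1) ^ 2) (κ := 1 / 4 + 12 * (C + 1) * κ) (B := 3 * c)
    (M := 3 * M) (l := 64 * (C + 1) ^ 2) (by positivity) (by positivity) (by positivity)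
    (by positivity) (by positivity) ?_ hstep hbd (i := 0) (Nat.zero_le n) t ht
  · refine (hall 0 t).trans ?_
    rw [ENNReal.ofReal_mul (p := 4 * (C + 1)) (by positivity)]
    refine mul_le_mul_right (hfin.trans (ENNReal.ofReal_le_ofReal (le_of_eq ?_))) _
    rw [Nat.sub_zero]
    ring
  · have h8 : 8 * (C + 1) ^ 2 / (64 * (C + 1) ^ 2) = 1 / 8 := by
      have : (C + 1) ^ 2 ≠ 0 := by positivity
      field_simp
      norm_num
    rw [h8]
    nlinarith


/-- **Order of the limits.** `D L η ε t` etc. are the quantities of the gas truncated at depth `L`,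
stopped at the threshold `η`, at scale `ε`. First `ε → 0`, then `L → ∞`. -/
theorem feedback_limit_all {T C K : ℝ} (hC : 0 ≤ C) (hK : 1 ≤ K) (p : ℕ) {cr : ℕ → ℝ}
    (hcr : ∀ L, 0 ≤ cr L) {D Θ F : ℕ → ℝ → ℝ → ℝ → ℝ≥0∞} {Mb : ℕ → ℝ}
    (bd : ∀ᶠ L in atTop, ∀ η ∈ Ioc (0 : ℝ) 1, ∀ᶠ ε in 𝓝[>] (0 : ℝ), ∀ t ∈ Icc 0 T,
      D L η ε t ≤ ENNReal.ofReal (Mb L) ∧ Θ L η ε t ≤ ENNReal.ofReal (Mb L) ∧
      F L η ε t ≤ ENNReal.ofReal (Mb L))
    (hsys : ∀ᶠ L in atTop, ∀ δ ∈ Ioc (0 : ℝ) 1, ∀ η η' : ℝ, 0 < η → η < η' → η' ≤ 1 →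
      ∀ ρ : ℝ, 0 < ρ → ∀ᶠ ε in 𝓝[>] (0 : ℝ), ∀ t ∈ Icc 0 T,
      Θ L η ε t ≤ ENNReal.ofReal (K ^ L * cr L + ρ) +
        ENNReal.ofReal C * (∫⁻ s in Icc 0 t, (D L η' ε s + F L η' ε s)) +
        ENNReal.ofReal (K ^ L * (η' / δ ^ p + δ)) *
          (D L η' ε t + Θ L η' ε t + F L η' ε t) ∧
      F L η ε t ≤ ENNReal.ofReal (K ^ L * cr L + ρ) + ENNReal.ofReal C * Θ L η' ε t +
        ENNReal.ofReal (K ^ L * (η' / δ ^ p + δ)) *
          (D L η' ε t + Θ L η' ε t + F L η' ε t) ∧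
      D L η ε t ≤ ENNReal.ofReal (K ^ L * cr L + ρ) +
        ENNReal.ofReal C * (∫⁻ s in Icc 0 t, (D L η' ε s + Θ L η' ε s)) +
        ENNReal.ofReal (K ^ L * (η' / δ ^ p + δ)) *
          (D L η' ε t + Θ L η' ε t + F L η' ε t)) :
    ∀ᶠ L in atTop, ∀ ρ : ℝ, 0 < ρ → ∀ᶠ ε in 𝓝[>] (0 : ℝ), ∀ t ∈ Icc 0 T,
      D L (thr K p L) ε t + Θ L (thr K p L) ε t + F L (thr K p L) ε t ≤
        ENNReal.ofReal (24 * (C + 1) * Real.exp (64 * (C + 1) ^ 2 * T) * (K ^ L * cr L) + ρ) := by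
  have hk : ∀ᶠ L in atTop, K ^ L * (2 * thr K p L / lagL K L ^ p + lagL K L) ≤
      1 / (96 * (C + 1)) :=
    (kap_tendsto hK p).eventually (ge_mem_nhds (by positivity))
  filter_upwards [bd, hsys, hk, eventually_ge_atTop 1] with L hbd hsys hkL hL1
  intro ρ hρ
  obtain ⟨E, hE⟩ : ∃ E, E = Real.exp (64 * (C + 1) ^ 2 * T) := ⟨_, rfl⟩
  have hE0 : 0 < E := by rw [hE]; positivity
  obtain ⟨h, hh⟩ : ∃ h, h = thr K p L := ⟨_, rfl⟩
  have hh0 : 0 < h := hh ▸ thr_pos hK p L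
  have hh2 : h ≤ 1 / 2 := hh ▸ thr_le hK p hL1
  obtain ⟨dl, hdl⟩ : ∃ dl, dl = lagL K L := ⟨_, rfl⟩
  have hdl0 : 0 < dl := hdl ▸ lagL_pos hK L
  have hdl1 : dl ≤ 1 := hdl ▸ lagL_le_one hK L
  rw [← hh, ← hdl] at hkL
  rw [← hh, ← hE]
  obtain ⟨κ, hκ⟩ : ∃ κ, κ = K ^ L * (2 * h / dl ^ p + dl) := ⟨_, rfl⟩
  rw [← hκ] at hkL
  have hκ0 : 0 ≤ κ := by rw [hκ]; positivity
  have hκC : κ * (96 * (C + 1)) ≤ 1 := by
    calc κ * (96 * (C + 1)) ≤ 1 / (96 * (C + 1)) * (96 * (C + 1)) := by gcongr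
      _ = 1 := by field_simp
  obtain ⟨Mm, hMm⟩ : ∃ Mm, Mm = max (Mb L) 0 := ⟨_, rfl⟩
  have hMm0 : 0 ≤ Mm := hMm ▸ le_max_right _ _
  -- number of levels
  obtain ⟨n, hn0, hn⟩ : ∃ n : ℕ, 0 < n ∧ 4 * (C + 1) * ((1 / 2 : ℝ) ^ n * (3 * Mm) * E) ≤ ρ / 2 := by
    have h1 : Tendsto (fun n : ℕ => 4 * (C + 1) * ((1 / 2 : ℝ) ^ n * (3 * Mm) * E)) atTop
        (𝓝 (4 * (C + 1) * (0 * (3 * Mm) * E))) :=
      (((tendsto_pow_atTop_nhds_zero_of_lt_one (by norm_num) (by norm_num)).mul_const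
        _).mul_const _).const_mul _
    rw [zero_mul, zero_mul, mul_zero] at h1
    have h2 := (h1.eventually (ge_mem_nhds (show (0 : ℝ) < ρ / 2 by positivity))).and
      (eventually_gt_atTop 0)
    obtain ⟨n, h3, h4⟩ := h2.exists
    exact ⟨n, h4, h3⟩
  obtain ⟨lev, hlev⟩ : ∃ lev : ℕ → ℝ, ∀ i, lev i = h * (1 + i / n) := ⟨_, fun _ => rfl⟩
  have hn0' : (0 : ℝ) < n := by exact_mod_cast hn0
  have hlev0 : lev 0 = h := by rw [hlev]; simp
  have hlevpos : ∀ i, 0 < lev i := fun i => by rw [hlev]; positivity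
  have hlevle : ∀ i ≤ n, lev i ≤ 2 * h := fun i hi => by
    rw [hlev]
    have h1 : (i : ℝ) / n ≤ 1 := by
      rw [div_le_one hn0']
      exact_mod_cast hi
    nlinarith
  have hlevlt : ∀ i, lev i < lev (i + 1) := fun i => by
    rw [hlev, hlev]
    have : (i : ℝ) / n < ((i + 1 : ℕ) : ℝ) / n := by
      rw [div_lt_div_iff_of_pos_right hn0']
      push_cast
      linarith
    nlinarith
  obtain ⟨r, hr⟩ : ∃ r, r = ρ / (48 * (C + 1) * E) := ⟨_, rfl⟩
  have hr0 : 0 < r := by rw [hr]; positivity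
  -- all the inequalities for small `ε`
  have hall : ∀ᶠ ε in 𝓝[>] (0 : ℝ), ∀ i ∈ Finset.range n, ∀ t ∈ Icc 0 T,
      Θ L (lev i) ε t ≤ ENNReal.ofReal (K ^ L * cr L + r) +
        ENNReal.ofReal C * (∫⁻ s in Icc 0 t, (D L (lev (i + 1)) ε s + F L (lev (i + 1)) ε s)) +
        ENNReal.ofReal κ *
          (D L (lev (i + 1)) ε t + Θ L (lev (i + 1)) ε t + F L (lev (i + 1)) ε t) ∧
      F L (lev i) ε t ≤ ENNReal.ofReal (K ^ L * cr L + r) +
        ENNReal.ofReal C * Θ L (lev (i + 1)) ε t +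
        ENNReal.ofReal κ *
          (D L (lev (i + 1)) ε t + Θ L (lev (i + 1)) ε t + F L (lev (i + 1)) ε t) ∧
      D L (lev i) ε t ≤ ENNReal.ofReal (K ^ L * cr L + r) +
        ENNReal.ofReal C * (∫⁻ s in Icc 0 t, (D L (lev (i + 1)) ε s + Θ L (lev (i + 1)) ε s)) +
        ENNReal.ofReal κ *
          (D L (lev (i + 1)) ε t + Θ L (lev (i + 1)) ε t + F L (lev (i + 1)) ε t) := by
    rw [Filter.eventually_all_finset]
    intro i hi
    have hi' : i + 1 ≤ n := Finset.mem_range.1 hi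
    have hle1 : lev (i + 1) ≤ 1 := (hlevle _ hi').trans (by linarith)
    filter_upwards [hsys dl ⟨hdl0, hdl1⟩ (lev i) (lev (i + 1)) (hlevpos i) (hlevlt i) hle1 r hr0]
      with ε hε t ht
    obtain ⟨h1, h2, h3⟩ := hε t ht
    have hκle : ENNReal.ofReal (K ^ L * (lev (i + 1) / dl ^ p + dl)) ≤ ENNReal.ofReal κ := by
      apply ENNReal.ofReal_le_ofReal
      rw [hκ]
      have := hlevle _ hi'
      gcongr
    exact ⟨h1.trans (add_le_add le_rfl (mul_le_mul_left hκle _)),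
      h2.trans (add_le_add le_rfl (mul_le_mul_left hκle _)),
      h3.trans (add_le_add le_rfl (mul_le_mul_left hκle _))⟩
  have hbn := hbd (lev n) ⟨hlevpos n, (hlevle n le_rfl).trans (by linarith)⟩
  filter_upwards [hall, hbn] with ε hall hbn t ht
  have hMle : ENNReal.ofReal (Mb L) ≤ ENNReal.ofReal Mm :=
    ENNReal.ofReal_le_ofReal (hMm ▸ le_max_left _ _)
  have key := closed_system_all (T := T) (C := C) (κ := κ) (c := K ^ L * cr L + r) (M := Mm) hC hκ0
    (by have := hcr L; positivity) hMm0 hκC (D := fun i s => D L (lev i) ε s)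
    (Θ := fun i s => Θ L (lev i) ε s) (F := fun i s => F L (lev i) ε s) (n := n)
    (fun i hi s hs => (hall i (Finset.mem_range.2 hi) s hs).1)
    (fun i hi s hs => (hall i (Finset.mem_range.2 hi) s hs).2.1)
    (fun i hi s hs => (hall i (Finset.mem_range.2 hi) s hs).2.2)
    (fun s hs => (hbn s hs).1.trans hMle) (fun s hs => (hbn s hs).2.1.trans hMle)
    (fun s hs => (hbn s hs).2.2.trans hMle) t ht
  simp only [hlev0] at key
  refine key.trans (ENNReal.ofReal_le_ofReal ?_)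
  have hcrL := hcr L
  have hexp : Real.exp (64 * (C + 1) ^ 2 * t) ≤ E := by
    rw [hE]
    apply Real.exp_le_exp.2
    have := ht.2
    gcongr
  calc 4 * (C + 1) * ((6 * (K ^ L * cr L + r) + (1 / 2) ^ n * (3 * Mm)) *
        Real.exp (64 * (C + 1) ^ 2 * t))
      ≤ 4 * (C + 1) * ((6 * (K ^ L * cr L + r) + (1 / 2) ^ n * (3 * Mm)) * E) := by gcongr
    _ = 24 * (C + 1) * E * (K ^ L * cr L) + (24 * (C + 1) * r * E +
        4 * (C + 1) * ((1 / 2) ^ n * (3 * Mm) * E)) := by ring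
    _ ≤ 24 * (C + 1) * E * (K ^ L * cr L) + (ρ / 2 + ρ / 2) := by
        gcongr
        rw [hr]
        apply le_of_eq
        field_simp
        ring
    _ = _ := by ring

end Vale.Agent.P119.KE
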