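import Vale.Agent.P119.KE.LDiff

/-! Parameters and the two halves of the main statement about the gas truncated by depth. -/

open MeasureTheory Filter Topology Set ProbabilityTheory
open scoped ENNReal NNReal

noncomputable section

namespace Vale.Agent.P119.KE

variable {G : Coll}

theorem gs_add {a a' b : ℝ} (ha : 0 ≤ a) (ha' : 0 ≤ a') (v : E3) :
    gs a b v + gs a' b v = gs (a + a') b v := by
  unfold gs
  rw [← ENNReal.ofReal_add (by positivity) (by positivity)]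
  congr 1
  ring

theorem one_add_mul_gs {a b δ : ℝ} (ha : 0 ≤ a) (hδ : 0 < δ) (v : E3) :
    ENNReal.ofReal (1 + ‖v‖) * gs a b v ≤ gs (a * (1 + 1 / Real.sqrt δ)) (b - δ) v := by
  unfold gs
  rw [← ENNReal.ofReal_mul (by positivity)]
  apply ENNReal.ofReal_le_ofReal
  have h1 : Real.exp (-b * ‖v‖ ^ 2) =
      Real.exp (-δ * ‖v‖ ^ 2) * Real.exp (-(b - δ) * ‖v‖ ^ 2) := by
    rw [← Real.exp_add]; ring_nf
  have h2 := mul_exp_neg_sq_le hδ (norm_nonneg v)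
  calc (1 + ‖v‖) * (a * Real.exp (-b * ‖v‖ ^ 2))
      = a * ((1 + ‖v‖) * Real.exp (-δ * ‖v‖ ^ 2)) * Real.exp (-(b - δ) * ‖v‖ ^ 2) := by
        rw [h1]; ring
    _ ≤ a * (1 + 1 / Real.sqrt δ) * Real.exp (-(b - δ) * ‖v‖ ^ 2) := by gcongr

/-- Parameters with base exponent `b ≤ g / 2` for a datum bounded by `gs C g`. -/
def mkWt (T C g b : ℝ) (hT : 0 ≤ T) (hb : 0 < b) (hC : 0 ≤ C) : Wt where
  T := T
  b := b
  κ := b / (2 * (T + 1))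
  C := C * (1 + 1 / Real.sqrt (g / 2))
  hT := hT
  hb := hb
  hκ := by positivity
  hκT := by
    have h1 : T / (T + 1) ≤ 1 := by
      rw [div_le_one (by positivity)]
      linarith
    calc b / (2 * (T + 1)) * T = b / 2 * (T / (T + 1)) := by
          field_simp
      _ ≤ b / 2 * 1 := by gcongr
      _ = b / 2 := mul_one _
  hC := by positivity

theorem mkWt_dat {T C g b : ℝ} (hT : 0 ≤ T) (hb : 0 < b) (hC : 0 ≤ C) (hg : 0 < g)
    (hbg : b ≤ g / 2) {f₀ : E3 → E3 → ℝ≥0∞} (h : ∀ x v, f₀ x v ≤ gs C g v) :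
    (mkWt T C g b hT hb hC).Dat f₀ := by
  intro x v
  refine (mul_le_mul_right (h x v) _).trans ?_
  refine (one_add_mul_gs (δ := g / 2) hC (by positivity) v).trans ?_
  exact gs_mono (by positivity) le_rfl (by change b ≤ g - g / 2; linarith) v

theorem xint_data_le {f₀ : E3 → E3 → ℝ≥0∞} {m₀ : Measurable fun p : E3 × E3 => f₀ p.1 p.2}
    {C₀ g : ℝ} (hm : ∀ v, ∫⁻ x, f₀ x v ≤ gs C₀ g v) (h : Dn) (t : ℝ) (v : E3) :
    xint (G.data f₀ m₀ h.1 h.2).g₀ t v ≤ gs C₀ g v := by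
  unfold xint
  calc ∫⁻ x, (G.data f₀ m₀ h.1 h.2).g₀ t x v
      ≤ ∫⁻ x, f₀ (x - t • v) v := lintegral_mono fun x => by
        change f₀ (x - t • v) v * _ ≤ _
        exact mul_le_of_le_one_right zero_le (en_le_one _)
    _ = ∫⁻ x, f₀ x v := lintegral_sub_right_eq_self (fun x => f₀ x v) (t • v)
    _ ≤ _ := hm v

theorem xint_congr {h k : ℝ → E3 → E3 → ℝ≥0∞} {s : ℝ} {v : E3} (H : ∀ x, h s x v = k s x v) :
    xint h s v = xint k s v := lintegral_congr H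

theorem pow_mul_pred_tendsto {a : ℕ → ℝ}
    (h : ∀ A : ℝ, 0 ≤ A → Tendsto (fun n => A ^ n * a n) atTop (𝓝 0)) {A : ℝ} (hA : 0 ≤ A) :
    Tendsto (fun n => A ^ n * a (n - 1)) atTop (𝓝 0) := by
  rw [← tendsto_add_atTop_iff_nat 1]
  have h3 := (h A hA).const_mul A
  rw [mul_zero] at h3
  refine h3.congr fun n => ?_
  rw [Nat.add_sub_cancel, pow_succ]
  ring

/-- Sup estimates: existence of the truncated density and closeness to the solution. -/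
theorem sup_part {T C γ : ℝ} (hT : 0 ≤ T) (hγ : 0 < γ) (hC : 0 ≤ C)
    {f₀ : E3 → E3 → ℝ≥0∞} {m₀ : Measurable fun p : E3 × E3 => f₀ p.1 p.2}
    {f : ℝ → E3 → E3 → ℝ≥0∞} (mf : JM f) (hsol : (G.data f₀ m₀ f mf).IsSol G.toGain T f)
    (hfC : ∀ t ∈ Icc 0 T, ∀ x v, f t x v ≤ gs C γ v) (hf0 : ∀ x v, f₀ x v ≤ gs C γ v) :
    ∃ B : ℝ, 1 ≤ B ∧ ∀ᶠ L in atTop, ∃ u : Dn,
        (∀ s ∈ Icc 0 T, ∀ x v, G.Psi f₀ m₀ L u.1 u.2 s x v = u.1 s x v) ∧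
        (∀ d, ∀ s ∈ Icc 0 T, ∀ x v, G.Psi f₀ m₀ d u.1 u.2 s x v ≤ gs (C + 1) (γ / 4) v) ∧
        (∀ s ∈ Icc 0 T, ∀ x v, f s x v ≤ u.1 s x v + gs (B * (C * G.coef C γ T L)) (γ / 4) v ∧
          u.1 s x v ≤ f s x v + gs (B * (C * G.coef C γ T L)) (γ / 4) v) ∧
        (∀ d, ∀ s ∈ Icc 0 T, ∀ x v, G.Psi f₀ m₀ d f mf s x v ≤ G.Psi f₀ m₀ d u.1 u.2 s x v +
          gs (B * (C * G.coef C γ T L)) (γ / 4) v ∧
          G.Psi f₀ m₀ d u.1 u.2 s x v ≤ G.Psi f₀ m₀ d f mf s x v +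
          gs (B * (C * G.coef C γ T L)) (γ / 4) v) := by
  obtain ⟨P, hPT, hPb, h0⟩ : ∃ P : Wt, P.T = T ∧ P.b = γ / 2 ∧ P.Dat f₀ :=
    ⟨mkWt T C γ (γ / 2) hT (by positivity) hC, rfl, rfl, mkWt_dat hT (by positivity) hC hγ le_rfl hf0⟩
  subst hPT
  obtain ⟨l, A⟩ := P.exists_adm G (show (0 : ℝ) ≤ C + 2 by positivity)
  have hl1 : 1 ≤ Real.exp (l * P.T) := Real.one_le_exp (mul_nonneg A.l0.le hT)
  refine ⟨3 / 2 * Real.exp (l * P.T), by linarith, ?_⟩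
  have hρlim : Tendsto (fun n => 3 / 2 * (C * G.coef C γ P.T n) * Real.exp (l * P.T)) atTop
      (𝓝 0) := by
    have h1 := (G.coef_tendsto_zero hC hγ hT).const_mul (3 / 2 * C * Real.exp (l * P.T))
    rw [mul_zero] at h1
    refine h1.congr fun n => ?_
    ring
  filter_upwards [hρlim.eventually (ge_mem_nhds (show (0 : ℝ) < 1 by norm_num))] with L hL
  obtain ⟨ρ, hρ⟩ : ∃ ρ, ρ = C * G.coef C γ P.T L := ⟨_, rfl⟩
  rw [← hρ] at hL ⊢
  have hρ0 : 0 ≤ ρ := hρ ▸ mul_nonneg hC (G.coef_nonneg hC hT L)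
  have hFle : ∀ d, ∀ s ∈ Icc 0 P.T, ∀ x v, G.Psi f₀ m₀ d f mf s x v ≤ f s x v :=
    fun d s hs x v => hsol.pic_le _ d hs x v
  have hclose : P.Close l ρ (G.Psi f₀ m₀ L f mf) f := by
    intro s hs x v
    have h1 := hsol.pic_add_rem _ L hs x v
    have h2 := hsol.rem_le _ hC hγ hT hfC L hs x v
    rw [← hρ] at h2
    refine ⟨(hFle L s hs x v).trans le_self_add, ?_⟩
    rw [← h1]
    refine add_le_add le_rfl (h2.trans (gs_mono hρ0 ?_ ?_ v))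
    · have h1 : 1 ≤ Real.exp (l * s) := Real.one_le_exp (mul_nonneg A.l0.le hs.1)
      nlinarith
    · exact hPb ▸ P.bs_le hs
  have bf : ∀ d, ∀ s ∈ Icc 0 P.T, ∀ x v, G.Psi f₀ m₀ d f mf s x v ≤ P.bg C s v := by
    intro d s hs x v
    refine ((hFle d s hs x v).trans (hfC s hs x v)).trans (gs_mono hC le_rfl ?_ v)
    have := P.bs_le hs
    rw [hPb] at this
    change P.b - P.κ * s ≤ γ
    rw [hPb]
    linarith
  obtain ⟨u, hfix, hcl, hcld, hbd⟩ := P.exists_fixed (G := G) (m₀ := m₀) mf h0 A hC le_rfl L bf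
    hρ0 hL hclose
  have hbs : ∀ s ∈ Icc 0 P.T, γ / 4 ≤ P.b - P.κ * s := fun s hs => by
    have := P.bs hs
    rw [hPb] at this
    change γ / 4 ≤ P.b - P.κ * s
    rw [hPb]
    linarith
  have hWgs : ∀ a, 0 ≤ a → a ≤ 3 / 2 * ρ → ∀ s ∈ Icc 0 P.T, ∀ v, W l P.κ P.b a s v ≤
      gs (3 / 2 * Real.exp (l * P.T) * ρ) (γ / 4) v := by
    intro a ha ha' s hs v
    refine gs_mono (by positivity) ?_ (hbs s hs) v
    have h3 : l * s ≤ l * P.T := mul_le_mul_of_nonneg_left hs.2 A.l0.le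
    calc a * Real.exp (l * s) ≤ 3 / 2 * ρ * Real.exp (l * P.T) := by gcongr
      _ = _ := by ring
  refine ⟨u, hfix, fun d s hs x v => (hbd d s hs x v).trans
    (gs_mono (by positivity) le_rfl (hbs s hs) v), fun s hs x v => ⟨?_, ?_⟩,
    fun d s hs x v => ⟨?_, ?_⟩⟩
  · exact (hcl s hs x v).2.trans (add_le_add le_rfl (hWgs _ (by positivity) le_rfl s hs v))
  · exact (hcl s hs x v).1.trans (add_le_add le_rfl (hWgs _ (by positivity) le_rfl s hs v))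
  · exact (hcld d s hs x v).2.trans
      (add_le_add le_rfl (hWgs _ (by positivity) (by linarith) s hs v))
  · exact (hcld d s hs x v).1.trans
      (add_le_add le_rfl (hWgs _ (by positivity) (by linarith) s hs v))

/-- `L¹` estimate: the difference of the images of two close densities. -/
theorem l1_part (G : Coll) {T γ C₀ M : ℝ} (hT : 0 ≤ T) (hγ : 0 < γ) (hC₀ : 0 ≤ C₀) (hM : 0 ≤ M)
    {f₀ : E3 → E3 → ℝ≥0∞} {m₀ : Measurable fun p : E3 × E3 => f₀ p.1 p.2}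
    (hm : ∀ v, ∫⁻ x, f₀ x v ≤ gs C₀ γ v) :
    ∃ B : ℝ, 1 ≤ B ∧ ∀ (g h : Dn) (α : ℝ), 0 ≤ α →
      (∀ s ∈ Icc 0 T, ∀ x v, g.1 s x v ≤ h.1 s x v + gs α (γ / 4) v ∧
        h.1 s x v ≤ g.1 s x v + gs α (γ / 4) v) →
      (∀ d, ∀ s ∈ Icc 0 T, ∀ x v, G.Psi f₀ m₀ d g.1 g.2 s x v ≤ gs M (γ / 8) v) →
      (∀ d, ∀ s ∈ Icc 0 T, ∀ x v, G.Psi f₀ m₀ d h.1 h.2 s x v ≤ gs M (γ / 8) v) →
      (∀ d, ∀ s ∈ Icc 0 T, ∀ v, xint (G.Psi f₀ m₀ d g.1 g.2) s v ≤ gs M (γ / 8) v) →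
      ∀ d, ∀ s ∈ Icc 0 T, ∀ v, xint (pd (G.Psi f₀ m₀ d g.1 g.2) (G.Psi f₀ m₀ d h.1 h.2)) s v ≤
        gs (B * α) (γ / 16) v := by
  obtain ⟨P, hPT, hPb, h0⟩ : ∃ P : Wt, P.T = T ∧ P.b = γ / 8 ∧
      P.Dat (fun _ v => gs C₀ γ v) :=
    ⟨mkWt T C₀ γ (γ / 8) hT (by positivity) hC₀, rfl, rfl,
      mkWt_dat hT (by positivity) hC₀ hγ (by linarith) fun _ _ => le_rfl⟩
  subst hPT
  obtain ⟨l, A⟩ := P.exists_adm G hM
  have hl1 : 1 ≤ Real.exp (l * P.T) := Real.one_le_exp (mul_nonneg A.l0.le hT)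
  refine ⟨Real.exp (l * P.T), hl1, ?_⟩
  intro g h α hα hgh bg bh bm d s hs v
  have hbs : ∀ s ∈ Icc 0 P.T, γ / 16 ≤ P.b - P.κ * s := fun s hs => by
    have := P.bs hs
    rw [hPb] at this ⊢
    linarith
  have hbs' : ∀ s ∈ Icc 0 P.T, P.b - P.κ * s ≤ γ / 8 := fun s hs => hPb ▸ P.bs_le hs
  have toBg : ∀ s ∈ Icc 0 P.T, ∀ v, gs M (γ / 8) v ≤ P.bg M s v := fun s hs v =>
    gs_mono hM le_rfl (hbs' s hs) v
  have hcl : P.Close l α g.1 h.1 := by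
    intro s hs x v
    have hconv : gs α (γ / 4) v ≤ W l P.κ P.b α s v := by
      refine gs_mono hα ?_ ?_ v
      · have h1 : 1 ≤ Real.exp (l * s) := Real.one_le_exp (mul_nonneg A.l0.le hs.1)
        nlinarith
      · have := hbs' s hs
        linarith
    exact ⟨(hgh s hs x v).1.trans (add_le_add le_rfl hconv),
      (hgh s hs x v).2.trans (add_le_add le_rfl hconv)⟩
  have key := P.lcontract (G := G) (m₀ := m₀) g.2 h.2 A hα hm h0 hcl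
    (fun d s hs x v => (bg d s hs x v).trans (toBg s hs v))
    (fun d s hs x v => (bh d s hs x v).trans (toBg s hs v))
    (fun d s hs v => (bm d s hs v).trans (toBg s hs v)) d s hs v
  refine key.trans (gs_mono (by positivity) ?_ (hbs s hs) v)
  have h3 : l * s ≤ l * P.T := mul_le_mul_of_nonneg_left hs.2 A.l0.le
  calc α / 3 * Real.exp (l * s) ≤ α * Real.exp (l * P.T) := by
        gcongr
        linarith
    _ = _ := by ring

/-- Mass bound of all the finite sums. -/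
theorem mass_part (G : Coll) {T γ C₀ M : ℝ} (hT : 0 ≤ T) (hγ : 0 < γ) (hC₀ : 0 ≤ C₀) (hM : 0 ≤ M)
    {f₀ : E3 → E3 → ℝ≥0∞} {m₀ : Measurable fun p : E3 × E3 => f₀ p.1 p.2}
    (hm : ∀ v, ∫⁻ x, f₀ x v ≤ gs C₀ γ v) (g : Dn)
    (bg : ∀ d, ∀ s ∈ Icc 0 T, ∀ x v, G.Psi f₀ m₀ d g.1 g.2 s x v ≤ gs M (γ / 4) v) (d : ℕ) :
    ∀ s ∈ Icc 0 T, ∀ v, xint (G.Psi f₀ m₀ d g.1 g.2) s v ≤
      gs (C₀ * ∑' n, G.coef M (γ / 4) T n) (γ / 8) v := by
  intro s hs v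
  have h1 := (G.data f₀ m₀ g.1 g.2).xint_pic_le (G := G.toGain) (C := M) (γ := γ / 4)
    (C₀ := C₀) (b := γ / 4) hM hT (by positivity) le_rfl hC₀ bg
    (fun t _ v => (xint_data_le hm g t v).trans (gs_mono hC₀ le_rfl (by linarith) v)) d hs v
  have e1 : γ / 4 / 2 = γ / 8 := by ring
  rw [e1] at h1
  exact h1

end Vale.Agent.P119.KE
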