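import Vale.Agent.P119.KE.Main

/-! The gas truncated by depth: all depth tails are superexponentially small, uniformly in the
truncation. -/

open MeasureTheory Filter Topology Set ProbabilityTheory
open scoped ENNReal NNReal

noncomputable section

namespace Vale.Agent.P119.KE

variable {G : Coll}

/-- Superexponentially small sequences. -/
def SuperExp (a : ℕ → ℝ) : Prop := ∀ A : ℝ, 0 ≤ A → Tendsto (fun n => A ^ n * a n) atTop (𝓝 0)

/-- The antitone majorant of a bounded sequence. -/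
def antiMaj (a : ℕ → ℝ) (n : ℕ) : ℝ := ⨆ m, a (n + m)

theorem SuperExp.bddAbove {a : ℕ → ℝ} (h : SuperExp a) : BddAbove (Set.range a) := by
  have h1 := h 1 zero_le_one
  simp only [one_pow, one_mul] at h1
  exact h1.bddAbove_range

theorem SuperExp.bdd_shift {a : ℕ → ℝ} (h : SuperExp a) (n : ℕ) :
    BddAbove (Set.range fun m => a (n + m)) :=
  h.bddAbove.mono (by rintro _ ⟨m, rfl⟩; exact ⟨n + m, rfl⟩)

theorem le_antiMaj {a : ℕ → ℝ} (h : SuperExp a) {n m : ℕ} (hnm : n ≤ m) : a m ≤ antiMaj a n := by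
  obtain ⟨k, rfl⟩ := Nat.exists_eq_add_of_le hnm
  exact le_ciSup (h.bdd_shift n) k

theorem antiMaj_antitone {a : ℕ → ℝ} (h : SuperExp a) : Antitone (antiMaj a) := by
  intro n m hnm
  refine ciSup_le fun k => ?_
  exact le_antiMaj h (hnm.trans (Nat.le_add_right _ _))

theorem antiMaj_superExp {a : ℕ → ℝ} (h : SuperExp a) (h0 : ∀ n, 0 ≤ a n) :
    SuperExp (antiMaj a) := by
  intro A hA
  -- it is enough to treat `B = max A 1`
  set B := max A 1 with hB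
  have hB1 : 1 ≤ B := le_max_right _ _
  have hAB : A ≤ B := le_max_left _ _
  have h1 := h B (by linarith)
  have hn0 : ∀ n, 0 ≤ antiMaj a n := fun n => (h0 n).trans (le_antiMaj h le_rfl)
  rw [Metric.tendsto_atTop] at h1 ⊢
  intro ε hε
  obtain ⟨N, hN⟩ := h1 (ε / 2) (by positivity)
  refine ⟨N, fun n hn => ?_⟩
  rw [Real.dist_eq, sub_zero, abs_of_nonneg (mul_nonneg (by positivity) (hn0 n))]
  have h2 : antiMaj a n ≤ ε / 2 / B ^ n := by
    refine ciSup_le fun m => ?_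
    have h3 := hN (n + m) (by omega)
    rw [Real.dist_eq, sub_zero, abs_of_nonneg (mul_nonneg (by positivity) (h0 _))] at h3
    rw [le_div_iff₀ (by positivity)]
    calc a (n + m) * B ^ n ≤ a (n + m) * B ^ (n + m) := by
          gcongr
          · exact h0 _
          · omega
      _ = B ^ (n + m) * a (n + m) := mul_comm _ _
      _ ≤ ε / 2 := h3.le
  calc A ^ n * antiMaj a n ≤ B ^ n * (ε / 2 / B ^ n) := by
        gcongr
        exact hn0 n
    _ = ε / 2 := by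
        field_simp
    _ < ε := by linarith

theorem tails_consts {B B' : ℝ} (hB : 1 ≤ B) (hB' : 1 ≤ B') {ρ σ t e : ℕ → ℝ}
    (hρ : ∀ n, 0 ≤ ρ n) (hσ : ∀ n, 0 ≤ σ n) (ht : ∀ n, ρ n + σ n ≤ t n)
    (hta : ∀ n m, n ≤ m → t m ≤ t n) (he : ∀ n, e n = 3 * (B * B') * t n) (L : ℕ) :
    B * ρ L ≤ e L ∧ σ L + B' * (B * ρ L) ≤ e L ∧ B' * (B * ρ L) ≤ e L ∧
    (∀ d ≤ L, B * ρ L + ρ d + B * ρ L ≤ e d) ∧
    ∀ d ≤ L, B' * (B * ρ L) + (σ d + B' * (B * ρ L)) ≤ e d := by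
  have hBB : 1 ≤ B * B' := one_le_mul_of_one_le_of_one_le hB hB'
  have h2 : ∀ a : ℝ, 0 ≤ a → a ≤ B * B' * a := fun a ha => by nlinarith
  have h3 : ∀ a : ℝ, 0 ≤ a → B * a ≤ B * B' * a := fun a ha => by
    have : 0 ≤ B * a := by positivity
    nlinarith
  have h4 : ∀ a b : ℝ, a ≤ b → B * B' * a ≤ B * B' * b := fun a b hab => by gcongr
  have rL := hρ L
  have sL := hσ L
  have tL := ht L
  have e5 : B' * (B * ρ L) = B * B' * ρ L := by ring
  have a1 := h3 _ rL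
  have a2 := h2 _ sL
  have a3 := h4 (ρ L + σ L) _ tL
  have a4 : 0 ≤ B * B' * ρ L := by positivity
  have a5 : 0 ≤ B * B' * σ L := by positivity
  have e6 : B * B' * (ρ L + σ L) = B * B' * ρ L + B * B' * σ L := by ring
  rw [e6] at a3
  rw [e5, he L]
  refine ⟨by linarith, by linarith, by linarith, fun d hd => ?_, fun d hd => ?_⟩
  all_goals
    have rd := hρ d
    have sd := hσ d
    have td := ht d
    have tLd := hta d L hd
    have b2 := h2 _ sd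
    have b3 := h2 _ rd
    have b4 := h4 (ρ d + σ d) _ td
    have b5 := h4 _ _ tLd
    have e7 : B * B' * (ρ d + σ d) = B * B' * ρ d + B * B' * σ d := by ring
    rw [e7] at b4
    rw [he d]
    have b6 : 0 ≤ B * B' * ρ d := by positivity
    have b7 : 0 ≤ B * B' * σ d := by positivity
    linarith

/-- **The density of the gas truncated at depth `L`**, with all depth tails. -/
theorem depth_tails {T C γ C₀ : ℝ} (hT : 0 ≤ T) (hγ : 0 < γ) (hC : 0 ≤ C) (hC₀ : 0 ≤ C₀)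
    {f₀ : E3 → E3 → ℝ≥0∞} {m₀ : Measurable fun p : E3 × E3 => f₀ p.1 p.2}
    {f : ℝ → E3 → E3 → ℝ≥0∞} (hf : G.Mild f₀ m₀ T f)
    (hfC : ∀ t ∈ Icc 0 T, ∀ x v, f t x v ≤ gs C γ v) (hf0 : ∀ x v, f₀ x v ≤ gs C γ v)
    (hm : ∀ v, ∫⁻ x, f₀ x v ≤ gs C₀ γ v) :
    ∃ (M b : ℝ) (e : ℕ → ℝ), 0 ≤ M ∧ 0 < b ∧ (∀ n, 0 ≤ e n) ∧ Antitone e ∧ SuperExp e ∧
      ∀ᶠ L in atTop, ∃ u : Dn,
        (∀ s ∈ Icc 0 T, ∀ x v, G.Psi f₀ m₀ L u.1 u.2 s x v = u.1 s x v) ∧
        (∀ d, ∀ s ∈ Icc 0 T, ∀ x v, G.Psi f₀ m₀ d u.1 u.2 s x v ≤ gs M b v) ∧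
        (∀ d, ∀ s ∈ Icc 0 T, ∀ v, xint (G.Psi f₀ m₀ d u.1 u.2) s v ≤ gs M b v) ∧
        (∀ s ∈ Icc 0 T, ∀ x v, f s x v ≤ u.1 s x v + gs (e L) b v ∧
          u.1 s x v ≤ f s x v + gs (e L) b v) ∧
        (∀ s ∈ Icc 0 T, ∀ v, xint (pd f u.1) s v ≤ gs (e L) b v ∧
          xint (pd u.1 f) s v ≤ gs (e L) b v) ∧
        (∀ d ≤ L, ∀ s ∈ Icc 0 T, ∀ x v,
          u.1 s x v ≤ G.Psi f₀ m₀ d u.1 u.2 s x v + gs (e d) b v) ∧
        (∀ d ≤ L, ∀ s ∈ Icc 0 T, ∀ v,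
          xint (pd u.1 (G.Psi f₀ m₀ d u.1 u.2)) s v ≤ gs (e d) b v) := by
  obtain ⟨mf, hsol⟩ := hf
  obtain ⟨B, hB, hev⟩ := sup_part (G := G) (m₀ := m₀) hT hγ hC mf hsol hfC hf0
  obtain ⟨C₁, hC₁⟩ : ∃ C₁, C₁ = C₀ * ∑' n, G.coef (C + 1) (γ / 4) T n := ⟨_, rfl⟩
  have hC₁0 : 0 ≤ C₁ :=
    hC₁ ▸ mul_nonneg hC₀ (tsum_nonneg fun n => G.coef_nonneg (by positivity) hT n)
  obtain ⟨M, hM⟩ : ∃ M, M = C + 1 + C₁ := ⟨_, rfl⟩
  have hM0 : 0 ≤ M := by rw [hM]; positivity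
  obtain ⟨B', hB', hl1⟩ := l1_part G (m₀ := m₀) hT hγ hC₀ hM0 hm
  obtain ⟨C₂, hC₂⟩ : ∃ C₂, C₂ = C₀ * ∑' n, G.coef C γ T n := ⟨_, rfl⟩
  have hC₂0 : 0 ≤ C₂ := hC₂ ▸ mul_nonneg hC₀ (tsum_nonneg fun n => G.coef_nonneg hC hT n)
  obtain ⟨ρ, hρ⟩ : ∃ ρ : ℕ → ℝ, ∀ n, ρ n = C * G.coef C γ T n := ⟨_, fun _ => rfl⟩
  obtain ⟨σ, hσ⟩ : ∃ σ : ℕ → ℝ, ∀ n, σ n = C₂ * G.coef C (γ / 2) T n := ⟨_, fun _ => rfl⟩
  have hρ0 : ∀ n, 0 ≤ ρ n := fun n => hρ n ▸ mul_nonneg hC (G.coef_nonneg hC hT n)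
  have hσ0 : ∀ n, 0 ≤ σ n := fun n => hσ n ▸ mul_nonneg hC₂0 (G.coef_nonneg hC hT n)
  have hρt : ∀ A : ℝ, 0 ≤ A → Tendsto (fun n => A ^ n * ρ n) atTop (𝓝 0) := fun A hA => by
    have h1 := (G.coef_tendsto hC hγ hT A hA).const_mul C
    rw [mul_zero] at h1
    refine h1.congr fun n => ?_
    rw [hρ]
    ring
  have hσt : ∀ A : ℝ, 0 ≤ A → Tendsto (fun n => A ^ n * σ n) atTop (𝓝 0) := fun A hA => by
    have h1 := (G.coef_tendsto (b := γ / 2) hC (by positivity) hT A hA).const_mul C₂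
    rw [mul_zero] at h1
    refine h1.congr fun n => ?_
    rw [hσ]
    ring
  obtain ⟨e, he⟩ : ∃ e : ℕ → ℝ, ∀ n, e n = 3 * (B * B') * antiMaj (fun n => ρ n + σ n) n :=
    ⟨_, fun _ => rfl⟩
  have hτ : SuperExp fun n => ρ n + σ n := fun A hA => by
    have h1 := (hρt A hA).add (hσt A hA)
    rw [add_zero] at h1
    refine h1.congr fun n => ?_
    ring
  have hBB : 1 ≤ B * B' := one_le_mul_of_one_le_of_one_le hB hB'
  have ht0 : ∀ n, 0 ≤ antiMaj (fun n => ρ n + σ n) n := fun n =>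
    (add_nonneg (hρ0 n) (hσ0 n)).trans (le_antiMaj hτ le_rfl)
  have he0 : ∀ n, 0 ≤ e n := fun n => he n ▸ mul_nonneg (by positivity) (ht0 n)
  have hea : Antitone e := fun n m hnm => by
    rw [he, he]
    exact mul_le_mul_of_nonneg_left (antiMaj_antitone hτ hnm) (by positivity)
  have hes : SuperExp e := fun A hA => by
    have h1 := (antiMaj_superExp hτ (fun n => add_nonneg (hρ0 n) (hσ0 n)) A hA).const_mul
      (3 * (B * B'))
    rw [mul_zero] at h1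
    refine h1.congr fun n => ?_
    rw [he]
    ring
  refine ⟨M, γ / 16, e, hM0, by positivity, he0, hea, hes, ?_⟩
  filter_upwards [hev] with L hL
  obtain ⟨u, hfix, hbd, hcl, hcld⟩ := hL
  rw [← hρ] at hcl hcld
  obtain ⟨k1, k2, k2', k3, k4⟩ : B * ρ L ≤ e L ∧ σ L + B' * (B * ρ L) ≤ e L ∧
      B' * (B * ρ L) ≤ e L ∧ (∀ d ≤ L, B * ρ L + ρ d + B * ρ L ≤ e d) ∧
      ∀ d ≤ L, B' * (B * ρ L) + (σ d + B' * (B * ρ L)) ≤ e d :=
    tails_consts hB hB' hρ0 hσ0 (fun n => le_antiMaj hτ le_rfl)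
      (fun n m hnm => antiMaj_antitone hτ hnm) he L
  have r0 := hρ0 L
  have s0 := hσ0 L
  have hB0 : 0 ≤ B := by linarith
  have hB0' : 0 ≤ B' := by linarith
  have hFle : ∀ d, ∀ s ∈ Icc 0 T, ∀ x v, G.Psi f₀ m₀ d f mf s x v ≤ f s x v :=
    fun d s hs x v => hsol.pic_le _ d hs x v
  have hsupf : ∀ d, ∀ s ∈ Icc 0 T, ∀ x v, G.Psi f₀ m₀ d f mf s x v ≤
      gs (C + 1) (γ / 4) v := fun d s hs x v =>
    ((hFle d s hs x v).trans (hfC s hs x v)).trans
      (gs_mono hC (by linarith) (by linarith) v)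
  have hmu := mass_part G (m₀ := m₀) hT hγ hC₀ (by positivity) hm u hbd
  have hmf := mass_part G (m₀ := m₀) hT hγ hC₀ (by positivity) hm ⟨f, mf⟩ hsupf
  rw [← hC₁] at hmu hmf
  have to1 : ∀ v, gs (C + 1) (γ / 4) v ≤ gs M (γ / 8) v := fun v =>
    gs_mono (by positivity) (by linarith) (by linarith) v
  have to2 : ∀ v, gs C₁ (γ / 8) v ≤ gs M (γ / 8) v := fun v =>
    gs_mono hC₁0 (by linarith) le_rfl v
  have to3 : ∀ v, gs M (γ / 8) v ≤ gs M (γ / 16) v := fun v =>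
    gs_mono hM0 le_rfl (by linarith) v
  have huf := hl1 u ⟨f, mf⟩ (B * ρ L) (by positivity)
    (fun s hs x v => ⟨(hcl s hs x v).2, (hcl s hs x v).1⟩)
    (fun d s hs x v => (hbd d s hs x v).trans (to1 v))
    (fun d s hs x v => (hsupf d s hs x v).trans (to1 v))
    (fun d s hs v => (hmu d s hs v).trans (to2 v))
  have hfu := hl1 ⟨f, mf⟩ u (B * ρ L) (by positivity) hcl
    (fun d s hs x v => (hsupf d s hs x v).trans (to1 v))
    (fun d s hs x v => (hbd d s hs x v).trans (to1 v))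
    (fun d s hs v => (hmf d s hs v).trans (to2 v))
  have hxf : ∀ t ∈ Icc 0 T, ∀ v, xint f t v ≤ gs C₂ (γ / 2) v := fun t ht v => by
    rw [hC₂]
    exact hsol.xint_le _ (b := γ) hC hT hγ le_rfl hC₀ hfC
      (fun t _ v => xint_data_le hm ⟨f, mf⟩ t v) ht v
  have hxrem : ∀ n, ∀ t ∈ Icc 0 T, ∀ v,
      xint (pd f (G.Psi f₀ m₀ n f mf)) t v ≤ gs (σ n) (γ / 16) v := by
    intro n t ht v
    have h1 := hsol.xint_rem_le _ (b := γ / 2) hC hT (by positivity) (by linarith) hC₂0 hfC hxf n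
      ht v
    rw [← hσ] at h1
    exact h1.trans (gs_mono (hσ0 n) le_rfl (by linarith) v)
  have hcomp : ∀ s ∈ Icc 0 T, ∀ v, xint (pd u.1 f) s v ≤ gs (B' * (B * ρ L)) (γ / 16) v := by
    intro s hs v
    have e1 : xint (pd u.1 f) s v ≤
        xint (pd (G.Psi f₀ m₀ L u.1 u.2) (G.Psi f₀ m₀ L f mf)) s v := by
      refine lintegral_mono fun x => ?_
      unfold pd
      rw [hfix s hs x v]
      exact tsub_le_tsub_left (hFle L s hs x v) _
    exact e1.trans (huf L s hs v)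
  refine ⟨u, hfix, fun d s hs x v => (hbd d s hs x v).trans ((to1 v).trans (to3 v)),
    fun d s hs v => (hmu d s hs v).trans ((to2 v).trans (to3 v)),
    fun s hs x v => ⟨?_, ?_⟩, fun s hs v => ⟨?_, ?_⟩, fun d hd s hs x v => ?_,
    fun d hd s hs v => ?_⟩
  · exact (hcl s hs x v).1.trans (add_le_add le_rfl (gs_mono (by positivity) k1 (by linarith) v))
  · exact (hcl s hs x v).2.trans (add_le_add le_rfl (gs_mono (by positivity) k1 (by linarith) v))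
  · have e1 : xint (pd f u.1) s v = xint (pd f (G.Psi f₀ m₀ L u.1 u.2)) s v := by
      refine lintegral_congr fun x => ?_
      unfold pd
      rw [hfix s hs x v]
    rw [e1]
    refine (xint_pd_le_add (h := f) (k := G.Psi f₀ m₀ L f mf)
      (j := G.Psi f₀ m₀ L u.1 u.2) mf (Coll.jm_Psi L mf) s v).trans ?_
    refine (add_le_add (hxrem L s hs v) (hfu L s hs v)).trans ?_
    rw [gs_add s0 (by positivity)]
    exact gs_mono (by positivity) k2 le_rfl v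
  · exact (hcomp s hs v).trans (gs_mono (by positivity) k2' le_rfl v)
  · have r1 := hρ0 d
    have i1 := (hcl s hs x v).2
    have i2 : f s x v ≤ G.Psi f₀ m₀ d f mf s x v + gs (ρ d) (γ / 16) v := by
      have h1 := hsol.pic_add_rem _ d hs x v
      have h2 := hsol.rem_le _ hC hγ hT hfC d hs x v
      rw [← hρ] at h2
      rw [← h1]
      exact add_le_add le_rfl (h2.trans (gs_mono r1 le_rfl (by linarith) v))
    have i3 := (hcld d s hs x v).1
    have i4 : gs (B * ρ L) (γ / 4) v ≤ gs (B * ρ L) (γ / 16) v :=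
      gs_mono (by positivity) le_rfl (by linarith) v
    calc u.1 s x v ≤ f s x v + gs (B * ρ L) (γ / 16) v := i1.trans (add_le_add le_rfl i4)
      _ ≤ ((G.Psi f₀ m₀ d u.1 u.2 s x v + gs (B * ρ L) (γ / 16) v) +
          gs (ρ d) (γ / 16) v) + gs (B * ρ L) (γ / 16) v :=
          add_le_add (i2.trans (add_le_add (i3.trans (add_le_add le_rfl i4)) le_rfl)) le_rfl
      _ = G.Psi f₀ m₀ d u.1 u.2 s x v + (gs (B * ρ L) (γ / 16) v +
          gs (ρ d) (γ / 16) v + gs (B * ρ L) (γ / 16) v) := by ring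
      _ ≤ _ := by
          refine add_le_add le_rfl ?_
          rw [gs_add (by positivity) r1, gs_add (by positivity) (by positivity)]
          exact gs_mono (by positivity) (k3 d hd) le_rfl v
  · have s1 := hσ0 d
    have i1 := xint_pd_le_add (j := G.Psi f₀ m₀ d u.1 u.2) u.2 mf s v
    have i2 := xint_pd_le_add (h := f) (k := G.Psi f₀ m₀ d f mf)
      (j := G.Psi f₀ m₀ d u.1 u.2) mf (Coll.jm_Psi d mf) s v
    refine i1.trans ((add_le_add (hcomp s hs v) (i2.trans (add_le_add (hxrem d s hs v)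
      (hfu d s hs v)))).trans ?_)
    rw [gs_add s1 (by positivity), gs_add (by positivity) (by positivity)]
    exact gs_mono (by positivity) (k4 d hd) le_rfl v

end Vale.Agent.P119.KE
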